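import Vale.Agent.P095.Amenable.Filtration

/-!
# Scalars for averages: elements commuting with all increments
-/

set_option linter.unusedSectionVars false

open scoped ComplexOrder

namespace Vale.Agent.P095.Amenable

noncomputable section

variable {F : Type*} [CStarAlgebra F] [PartialOrder F] [StarOrderedRing F] {ι : Type*}
  {s : Finset ι} {w : ι → ℝ} {ε : ℝ} {f : ℕ → ι → F} {l : ℕ}

theorem commute_psum {c : F} (h : ∀ i < l, ∀ g ∈ s, Commute c (f i g)) {g : ι} (hg : g ∈ s) :
    Commute c (psum f l g) :=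
  Commute.sum_right _ _ _ fun i hi => h i (Finset.mem_range.1 hi) g hg

theorem commute_isq_part {c : F} (h : ∀ i < l, ∀ g ∈ s, Commute c (f i g)) :
    Commute c (isq (part s w ε f l)) := by
  refine ((Commute.sum_left _ _ _ fun g hg => ?_).cfc_real _).symm
  exact ((commute_psum h hg).symm.cfc_real _).smul_left (w g)

theorem commute_avg {c : F} (h : ∀ i < l, ∀ g ∈ s, Commute c (f i g)) {x : ι → F}
    (hx : ∀ g ∈ s, Commute c (x g)) : Commute c (avg s w ε f l x) := by
  refine (Commute.mul_right (Commute.mul_right (commute_isq_part h) ?_) (commute_isq_part h))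
  refine Commute.sum_right _ _ _ fun g hg => ?_
  have he : Commute c (ex (ε / 2) (psum f l g)) := ((commute_psum h hg).symm.cfc_real _).symm
  exact ((he.mul_right (hx g hg)).mul_right he).smul_right (w g)

/-- An element commuting with the increments comes out of the average. -/
theorem avg_mul_left {c : F} (h : ∀ i < l, ∀ g ∈ s, Commute c (f i g)) (x : ι → F) :
    avg s w ε f l (fun g => c * x g) = c * avg s w ε f l x := by
  have hm : mom s w ε f l (fun g => c * x g) = c * mom s w ε f l x := by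
    simp only [mom, Finset.mul_sum]
    refine Finset.sum_congr rfl fun g hg => ?_
    have he : Commute c (ex (ε / 2) (psum f l g)) := ((commute_psum h hg).symm.cfc_real _).symm
    rw [mul_smul_comm]
    congr 1
    simp only [← mul_assoc, he.eq]
  simp only [avg, hm, ← mul_assoc, (commute_isq_part h).eq]

theorem avg_sum {κ : Type*} (t : Finset κ) (x : κ → ι → F) :
    avg s w ε f l (fun g => ∑ i ∈ t, x i g) = ∑ i ∈ t, avg s w ε f l (x i) := by
  classical
  induction t using Finset.induction_on with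
  | empty => simp [avg, mom]
  | insert a t ha ih =>
    simp only [Finset.sum_insert ha]
    rw [← ih, ← avg_add]
    rfl

theorem avg_mem_of_closed {C : StarSubalgebra ℂ F} (hC : IsClosed (C : Set F))
    (hf : ∀ i < l, ∀ g ∈ s, f i g ∈ C) {x : ι → F} (hx : ∀ g ∈ s, x g ∈ C) :
    avg s w ε f l x ∈ C := by
  have hp : ∀ g ∈ s, psum f l g ∈ C := fun g hg =>
    sum_mem fun i hi => hf i (Finset.mem_range.1 hi) g hg
  have hsm : ∀ (r : ℝ) (y : F), y ∈ C → r • y ∈ C := fun r y hy => by
    rw [← Complex.coe_smul]; exact SMulMemClass.smul_mem _ hy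
  have hq : isq (part s w ε f l) ∈ C :=
    isq_mem hC (sum_mem fun g hg => hsm _ _ (ex_mem hC ε (hp g hg)))
  exact mul_mem (mul_mem hq (sum_mem fun g hg => hsm _ _ (mul_mem (mul_mem
    (ex_mem hC _ (hp g hg)) (hx g hg)) (ex_mem hC _ (hp g hg))))) hq

/-- The defect of a signed combination is twice the sum of the defects of its terms. -/
theorem defect_signed (τ : F →ₗ[ℂ] ℂ) {r : ℕ} (ρ : Fin r → F) (y : Fin r → ι → F)
    (hf : ∀ g ∈ s, f l g = ∑ i, ρ i * y i g)
    (hρ : ∀ i, ∀ i' < l, ∀ g ∈ s, Commute (ρ i) (f i' g))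
    (hρy : ∀ i j, ∀ g ∈ s, Commute (ρ i) (y j g))
    (hsq : ∀ i, τ (avg s w ε f l (fun g => y i g * y i g) * (ρ i * ρ i)) =
      2 * τ (avg s w ε f l fun g => y i g * y i g))
    (hsq' : ∀ i, τ (avg s w ε f l (y i) * avg s w ε f l (y i) * (ρ i * ρ i)) =
      2 * τ (avg s w ε f l (y i) * avg s w ε f l (y i)))
    (hoff : ∀ i j, i ≠ j → τ (avg s w ε f l (fun g => y i g * y j g) * (ρ i * ρ j)) = 0)
    (hoff' : ∀ i j, i ≠ j →
      τ (avg s w ε f l (y i) * avg s w ε f l (y j) * (ρ i * ρ j)) = 0) :
    defect τ s w ε f l = 2 * ∑ i, ((τ (avg s w ε f l fun g => y i g * y i g)).re -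
      (τ (avg s w ε f l (y i) * avg s w ε f l (y i))).re) := by
  have hA : ∀ i j, Commute (ρ i) (avg s w ε f l (y j)) := fun i j => commute_avg (hρ i) (hρy i j)
  have e1 : avg s w ε f l (fun g => f l g * f l g) =
      ∑ i, ∑ j, avg s w ε f l (fun g => y i g * y j g) * (ρ i * ρ j) := by
    rw [avg_congr s w ε f l (y := fun g => ∑ i, ∑ j, (ρ i * ρ j) * (y i g * y j g)) fun g hg => by
      rw [hf g hg, Finset.sum_mul_sum]
      refine Finset.sum_congr rfl fun i _ => Finset.sum_congr rfl fun j _ => ?_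
      rw [mul_assoc, ← mul_assoc (y i g), ← (hρy j i g hg).eq, mul_assoc, ← mul_assoc],
      avg_sum]
    refine Finset.sum_congr rfl fun i _ => ?_
    rw [avg_sum]
    refine Finset.sum_congr rfl fun j _ => ?_
    have hc : ∀ i' < l, ∀ g ∈ s, Commute (ρ i * ρ j) (f i' g) := fun i' hi' g hg =>
      Commute.mul_left (hρ i i' hi' g hg) (hρ j i' hi' g hg)
    rw [avg_mul_left hc]
    exact (commute_avg hc fun g hg => Commute.mul_right
      (Commute.mul_left (hρy i i g hg) (hρy j i g hg))
      (Commute.mul_left (hρy i j g hg) (hρy j j g hg))).eq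
  have e2 : avg s w ε f l (f l) * avg s w ε f l (f l) =
      ∑ i, ∑ j, avg s w ε f l (y i) * avg s w ε f l (y j) * (ρ i * ρ j) := by
    rw [avg_congr s w ε f l (y := fun g => ∑ i, ρ i * y i g) hf, avg_sum, Finset.sum_mul_sum]
    refine Finset.sum_congr rfl fun i _ => Finset.sum_congr rfl fun j _ => ?_
    rw [avg_mul_left (hρ i), avg_mul_left (hρ j)]
    calc ρ i * avg s w ε f l (y i) * (ρ j * avg s w ε f l (y j))
        = (avg s w ε f l (y i) * ρ i) * (ρ j * avg s w ε f l (y j)) := by rw [(hA i i).eq]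
      _ = avg s w ε f l (y i) * ((ρ i * ρ j) * avg s w ε f l (y j)) := by simp only [mul_assoc]
      _ = avg s w ε f l (y i) * (avg s w ε f l (y j) * (ρ i * ρ j)) := by
        rw [((hA i j).mul_left (hA j j)).eq]
      _ = _ := by simp only [mul_assoc]
  rw [defect, e1, e2, map_sum, map_sum, Complex.re_sum, Complex.re_sum, ← Finset.sum_sub_distrib,
    Finset.mul_sum]
  refine Finset.sum_congr rfl fun i _ => ?_
  rw [map_sum, map_sum, Finset.sum_eq_single i (fun j _ hji => hoff i j (Ne.symm hji))
    (fun h => absurd (Finset.mem_univ i) h), Finset.sum_eq_single i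
    (fun j _ hji => hoff' i j (Ne.symm hji)) (fun h => absurd (Finset.mem_univ i) h), hsq i, hsq' i,
    Complex.mul_re, Complex.mul_re]
  simp only [Complex.re_ofNat, Complex.im_ofNat, zero_mul, sub_zero]
  ring

end

end Vale.Agent.P095.Amenable
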