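import Vale.Agent.P095.Amenable.Defs

/-!
# Balls in a group of subexponential growth

The exponential weights of the word length: their powers have bounded sums over the balls and
they change by a bounded ratio under a generator, up to an edge error which is small against the
size of the ball.
-/

open Filter Topology
open scoped Pointwise

namespace Vale.Agent.P095.Amenable

theorem SubexpGrowth.exists_weights {Q : Type} [Group Q] [DecidableEq Q] (h : SubexpGrowth Q) :
    ∃ (W : Finset Q) (B : ℕ → Finset Q), Subgroup.closure (W : Set Q) = ⊤ ∧ (∀ R, 1 ∈ B R) ∧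
      Monotone B ∧ (∀ u ∈ W, ∀ R, ∀ q ∈ B R, u * q ∈ B (R + 1)) ∧
      ∀ η : ℝ, 0 < η → ∃ w : Q → ℝ, w 1 = 1 ∧ (∀ q, 0 ≤ w q) ∧
        (∀ t : ℝ, 0 < t → ∃ C, ∀ R, ∑ q ∈ B R, w q ^ t ≤ C) ∧
        ∀ M δ : ℝ, 0 < M → 0 < δ → ∀ᶠ R in Filter.atTop, ∃ δ', 0 ≤ δ' ∧
          δ' * (B (R + 1)).card * M ≤ δ ∧
          ∀ u ∈ W, ∀ q ∈ B (R + 1),
            |(if u⁻¹ * q ∈ B R then w (u⁻¹ * q) else 0) - (if q ∈ B R then w q else 0)|
              ≤ (Real.exp η - 1) * (if q ∈ B R then w q else 0) + δ' := by
  obtain ⟨W, h1, hinv, hcl, hgrow⟩ := h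
  have hmem : ∀ q : Q, ∃ n, q ∈ W ^ n := by
    intro q
    have hq : q ∈ Subgroup.closure (W : Set Q) := hcl ▸ Subgroup.mem_top q
    induction hq using Subgroup.closure_induction'' with
    | mem x hx => exact ⟨1, by simpa using hx⟩
    | inv_mem x hx => exact ⟨1, by simpa using hinv x hx⟩
    | one => exact ⟨0, by simp⟩
    | mul x y _ _ hx hy =>
      obtain ⟨m, hm⟩ := hx
      obtain ⟨n, hn⟩ := hy
      exact ⟨m + n, by rw [pow_add]; exact Finset.mul_mem_mul hm hn⟩
  set len : Q → ℕ := fun q => Nat.find (hmem q) with hlen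
  have hB : Monotone fun n : ℕ => W ^ n := fun m n hmn => Finset.pow_subset_pow_right h1 hmn
  have hlenle : ∀ (q : Q) (n : ℕ), q ∈ W ^ n ↔ len q ≤ n := fun q n =>
    ⟨fun hq => Nat.find_le hq, fun hq => hB hq (Nat.find_spec (hmem q))⟩
  have hstep : ∀ u ∈ W, ∀ n, ∀ q ∈ W ^ n, u * q ∈ W ^ (n + 1) := fun u hu n q hq => by
    rw [pow_succ']; exact Finset.mul_mem_mul hu hq
  have hlen' : ∀ u ∈ W, ∀ q, len (u * q) ≤ len q + 1 := fun u hu q =>
    (hlenle _ _).1 (hstep u hu _ q ((hlenle _ _).2 le_rfl))
  have hcard : ∀ t : ℝ, 0 < t → ∃ C, ∀ n : ℕ, ((W ^ n).card : ℝ) ≤ C * Real.exp (t * n) :=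
    fun t ht => by
      obtain ⟨C, hC⟩ := hgrow t ht
      refine ⟨C, fun n => ?_⟩
      have := hC n
      rwa [← Finset.coe_pow, Set.ncard_coe_finset] at this
  refine ⟨W, fun n => W ^ n, hcl, fun R => Finset.one_mem_pow h1, hB, hstep, fun η hη => ?_⟩
  refine ⟨fun q => Real.exp (-η * len q), ?_, fun q => (Real.exp_pos _).le, fun t ht => ?_,
    fun M δ hM hδ => ?_⟩
  · have : len 1 = 0 := Nat.le_zero.1 ((hlenle 1 0).1 (by simp))
    simp [this]
  · obtain ⟨C, hC⟩ := hcard (η * t / 2) (by positivity)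
    have hC0 : 0 ≤ C := by
      have := hC 0
      simp at this
      linarith
    set r := Real.exp (-(η * t / 2)) with hr
    have hr1 : r < 1 := Real.exp_lt_one_iff.2 (by nlinarith [mul_pos hη ht])
    refine ⟨C * (1 - r)⁻¹, fun R => ?_⟩
    rw [← Finset.sum_fiberwise_of_maps_to (g := len) (t := Finset.range (R + 1)) fun q hq =>
      Finset.mem_range.2 (Nat.lt_succ_of_le ((hlenle q R).1 hq))]
    calc _ ≤ ∑ n ∈ Finset.range (R + 1), C * r ^ n := by
          refine Finset.sum_le_sum fun n _ => ?_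
          calc _ ≤ ∑ q ∈ W ^ n, Real.exp (-η * n) ^ t := by
                refine (Finset.sum_le_sum (g := fun _ => Real.exp (-η * n) ^ t) fun q hq => ?_).trans
                  (Finset.sum_le_sum_of_subset_of_nonneg (fun q hq => ?_)
                    fun q _ _ => Real.rpow_nonneg (Real.exp_pos _).le t)
                · simp only [(Finset.mem_filter.1 hq).2, le_refl]
                · exact (hlenle q n).2 (Finset.mem_filter.1 hq).2.le
            _ = (W ^ n).card * Real.exp (-η * n * t) := by
                rw [Finset.sum_const, nsmul_eq_mul, ← Real.exp_mul]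
            _ ≤ C * Real.exp (η * t / 2 * n) * Real.exp (-η * n * t) :=
                mul_le_mul_of_nonneg_right (hC n) (Real.exp_pos _).le
            _ = C * r ^ n := by
                rw [hr, ← Real.exp_nat_mul, mul_assoc, ← Real.exp_add]
                congr 2
                ring
      _ ≤ C * (1 - r)⁻¹ := by
          rw [← Finset.mul_sum]
          refine mul_le_mul_of_nonneg_left ?_ hC0
          rw [← tsum_geometric_of_lt_one (Real.exp_pos _).le hr1]
          exact (summable_geometric_of_lt_one (Real.exp_pos _).le hr1).sum_le_tsum _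
            fun i _ => pow_nonneg (Real.exp_pos _).le i
  · obtain ⟨C, hC⟩ := hcard (η / 2) (by positivity)
    have hlim : Tendsto (fun R : ℕ => C * M * Real.exp (η / 2) * Real.exp (-(η / 2)) ^ R) atTop
        (𝓝 0) := by
      simpa using (tendsto_pow_atTop_nhds_zero_of_lt_one (Real.exp_pos _).le
        (Real.exp_lt_one_iff.2 (by linarith : -(η / 2) < 0))).const_mul (C * M * Real.exp (η / 2))
    filter_upwards [hlim.eventually_le_const hδ] with R hR
    refine ⟨Real.exp (-η * R), (Real.exp_pos _).le, ?_, fun u hu q _ => ?_⟩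
    · refine le_trans ?_ hR
      calc Real.exp (-η * R) * (W ^ (R + 1)).card * M
          ≤ Real.exp (-η * R) * (C * Real.exp (η / 2 * ((R + 1 : ℕ) : ℝ))) * M := by
            gcongr; exact hC (R + 1)
        _ = C * M * (Real.exp (-η * R) * Real.exp (η / 2 * ((R + 1 : ℕ) : ℝ))) := by ring
        _ = C * M * (Real.exp (η / 2) * Real.exp (-(η / 2)) ^ R) := by
            rw [← Real.exp_nat_mul, ← Real.exp_add, ← Real.exp_add]
            congr 2
            push_cast; ring
        _ = _ := by ring
    · have a1 : len q ≤ len (u⁻¹ * q) + 1 := by simpa using hlen' u hu (u⁻¹ * q)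
      have a2 : len (u⁻¹ * q) ≤ len q + 1 := hlen' _ (hinv u hu) q
      have ha1 : (len q : ℝ) ≤ len (u⁻¹ * q) + 1 := by exact_mod_cast a1
      have ha2 : (len (u⁻¹ * q) : ℝ) ≤ len q + 1 := by exact_mod_cast a2
      have hη1 : 0 ≤ Real.exp η - 1 := by linarith [Real.one_le_exp hη.le]
      set x := Real.exp (-η * len q) with hx
      set y := Real.exp (-η * len (u⁻¹ * q)) with hy
      have hxp : 0 < x := Real.exp_pos _
      have hyp : 0 < y := Real.exp_pos _
      have hp : 0 < Real.exp (-η * R) := Real.exp_pos _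
      have hyx : y ≤ Real.exp η * x := by
        rw [hx, hy, ← Real.exp_add]; exact Real.exp_le_exp.2 (by nlinarith)
      have hxy : x ≤ Real.exp η * y := by
        rw [hx, hy, ← Real.exp_add]; exact Real.exp_le_exp.2 (by nlinarith)
      have hedge : ∀ p : Q, R ≤ len p → Real.exp (-η * len p) ≤ Real.exp (-η * R) := fun p hp => by
        refine Real.exp_le_exp.2 ?_
        have : (R : ℝ) ≤ len p := by exact_mod_cast hp
        nlinarith
      simp only [hlenle]
      by_cases hq : len q ≤ R <;> by_cases hq' : len (u⁻¹ * q) ≤ R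
      · rw [if_pos hq', if_pos hq, abs_le]
        have h5 : 0 ≤ (Real.exp η - 1) * (Real.exp η * y - x) := mul_nonneg hη1 (by linarith)
        constructor <;> nlinarith
      · rw [if_neg hq', if_pos hq, zero_sub, abs_neg, abs_of_pos hxp]
        have h5 : x ≤ Real.exp (-η * R) := hedge q (by omega)
        nlinarith [mul_nonneg hη1 hxp.le]
      · rw [if_pos hq', if_neg hq, sub_zero, mul_zero, zero_add, abs_of_pos hyp]
        exact hedge (u⁻¹ * q) (by omega)
      · rw [if_neg hq', if_neg hq, sub_zero, abs_zero, mul_zero, zero_add]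
        exact hp.le

end Vale.Agent.P095.Amenable
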