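import Vale.Agent.P095.Amenable.Layer

/-!
# Signs and selections from coins

Sequentially independent coins give centred fixed self-adjoint elements, and, through smoothed
signs of their real parts, partitions of unity with equal weights and small overlap.
-/

set_option linter.unusedSectionVars false

open TopologicalSpace Filter Topology
open scoped ComplexOrder
open Vale.Agent.P101 (genAlg isClosed_genAlg subset_genAlg genAlg_le isSeparable_genAlg)

namespace Vale.Agent.P095.Amenable

noncomputable section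

variable {G : Type} [Group G] {F : Type*} [CStarAlgebra F] [PartialOrder F] [StarOrderedRing F]
  {T : Set (F →ₗ[ℂ] ℂ)} {α : G → (F ≃⋆ₐ[ℂ] F)} {K : Subgroup G}

theorem genAlg_le_of_subset {s t : Set F} (h : s ⊆ t) : genAlg s ≤ genAlg t :=
  genAlg_le (isClosed_genAlg t) (h.trans (subset_genAlg t))

namespace Bits

/-- The real part of a unitary. -/
def half (u : F) : F := (1 / 2 : ℂ) • (u + star u)

/-- `t √(∑_{i < M} (1 - t²)^i)`: an odd function whose square is `1 - (1 - t²)^M` on `[-1, 1]`. -/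
def sgnFun (M : ℕ) (t : ℝ) : ℝ :=
  t * Real.sqrt (∑ i ∈ Finset.range M, (1 - t ^ 2) ^ i)

/-- One half of the partition of unity given by the smoothed sign. -/
def splitFun (M : ℕ) (b : Bool) (t : ℝ) : ℝ :=
  Real.sqrt ((1 + (if b then 1 else -1) * sgnFun M t) / 2)

theorem continuous_sgnFun (M : ℕ) : Continuous (sgnFun M) := by
  unfold sgnFun
  fun_prop

theorem continuous_splitFun (M : ℕ) (b : Bool) : Continuous (splitFun M b) := by
  have := continuous_sgnFun M
  unfold splitFun
  fun_prop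

theorem sgnFun_sq (M : ℕ) {t : ℝ} (ht : t ∈ Set.Icc (-1 : ℝ) 1) :
    sgnFun M t ^ 2 = 1 - (1 - t ^ 2) ^ M ∧ 0 ≤ (1 - t ^ 2) ^ M ∧ |sgnFun M t| ≤ 1 := by
  have h0 : 0 ≤ 1 - t ^ 2 := by nlinarith [ht.1, ht.2]
  have h1 : sgnFun M t ^ 2 = 1 - (1 - t ^ 2) ^ M := by
    rw [sgnFun, mul_pow, Real.sq_sqrt (Finset.sum_nonneg fun i _ => pow_nonneg h0 i)]
    have := mul_neg_geom_sum (1 - t ^ 2) M
    rw [sub_sub_cancel] at this
    exact this
  refine ⟨h1, pow_nonneg h0 M, ?_⟩
  rw [← sq_le_one_iff_abs_le_one, h1]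
  linarith [pow_nonneg h0 M]

theorem splitFun_sq (M : ℕ) (b : Bool) {t : ℝ} (ht : t ∈ Set.Icc (-1 : ℝ) 1) :
    splitFun M b t * splitFun M b t = (1 + (if b then 1 else -1) * sgnFun M t) / 2 ∧
      |splitFun M b t| ≤ 1 := by
  have h := abs_le.1 (sgnFun_sq M ht).2.2
  have h1 : 0 ≤ (1 + (if b then 1 else -1) * sgnFun M t) / 2 ∧
      (1 + (if b then 1 else -1) * sgnFun M t) / 2 ≤ 1 := by
    cases b <;> simp <;> constructor <;> linarith
  refine ⟨Real.mul_self_sqrt h1.1, ?_⟩
  rw [splitFun, abs_of_nonneg (Real.sqrt_nonneg _)]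
  exact Real.sqrt_le_one.2 h1.2

/-- The central binomial moment tends to zero. -/
theorem centralBinom_sq_le (M : ℕ) :
    ((M.centralBinom : ℝ) / 4 ^ M) ^ 2 * (2 * M + 1) ≤ 1 := by
  induction M with
  | zero => simp
  | succ M ih =>
    have h : ((M : ℝ) + 1) * ((M + 1).centralBinom : ℝ) = 2 * (2 * M + 1) * M.centralBinom := by
      exact_mod_cast Nat.succ_mul_centralBinom_succ M
    set c := (M.centralBinom : ℝ) / 4 ^ M with hc
    have e : ((M + 1).centralBinom : ℝ) / 4 ^ (M + 1) = c * ((2 * M + 1) / (2 * (M + 1))) := by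
      rw [hc, pow_succ]
      field_simp
      linear_combination 2 * h
    rw [e, mul_pow, mul_assoc]
    refine le_trans (mul_le_mul_of_nonneg_left ?_ (sq_nonneg c)) ih
    rw [div_pow, div_mul_eq_mul_div, div_le_iff₀ (by positivity)]
    push_cast
    nlinarith

/-- The powers of an independent unitary are orthogonal to `C`. -/
structure Indep (τ : F →ₗ[ℂ] ℂ) (C : StarSubalgebra ℂ F) (u : F) : Prop where
  unit : u ∈ unitary F
  comm : ∀ X ∈ C, Commute u X
  orth : ∀ X ∈ C, ∀ n : ℕ, n ≠ 0 → τ (X * u ^ n) = 0 ∧ τ (X * star u ^ n) = 0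

theorem half_isSelfAdjoint (u : F) : IsSelfAdjoint (half u) := by
  rw [half, IsSelfAdjoint, star_smul, star_add, star_star, add_comm (star u)]
  norm_num

theorem norm_half_le {u : F} (hu : u ∈ unitary F) : ‖half u‖ ≤ 1 := by
  rcases subsingleton_or_nontrivial F with hF | hF
  · simp [Subsingleton.elim (half u) 0]
  rw [half, norm_smul]
  have h := norm_add_le u (star u)
  rw [norm_star, CStarRing.norm_of_mem_unitary hu] at h
  norm_num at h ⊢
  linarith

theorem spectrum_half {u : F} (hu : u ∈ unitary F) :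
    spectrum ℝ (half u) ⊆ Set.Icc (-1 : ℝ) 1 := fun t ht => by
  rcases subsingleton_or_nontrivial F with hF | hF
  · simp [spectrum.of_subsingleton] at ht
  have := (spectrum.norm_le_norm_of_mem ht).trans (norm_half_le hu)
  exact abs_le.1 this

variable {τ : F →ₗ[ℂ] ℂ} {C : StarSubalgebra ℂ F} {u : F}

theorem Indep.orth_mixed (h : Indep τ C u) {X : F} (hX : X ∈ C) {a b : ℕ} (hab : a ≠ b) :
    τ (X * (u ^ a * star u ^ b)) = 0 := by
  have hc : Commute u (star u) := by
    rw [commute_iff_eq, Unitary.mul_star_self_of_mem h.unit, Unitary.star_mul_self_of_mem h.unit]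
  rcases lt_or_gt_of_ne hab with hlt | hlt
  · obtain ⟨d, rfl⟩ := Nat.exists_eq_add_of_lt hlt
    rw [add_assoc, pow_add, ← mul_assoc (u ^ a), ← hc.mul_pow, Unitary.mul_star_self_of_mem h.unit,
      one_pow, one_mul]
    exact (h.orth X hX _ (Nat.succ_ne_zero d)).2
  · obtain ⟨d, rfl⟩ := Nat.exists_eq_add_of_lt hlt
    rw [add_assoc, add_comm b, pow_add, mul_assoc, ← hc.mul_pow,
      Unitary.mul_star_self_of_mem h.unit, one_pow, mul_one]
    exact (h.orth X hX _ (Nat.succ_ne_zero d)).1

theorem Indep.orth_odd (h : Indep τ C u) {X : F} (hX : X ∈ C) :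
    ∀ n a b : ℕ, Odd (a + b + n) → τ (X * (u ^ a * star u ^ b * half u ^ n)) = 0 := by
  have hc : Commute (star u) u := by
    rw [commute_iff_eq, Unitary.mul_star_self_of_mem h.unit, Unitary.star_mul_self_of_mem h.unit]
  intro n
  induction n with
  | zero =>
    intro a b hab
    rw [pow_zero, mul_one]
    refine h.orth_mixed hX ?_
    rintro rfl
    obtain ⟨k, hk⟩ := hab
    omega
  | succ n ih =>
    intro a b hab
    have e : u ^ a * star u ^ b * half u ^ (n + 1) = (1 / 2 : ℂ) •
        (u ^ (a + 1) * star u ^ b * half u ^ n + u ^ a * star u ^ (b + 1) * half u ^ n) := by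
      rw [pow_succ' (half u)]
      simp only [half, smul_mul_assoc, mul_smul_comm, add_mul, mul_add]
      congr 2
      · rw [pow_succ u a]
        simp only [mul_assoc]
        rw [← mul_assoc (star u ^ b), (hc.pow_left b).eq, mul_assoc]
      · rw [pow_succ (star u) b]; simp only [mul_assoc]
    rw [e, mul_smul_comm, mul_add, map_smul, map_add, ih _ _ (by convert hab using 1; ring),
      ih _ _ (by convert hab using 1; ring), add_zero, smul_zero]

/-- Smoothed signs are centred. -/
theorem Indep.orth_sgn (hτ : IsTrace τ) (h : Indep τ C u) {X : F} (hX : X ∈ C) (M : ℕ) :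
    τ (X * cfc (sgnFun M) (half u)) = 0 := by
  have hh := half_isSelfAdjoint u
  set k : ℝ → ℝ := fun s => Real.sqrt (∑ i ∈ Finset.range M, (1 - s) ^ i) with hk
  refine norm_le_zero_iff.1 (le_of_forall_pos_le_add fun ε hε => ?_)
  rw [zero_add]
  obtain ⟨p, hp⟩ := exists_polynomial_near_of_continuousOn 0 1 k
    (by fun_prop) (ε / (‖X‖ + 1)) (by positivity)
  have hzero : τ (X * cfc (fun t => t * p.eval (t ^ 2)) (half u)) = 0 := by
    rw [cfc_mul (fun t : ℝ => t) (fun t => p.eval (t ^ 2)) (half u) continuousOn_id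
      (p.continuous.comp (continuous_pow 2)).continuousOn, cfc_id' ℝ (half u),
      cfc_comp' (fun s => p.eval s) (fun t => t ^ 2) (half u) p.continuous.continuousOn
        (continuous_pow 2).continuousOn, cfc_pow_id (R := ℝ) (half u) 2, cfc_polynomial p _ (hh.pow 2),
      Polynomial.aeval_eq_sum_range, Finset.mul_sum, Finset.mul_sum, map_sum]
    refine Finset.sum_eq_zero fun i _ => ?_
    rw [← Complex.coe_smul, mul_smul_comm, mul_smul_comm, map_smul, ← pow_mul, ← pow_succ']
    have := h.orth_odd hX (2 * i + 1) 0 0 ⟨i, by ring⟩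
    rw [pow_zero, pow_zero, one_mul, one_mul] at this
    rw [this, smul_zero]
  have hd : ‖cfc (sgnFun M) (half u) - cfc (fun t => t * p.eval (t ^ 2)) (half u)‖ ≤
      ε / (‖X‖ + 1) := by
    rw [← cfc_sub (sgnFun M) (fun t : ℝ => t * p.eval (t ^ 2)) (half u)
      (continuous_sgnFun M).continuousOn (by fun_prop)]
    refine norm_cfc_le (by positivity) fun t ht => ?_
    obtain ⟨t1, t2⟩ := spectrum_half h.unit ht
    have := hp (t ^ 2) ⟨sq_nonneg t, by nlinarith⟩
    have hkt : sgnFun M t = t * k (t ^ 2) := rfl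
    rw [hkt, ← mul_sub, Real.norm_eq_abs, abs_mul, abs_sub_comm]
    exact (mul_le_of_le_one_left (abs_nonneg _) (abs_le.2 ⟨t1, t2⟩)).trans this.le
  rw [← sub_zero (τ _), ← hzero, ← map_sub, ← mul_sub]
  refine (hτ.norm_le_norm _).trans ((norm_mul_le _ _).trans ?_)
  refine (mul_le_mul_of_nonneg_left hd (norm_nonneg X)).trans ?_
  rw [mul_div_assoc', div_le_iff₀ (by positivity)]
  nlinarith [norm_nonneg X]

/-- The moment of `(1 - h²)^M`. -/
theorem Indep.moment (hτ : IsTrace τ) (h : Indep τ C u) (M : ℕ) :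
    τ ((1 - half u * half u) ^ M) = ((M.centralBinom : ℝ) / 4 ^ M : ℝ) := by
  have hc : Commute u (star u) := by
    rw [commute_iff_eq, Unitary.mul_star_self_of_mem h.unit, Unitary.star_mul_self_of_mem h.unit]
  have e : 1 - half u * half u = (-1 / 4 : ℂ) • (u + -star u) ^ 2 := by
    simp only [half, smul_mul_smul_comm, sq, add_mul, mul_add, mul_neg, neg_mul,
      Unitary.mul_star_self_of_mem h.unit, Unitary.star_mul_self_of_mem h.unit]
    module
  have e' : ∀ m n k : ℕ,
      τ (u ^ m * (-star u) ^ n * (k : F)) = (k : ℂ) * (-1) ^ n * τ (u ^ m * star u ^ n) := by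
    intro m n k
    rw [← neg_one_smul ℂ (star u), smul_pow, mul_smul_comm, ← Nat.cast_comm, ← nsmul_eq_mul,
      map_nsmul, map_smul, nsmul_eq_mul, smul_eq_mul, mul_assoc]
  rw [e, smul_pow, map_smul, ← pow_mul, (hc.neg_right).add_pow, map_sum,
    Finset.sum_eq_single M]
  · rw [e', show 2 * M - M = M by omega, ← hc.mul_pow, Unitary.mul_star_self_of_mem h.unit,
      one_pow, hτ.map_one, mul_one, smul_eq_mul]
    have hpow : ((-1 : ℂ) / 4) ^ M * (-1) ^ M = 1 / 4 ^ M := by
      rw [← mul_pow, show (-1 : ℂ) / 4 * -1 = 1 / 4 by norm_num, div_pow, one_pow]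
    push_cast
    rw [Nat.centralBinom_eq_two_mul_choose]
    linear_combination ((2 * M).choose M : ℂ) * hpow
  · intro m hm hne
    have hm' : m ≠ 2 * M - m := by rw [Finset.mem_range] at hm; omega
    have := h.orth_mixed (one_mem C) hm'
    rw [one_mul] at this
    rw [e', this, mul_zero]
  · intro hM
    simp at hM
    omega

theorem cfc_half_mem {s : Set F} (hu : u ∈ s) (f : ℝ → ℝ) : cfc f (half u) ∈ genAlg s := by
  have hmem : half u ∈ genAlg s :=
    SMulMemClass.smul_mem _ (add_mem (subset_genAlg s hu) (star_mem (subset_genAlg s hu)))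
  exact cfc_mem (hs := isClosed_genAlg s) f hmem

end Bits

open Bits

/-- Sequentially independent coins. -/
theorem exists_coin_seq (hc : Coins T α K) (hs : Sys T α) (S : Set F) (hS : S.Countable) :
    ∃ u : ℕ → F, (∀ i, FixedBy T α K (u i)) ∧
      ∀ i, ∀ τ ∈ T, Indep τ (genAlg (S ∪ u '' {j | j < i})) (u i) := by
  classical
  have next_ : ∀ R : {R : Set F // R.Countable}, ∃ u ∈ unitary F,
      (∀ X ∈ genAlg R.1, Commute u X) ∧ (∀ g ∈ K, Cong T (α g u) u) ∧
      ∀ τ ∈ T, ∀ X ∈ genAlg R.1, ∀ n : ℕ, n ≠ 0 →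
        τ (X * u ^ n) = 0 ∧ τ (X * star u ^ n) = 0 := by
    intro R
    obtain ⟨c, hcc, hsub⟩ := isSeparable_genAlg (F := F) R.2.isSeparable
    obtain ⟨u, hu, hcomm, hfix, horth⟩ := hc c hcc
    refine ⟨u, hu, fun X hX => ?_, hfix, fun τ hτ X hX n hn => ?_⟩
    · have hcl : IsClosed {X : F | Commute u X} :=
        isClosed_eq (continuous_const.mul continuous_id) (continuous_id.mul continuous_const)
      exact closure_minimal (fun t ht => hcomm t ht) hcl (hsub hX)
    · have hcont : Continuous τ :=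
        (τ.mkContinuous 1 fun x => by simpa using (hs.isTrace τ hτ).norm_le_norm x).continuous
      have hcl : IsClosed {X : F | τ (X * u ^ n) = 0 ∧ τ (X * star u ^ n) = 0} :=
        (isClosed_eq (hcont.comp (continuous_id.mul continuous_const)) continuous_const).inter
          (isClosed_eq (hcont.comp (continuous_id.mul continuous_const)) continuous_const)
      exact closure_minimal (fun t ht => horth t ht n hn τ hτ) hcl (hsub hX)
  choose pick hpick using next_
  let R : ℕ → {R : Set F // R.Countable} := fun i => Nat.rec ⟨S, hS⟩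
    (fun _ R => ⟨R.1 ∪ {pick R}, R.2.union (Set.countable_singleton _)⟩) i
  have hR : ∀ i, (R i).1 = S ∪ (fun j => pick (R j)) '' {j | j < i} := fun i => by
    induction i with
    | zero => simp [R]
    | succ i ih =>
      show (R i).1 ∪ {pick (R i)} = _
      ext x
      simp only [ih, Set.mem_union, Set.mem_image, Set.mem_ofPred_eq, Set.mem_singleton_iff]
      constructor
      · rintro ((hx | ⟨j, hj, rfl⟩) | rfl)
        exacts [Or.inl hx, Or.inr ⟨j, hj.trans (Nat.lt_succ_self i), rfl⟩,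
          Or.inr ⟨i, Nat.lt_succ_self i, rfl⟩]
      · rintro (hx | ⟨j, hj, rfl⟩)
        · exact Or.inl (Or.inl hx)
        · rcases Nat.lt_succ_iff_lt_or_eq.1 hj with hj | rfl
          exacts [Or.inl (Or.inr ⟨j, hj, rfl⟩), Or.inr rfl]
  refine ⟨fun i => pick (R i), fun i => (hpick (R i)).2.2.1, fun i τ hτ => ?_⟩
  rw [← hR i]
  exact ⟨(hpick (R i)).1, (hpick (R i)).2.1, (hpick (R i)).2.2.2 τ hτ⟩

/-- Centred fixed self-adjoint elements with constant square moment. -/
theorem exists_signs (hs : Sys T α) (hc : Coins T α K) (S : Set F) (hS : S.Countable) :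
    ∃ r : ℕ → F, (∀ i, IsSelfAdjoint (r i) ∧ ‖r i‖ ≤ 2 ∧ FixedBy T α K (r i) ∧
        ∀ t ∈ S, Commute (r i) t) ∧ (∀ i j, Commute (r i) (r j)) ∧
      ∀ i, ∀ X ∈ genAlg (S ∪ r '' {j | j < i}), ∀ τ ∈ T,
        τ (X * r i) = 0 ∧ τ (X * (r i * r i)) = 2 * τ X := by
  rcases T.eq_empty_or_nonempty with hT | ⟨τ₀, hτ₀⟩
  · exact ⟨fun _ => 0, fun i => ⟨IsSelfAdjoint.zero F, by simp, fun g _ => by simpa using Cong.refl T 0,
      fun t _ => Commute.zero_left t⟩, fun i j => Commute.refl 0, fun i X _ τ hτ => by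
      simp [hT] at hτ⟩
  obtain ⟨u, hfix, hu⟩ := exists_coin_seq hc hs S hS
  set r : ℕ → F := fun i => u i + star (u i) with hr
  have hsa : ∀ i, IsSelfAdjoint (r i) := fun i => IsSelfAdjoint.add_star_self (u i)
  have hlt : ∀ i j, j < i → r j ∈ genAlg (S ∪ u '' {j | j < i}) := fun i j hj =>
    add_mem (subset_genAlg _ (Or.inr ⟨j, hj, rfl⟩))
      (star_mem (subset_genAlg _ (Or.inr ⟨j, hj, rfl⟩)))
  have hcom : ∀ i, ∀ X ∈ genAlg (S ∪ u '' {j | j < i}), Commute (r i) X := fun i X hX => by
    have h1 := (hu i τ₀ hτ₀).comm X hX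
    have h2 := (hu i τ₀ hτ₀).comm (star X) (star_mem hX)
    rw [← commute_star_star, star_star] at h2
    exact h1.add_left h2
  have hle : ∀ i, genAlg (S ∪ r '' {j | j < i}) ≤ genAlg (S ∪ u '' {j | j < i}) := fun i => by
    refine genAlg_le (isClosed_genAlg _) (Set.union_subset ?_ ?_)
    · exact Set.subset_union_left.trans (subset_genAlg _)
    · rintro _ ⟨j, hj, rfl⟩; exact hlt i j hj
  refine ⟨r, fun i => ⟨hsa i, ?_, FixedBy.add hs (hfix i) (FixedBy.star hs (hfix i)),
    fun t ht => hcom i t (subset_genAlg _ (Or.inl ht))⟩, fun i j => ?_, fun i X hX τ hτ => ?_⟩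
  · rcases subsingleton_or_nontrivial F with hF | hF
    · simp [Subsingleton.elim (r i) 0]
    refine (norm_add_le _ _).trans ?_
    rw [norm_star, CStarRing.norm_of_mem_unitary (hu i τ₀ hτ₀).unit]
    norm_num
  · rcases lt_trichotomy i j with h | rfl | h
    · exact (hcom j _ (hlt j i h)).symm
    · exact Commute.refl _
    · exact hcom i _ (hlt i j h)
  · have h := hu i τ hτ
    have hX' := hle i hX
    have h1 := h.orth X hX' 1 one_ne_zero
    have h2 := h.orth X hX' 2 two_ne_zero
    rw [pow_one, pow_one] at h1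
    rw [sq, sq] at h2
    refine ⟨?_, ?_⟩
    · simp only [hr, mul_add, map_add, h1.1, h1.2, add_zero]
    · simp only [hr, add_mul, mul_add, map_add, h2.1, h2.2, Unitary.mul_star_self_of_mem h.unit,
        Unitary.star_mul_self_of_mem h.unit, mul_one]
      ring

/-- A partition of unity by fixed elements with equal weights and small overlap. -/
theorem exists_selection (hs : Sys T α) (hc : Coins T α K) (S : Set F) (hS : S.Countable)
    (J : ℕ) {δ : ℝ} (hδ : 0 < δ) :
    ∃ r : (Fin J → Bool) → F, (∀ j, IsSelfAdjoint (r j) ∧ ‖r j‖ ≤ 1 ∧ FixedBy T α K (r j) ∧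
        ∀ t ∈ genAlg S, Commute (r j) t) ∧ (∀ i j, Commute (r i) (r j)) ∧
      ∑ j, r j * r j = 1 ∧
      ∀ τ ∈ T, (∀ X ∈ genAlg S, ∀ j, τ (r j * r j * X) = ((2 : ℂ) ^ J)⁻¹ * τ X) ∧
        ∑ j, ∑ i ∈ Finset.univ.filter (· ≠ j), (τ (r j * r j * (r i * r i))).re ≤ δ := by
  obtain ⟨u, hfix, hu⟩ := exists_coin_seq hc hs S hS
  obtain ⟨M, hM⟩ : ∃ M : ℕ, (J : ℝ) * ((M.centralBinom : ℝ) / 4 ^ M) ≤ δ := by
    obtain ⟨M, hM⟩ := exists_nat_ge ((J : ℝ) ^ 2 / δ ^ 2)
    refine ⟨M, ?_⟩
    rw [div_le_iff₀ (by positivity)] at hM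
    have h1 := centralBinom_sq_le M
    set c := (M.centralBinom : ℝ) / 4 ^ M
    have hc0 : 0 ≤ c := by positivity
    refine le_of_pow_le_pow_left₀ two_ne_zero hδ.le ?_
    rw [mul_pow]
    calc (J : ℝ) ^ 2 * c ^ 2 ≤ ((M : ℝ) * δ ^ 2) * c ^ 2 := by gcongr
      _ ≤ δ ^ 2 * (c ^ 2 * (2 * M + 1)) := by nlinarith [mul_nonneg (sq_nonneg δ) (sq_nonneg c)]
      _ ≤ δ ^ 2 := mul_le_of_le_one_right (sq_nonneg δ) h1
  rcases T.eq_empty_or_nonempty with hT | ⟨τ₀, hτ₀⟩
  · refine ⟨fun j => ((Real.sqrt ((2 : ℝ) ^ J)⁻¹ : ℝ) : ℂ) • (1 : F), fun j => ⟨?_, ?_, ?_, ?_⟩,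
      fun i j => Commute.refl _, ?_, fun τ hτ => by simp [hT] at hτ⟩
    · rw [IsSelfAdjoint, star_smul, star_one, Complex.star_def, Complex.conj_ofReal]
    · rw [norm_smul, Complex.norm_real, Real.norm_of_nonneg (Real.sqrt_nonneg _)]
      refine mul_le_one₀ (Real.sqrt_le_one.2 (inv_le_one_of_one_le₀ (one_le_pow₀ one_le_two)))
        (norm_nonneg _) ?_
      rcases subsingleton_or_nontrivial F with hF | hF
      · simp [Subsingleton.elim (1 : F) 0]
      · exact CStarRing.norm_one.le
    · intro g _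
      rw [map_smul, map_one]
      exact Cong.refl T _
    · exact fun t _ => (Commute.one_left t).smul_left _
    · rw [Finset.sum_const, Finset.card_univ, Fintype.card_fun, Fintype.card_bool,
        Fintype.card_fin, smul_mul_smul_comm, mul_one, ← Complex.ofReal_mul,
        Real.mul_self_sqrt (by positivity), ← Nat.cast_smul_eq_nsmul ℂ, smul_smul]
      push_cast
      rw [mul_inv_cancel₀ (pow_ne_zero _ two_ne_zero), one_smul]
  set W : ℕ → Set F := fun n => u '' {j | j < n} with hW
  have hWle : ∀ n, genAlg (W n) ≤ genAlg (S ∪ W n) := fun n =>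
    genAlg_le_of_subset Set.subset_union_right
  have hWmono : ∀ n, genAlg (W n) ≤ genAlg (W (n + 1)) := fun n =>
    genAlg_le_of_subset (Set.image_mono fun j (hj : j < n) => Nat.lt_succ_of_lt hj)
  suffices key : ∀ n : ℕ, ∃ r : (Fin n → Bool) → F,
      (∀ j, IsSelfAdjoint (r j) ∧ ‖r j‖ ≤ 1 ∧ r j ∈ genAlg (W n) ∧
        ∀ t ∈ genAlg S, Commute (r j) t) ∧
      (∀ i j, Commute (r i) (r j)) ∧ ∑ j, r j * r j = 1 ∧
      ∀ τ ∈ T, (∀ X ∈ genAlg S, ∀ j, τ (r j * r j * X) = ((2 : ℂ) ^ n)⁻¹ * τ X) ∧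
        1 - (τ (∑ j, r j * r j * (r j * r j))).re ≤ n * ((M.centralBinom : ℝ) / 4 ^ M) by
    obtain ⟨r, hr, hcom, hsum, htr⟩ := key J
    refine ⟨r, fun j => ⟨(hr j).1, (hr j).2.1, fixedBy_genAlg hs ?_ (hr j).2.2.1, (hr j).2.2.2⟩,
      hcom, hsum, fun τ hτ => ⟨(htr τ hτ).1, le_trans (le_of_eq ?_) ((htr τ hτ).2.trans hM)⟩⟩
    · rintro _ ⟨i, -, rfl⟩; exact hfix i
    · have e : ∀ j, ∑ i ∈ Finset.univ.filter (· ≠ j), (τ (r j * r j * (r i * r i))).re =
          (τ (r j * r j)).re - (τ (r j * r j * (r j * r j))).re := fun j => by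
        rw [Finset.filter_ne' Finset.univ j, eq_sub_iff_add_eq,
          Finset.sum_erase_add _ _ (Finset.mem_univ j), ← Complex.re_sum, ← map_sum,
          ← Finset.mul_sum, hsum, mul_one]
      rw [Finset.sum_congr rfl fun j _ => e j, Finset.sum_sub_distrib, map_sum, Complex.re_sum]
      congr 1
      rw [← Complex.re_sum, ← map_sum, hsum, (hs.isTrace τ hτ).map_one, Complex.one_re]
  intro n
  induction n with
  | zero =>
    refine ⟨fun _ => 1, fun j => ⟨IsSelfAdjoint.one F, ?_, one_mem _, fun t _ => Commute.one_left t⟩,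
      fun i j => Commute.refl _, by simp, fun τ hτ => ⟨fun X _ j => by simp, ?_⟩⟩
    · rcases subsingleton_or_nontrivial F with hF | hF
      · simp [Subsingleton.elim (1 : F) 0]
      · exact CStarRing.norm_one.le
    · simp [(hs.isTrace τ hτ).map_one]
  | succ n ih =>
    obtain ⟨r, hr, hcom, hsum, htr⟩ := ih
    have hun := (hu n τ₀ hτ₀).unit
    have hsa := half_isSelfAdjoint (u n)
    set g := cfc (sgnFun M) (half (u n)) with hg
    set q : Bool → F := fun b => cfc (splitFun M b) (half (u n)) with hq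
    have hqg : ∀ b, q b ∈ genAlg (W (n + 1)) := fun b =>
      cfc_half_mem
        (Set.mem_image_of_mem u (show n ∈ {j | j < n + 1} from Nat.lt_succ_self n)) _
    have hhcomm : ∀ X ∈ genAlg (S ∪ W n), Commute (half (u n)) X := fun X hX => by
      have h1 := (hu n τ₀ hτ₀).comm X hX
      have h2 := (hu n τ₀ hτ₀).comm (star X) (star_mem hX)
      rw [← commute_star_star, star_star] at h2
      exact (h1.add_left h2).smul_left _
    have hqcomm : ∀ b, ∀ X ∈ genAlg (S ∪ W n), Commute (q b) X := fun b X hX =>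
      (hhcomm X hX).cfc_real _
    have hqq : ∀ b b', Commute (q b) (q b') := fun b b' => cfc_commute_cfc _ _ _
    have hq2 : ∀ b, q b * q b = (1 / 2 : ℂ) • (1 + (if b then (1 : ℂ) else -1) • g) := fun b => by
      have e : q b * q b = cfc (fun t => (1 / 2 : ℝ) * (1 + (if b then 1 else -1) * sgnFun M t))
          (half (u n)) := by
        rw [← cfc_mul _ _ _ (continuous_splitFun M b).continuousOn
          (continuous_splitFun M b).continuousOn]
        refine cfc_congr fun t ht => ?_
        rw [(splitFun_sq M b (spectrum_half hun ht)).1]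
        ring
      have hsf := continuous_sgnFun M
      rw [e, cfc_const_mul (1 / 2 : ℝ) _ _ (by fun_prop), cfc_add (half (u n)) (fun _ => (1 : ℝ))
          (fun t => (if b then 1 else -1) * sgnFun M t) continuousOn_const (by fun_prop),
        cfc_const_one ℝ (half (u n)), cfc_const_mul _ (sgnFun M) _ hsf.continuousOn, ← hg,
        ← Complex.coe_smul, ← Complex.coe_smul]
      cases b <;> norm_num
    have hq1 : q true * q true + q false * q false = 1 := by
      rw [hq2, hq2]
      simp only [if_true, Bool.false_eq_true, if_false]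
      module
    have hrW : ∀ j, r j ∈ genAlg (S ∪ W n) := fun j => hWle n (hr j).2.2.1
    have hrq : ∀ j b, Commute (r j) (q b) := fun j b => (hqcomm b _ (hrW j)).symm
    have hsq : ∀ j b, r j * q b * (r j * q b) = r j * r j * (q b * q b) := fun j b =>
      (hrq j b).symm.mul_mul_mul_comm _ _
    refine ⟨fun j => r (Fin.tail j) * q (j 0), fun j => ⟨?_, ?_, ?_, ?_⟩, fun i j => ?_, ?_,
      fun τ hτ => ⟨fun X hX j => ?_, ?_⟩⟩
    · exact ((hr _).1.commute_iff (cfc_predicate (R := ℝ) _ _)).1 (hrq _ _)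
    · refine (norm_mul_le _ _).trans (mul_le_one₀ (hr _).2.1 (norm_nonneg _)
        (norm_cfc_le zero_le_one fun t ht => (splitFun_sq M _ (spectrum_half hun ht)).2))
    · exact mul_mem (hWmono n (hr _).2.2.1) (hqg _)
    · exact fun t ht => ((hr _).2.2.2 t ht).mul_left
        (hqcomm _ t (genAlg_le_of_subset Set.subset_union_left ht))
    · exact ((hcom _ _).mul_right (hrq _ _)).mul_left
        (((hrq _ _).symm).mul_right (hqq _ _))
    · rw [← Equiv.sum_comp (Fin.consEquiv fun _ => Bool), Fintype.sum_prod_type, Fintype.sum_bool]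
      simp only [Fin.consEquiv, Equiv.coe_fn_mk, Fin.cons_zero, Fin.tail_cons, hsq, ← Finset.sum_mul, hsum,
        one_mul, hq1]
    · have hY : X * (r (Fin.tail j) * r (Fin.tail j)) ∈ genAlg (S ∪ W n) :=
        mul_mem (genAlg_le_of_subset Set.subset_union_left hX) (mul_mem (hrW _) (hrW _))
      have h0 : τ (r (Fin.tail j) * r (Fin.tail j) * (g * X)) = 0 := by
        rw [← mul_assoc, (hs.isTrace τ hτ).comm _ X, ← mul_assoc]
        exact (hu n τ hτ).orth_sgn (hs.isTrace τ hτ) hY M
      rw [hsq, hq2, mul_assoc, smul_mul_assoc, add_mul, one_mul, smul_mul_assoc, mul_smul_comm,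
        mul_add, mul_smul_comm, map_smul, map_add, map_smul, h0, smul_zero, add_zero,
        (htr τ hτ).1 X hX, smul_eq_mul, pow_succ, mul_inv]
      ring
    · have hτ' := hs.isTrace τ hτ
      set P := ∑ j, r j * r j * (r j * r j) with hP
      have hPle : P ≤ 1 := by
        rw [← hsum]
        refine Finset.sum_le_sum fun j _ => ?_
        have h2 : r j * r j ≤ 1 := by
          refine (CStarAlgebra.norm_le_one_iff_of_nonneg _ (hr j).1.mul_self_nonneg).1 ?_
          exact (norm_mul_le _ _).trans (mul_le_one₀ (hr j).2.1 (norm_nonneg _) (hr j).2.1)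
        have h3 := star_left_conjugate_le_conjugate h2 (r j)
        rw [(hr j).1.star_eq, mul_one] at h3
        exact le_of_eq_of_le (by simp only [mul_assoc]) h3
      set D := (1 - half (u n) * half (u n)) ^ M with hD
      have hDc : D = cfc (fun t : ℝ => (1 - t ^ 2) ^ M) (half (u n)) := by
        rw [cfc_pow (fun t : ℝ => 1 - t ^ 2) M (half (u n)) (by fun_prop), cfc_sub (fun _ => (1 : ℝ))
          (fun t => t ^ 2) (half (u n)) continuousOn_const (continuous_pow 2).continuousOn,
          cfc_const_one ℝ (half (u n)), cfc_pow_id (R := ℝ) (half (u n)) 2, sq]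
      have hD0 : 0 ≤ D := hDc ▸ cfc_nonneg fun t ht => (sgnFun_sq M (spectrum_half hun ht)).2.1
      have hgg : g * g = 1 - D := by
        have hsf := continuous_sgnFun M
        rw [hDc, hg, ← cfc_mul _ _ _ hsf.continuousOn hsf.continuousOn, ← cfc_const_one ℝ (half (u n)),
          ← cfc_sub (fun _ => (1 : ℝ)) _ (half (u n)) continuousOn_const (by fun_prop)]
        exact cfc_congr fun t ht => by rw [← sq, (sgnFun_sq M (spectrum_half hun ht)).1]
      have hq4 : q true * q true * (q true * q true) + q false * q false * (q false * q false) =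
          1 - (1 / 2 : ℂ) • D := by
        rw [hq2, hq2]
        simp only [if_true, Bool.false_eq_true, if_false, add_mul, mul_add,
          one_mul, mul_one, smul_mul_assoc, mul_smul_comm, smul_smul, hgg]
        module
      have hterm : ∀ j b, r j * q b * (r j * q b) * (r j * q b * (r j * q b)) =
          r j * r j * (r j * r j) * (q b * q b * (q b * q b)) := fun j b => by
        rw [hsq]
        exact (((hrq j b).mul_left (hrq j b)).mul_right ((hrq j b).mul_left (hrq j b))).symm
          |>.mul_mul_mul_comm _ _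
      rw [← Equiv.sum_comp (Fin.consEquiv fun _ => Bool), Fintype.sum_prod_type, Fintype.sum_bool]
      simp only [Fin.consEquiv, Equiv.coe_fn_mk, Fin.cons_zero, Fin.tail_cons, hterm, ← Finset.sum_mul,
        ← hP, ← mul_add, hq4, mul_sub, mul_one, mul_smul_comm, map_sub, map_smul, smul_eq_mul,
        Complex.sub_re]
      have hPD : (τ (P * D)).re ≤ (M.centralBinom : ℝ) / 4 ^ M := by
        rw [hτ'.comm P D]
        refine (hτ'.mul_le_mul_left hD0 hPle).trans (le_of_eq ?_)
        rw [mul_one, hD, (hu n τ hτ).moment hτ' M, Complex.ofReal_re]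
      have hPD0 : 0 ≤ (τ (P * D)).re := by
        refine (Complex.nonneg_iff.1 (hτ'.map_mul_nonneg (Finset.sum_nonneg fun j _ => ?_) hD0)).1
        exact ((hr j).1.commute_iff (hr j).1).1 (Commute.refl _) |>.mul_self_nonneg
      have e2 : ((1 / 2 : ℂ) * τ (P * D)).re = (1 / 2) * (τ (P * D)).re := by
        rw [show (1 / 2 : ℂ) = ((1 / 2 : ℝ) : ℂ) by norm_num, Complex.re_ofReal_mul]
      rw [e2]
      have := (htr τ hτ).2
      push_cast
      linarith

end

end Vale.Agent.P095.Amenable
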