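import Mathlib

/-!
# Tracial states and their two-seminorms

Basic facts about tracial states on a unital C*-algebra and the congruence of elements that
differ by an element killed by a given set of tracial states.
-/

set_option linter.unusedSectionVars false

open scoped ComplexOrder

namespace Vale.Agent.P095.Amenable

variable {F : Type*} [CStarAlgebra F]

/-- A tracial state. -/
structure IsTrace (τ : F →ₗ[ℂ] ℂ) : Prop where
  map_one : τ 1 = 1
  nonneg : ∀ x, 0 ≤ τ (star x * x)
  comm : ∀ x y, τ (x * y) = τ (y * x)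

/-- The two-seminorm of a tracial state. -/
noncomputable def tn (τ : F →ₗ[ℂ] ℂ) (x : F) : ℝ := Real.sqrt (τ (star x * x)).re

/-- Two elements are congruent when every trace in `T` sees their difference as zero. -/
def Cong (T : Set (F →ₗ[ℂ] ℂ)) (a b : F) : Prop := ∀ τ ∈ T, tn τ (a - b) = 0

namespace IsTrace

variable {τ : F →ₗ[ℂ] ℂ} (h : IsTrace τ)
include h

theorem re_nonneg (x : F) : 0 ≤ (τ (star x * x)).re := (Complex.nonneg_iff.1 (h.nonneg x)).1

theorem map_nonneg [PartialOrder F] [StarOrderedRing F] {a : F} (ha : 0 ≤ a) : 0 ≤ τ a := by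
  obtain ⟨b, rfl⟩ := CStarAlgebra.nonneg_iff_eq_star_mul_self.1 ha
  exact h.nonneg b

theorem mono [PartialOrder F] [StarOrderedRing F] {a b : F} (hab : a ≤ b) :
    (τ a).re ≤ (τ b).re := by
  have := (Complex.nonneg_iff.1 (h.map_nonneg (sub_nonneg.2 hab))).1
  rw [map_sub, Complex.sub_re] at this
  linarith

theorem map_star (x : F) : τ (star x) = star (τ x) := by
  have e : ∀ c : ℂ, τ (star (c • (1 : F) + x) * (c • 1 + x))
      = star c * c + star c * τ x + c * τ (star x) + τ (star x * x) := fun c => by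
    simp only [star_add, star_smul, star_one, add_mul, mul_add, smul_mul_assoc, one_mul,
      mul_smul_comm, mul_one, map_add, map_smul, smul_eq_mul, h.map_one]
    ring
  have i1 := (Complex.nonneg_iff.1 (h.nonneg (1 • (1 : F) + x))).2
  have i0 := (Complex.nonneg_iff.1 (h.nonneg x)).2
  have iI := (Complex.nonneg_iff.1 (h.nonneg (Complex.I • (1 : F) + x))).2
  have e1 := e 1
  rw [one_smul] at e1
  rw [one_smul, e1] at i1
  rw [e] at iI
  apply Complex.ext <;> simp at i1 iI ⊢ <;> linarith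

theorem map_algebraMap (r : ℝ) : τ (algebraMap ℝ F r) = (r : ℂ) := by
  rw [IsScalarTower.algebraMap_apply ℝ ℂ F, Algebra.algebraMap_eq_smul_one, map_smul, h.map_one]
  simp

theorem re_le_norm [PartialOrder F] [StarOrderedRing F] {a : F} (ha : IsSelfAdjoint a) :
    (τ a).re ≤ ‖a‖ := by
  simpa [h.map_algebraMap] using h.mono ha.le_algebraMap_norm_self

/-- A positive element commuting with another gives a positive value. -/
theorem map_mul_nonneg [PartialOrder F] [StarOrderedRing F] {a b : F} (ha : 0 ≤ a) (hb : 0 ≤ b) :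
    0 ≤ τ (a * b) := by
  obtain ⟨c, rfl⟩ := CStarAlgebra.nonneg_iff_eq_star_mul_self.1 hb
  rw [← mul_assoc, h.comm (a * star c), ← mul_assoc]
  exact h.map_nonneg (star_right_conjugate_nonneg ha c)

theorem mul_le_mul_left [PartialOrder F] [StarOrderedRing F] {a b c : F} (ha : 0 ≤ a)
    (hbc : b ≤ c) : (τ (a * b)).re ≤ (τ (a * c)).re := by
  have := (Complex.nonneg_iff.1 (h.map_mul_nonneg ha (sub_nonneg.2 hbc))).1
  rw [mul_sub, map_sub, Complex.sub_re] at this
  linarith

theorem tn_sq (x : F) : tn τ x ^ 2 = (τ (star x * x)).re := Real.sq_sqrt (h.re_nonneg x)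

theorem tn_nonneg (x : F) : 0 ≤ tn τ x := Real.sqrt_nonneg _

theorem tn_star (x : F) : tn τ (star x) = tn τ x := by
  simp only [tn, star_star, h.comm x (star x)]

theorem tn_le_norm (x : F) : tn τ x ≤ ‖x‖ := by
  let : PartialOrder F := CStarAlgebra.spectralOrder F
  have : StarOrderedRing F := CStarAlgebra.spectralOrderedRing F
  refine Real.sqrt_le_iff.2 ⟨norm_nonneg _, (h.re_le_norm (IsSelfAdjoint.star_mul_self x)).trans ?_⟩
  rw [CStarRing.norm_star_mul_self, sq]

/-- Cauchy-Schwarz, real part. -/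
theorem re_le (x y : F) : (τ (star x * y)).re ≤ tn τ x * tn τ y := by
  have hsym : (τ (star y * x)).re = (τ (star x * y)).re := by
    have := congrArg Complex.re (h.map_star (star x * y))
    simpa using this
  have q : ∀ t : ℝ, 0 ≤ (τ (star x * x)).re * (t * t) + (-2 * (τ (star x * y)).re) * t
      + (τ (star y * y)).re := fun t => by
    have := h.re_nonneg ((t : ℂ) • x - y)
    simp only [star_sub, star_smul, sub_mul, mul_sub, smul_mul_assoc, mul_smul_comm, map_sub,
      map_smul, smul_eq_mul, Complex.sub_re, Complex.mul_re] at this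
    simp at this
    rw [hsym] at this
    nlinarith
  have hd := discrim_le_zero q
  simp only [discrim] at hd
  have ht : (τ (star x * y)).re ^ 2 ≤ (tn τ x * tn τ y) ^ 2 := by
    rw [mul_pow, h.tn_sq, h.tn_sq]; nlinarith
  exact (le_abs_self _).trans (abs_le_of_sq_le_sq ht (mul_nonneg (h.tn_nonneg x) (h.tn_nonneg y)))

/-- Cauchy-Schwarz. -/
theorem norm_le (x y : F) : ‖τ (star x * y)‖ ≤ tn τ x * tn τ y := by
  obtain ⟨c, hc, he⟩ : ∃ c : ℂ, ‖c‖ = 1 ∧ c * τ (star x * y) = (‖τ (star x * y)‖ : ℂ) := by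
    rcases eq_or_ne (τ (star x * y)) 0 with h0 | h0
    · exact ⟨1, by simp, by simp [h0]⟩
    · refine ⟨(‖τ (star x * y)‖ : ℂ) / τ (star x * y), ?_, div_mul_cancel₀ _ h0⟩
      simp [h0]
  have e : (τ (star x * (c • y))).re = ‖τ (star x * y)‖ := by
    rw [mul_smul_comm, map_smul, smul_eq_mul, he, Complex.ofReal_re]
  have t : tn τ (c • y) = tn τ y := by
    have hcc : star c * c = 1 := by
      rw [Complex.star_def, Complex.conj_mul', hc]; simp
    simp only [tn, star_smul, smul_mul_assoc, mul_smul_comm, map_smul, smul_eq_mul]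
    rw [← mul_assoc, mul_comm c, hcc, one_mul]
  rw [← e, ← t]
  exact h.re_le x (c • y)

theorem norm_le_tn (x : F) : ‖τ x‖ ≤ tn τ x := by
  have := h.norm_le 1 x
  have e : tn τ (1 : F) = 1 := by simp [tn, h.map_one]
  simpa [e] using this

theorem norm_le_norm (x : F) : ‖τ x‖ ≤ ‖x‖ := (h.norm_le_tn x).trans (h.tn_le_norm x)

theorem tn_mul_le_left (a x : F) : tn τ (a * x) ≤ ‖a‖ * tn τ x := by
  let : PartialOrder F := CStarAlgebra.spectralOrder F
  have : StarOrderedRing F := CStarAlgebra.spectralOrderedRing F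
  have h1 : star (a * x) * (a * x) ≤ (‖a‖ ^ 2) • (star x * x) := by
    have h2 : star a * a ≤ algebraMap ℝ F (‖a‖ ^ 2) := by
      have := (IsSelfAdjoint.star_mul_self a).le_algebraMap_norm_self
      rwa [CStarRing.norm_star_mul_self, ← sq] at this
    calc star (a * x) * (a * x) = star x * (star a * a) * x := by
          simp only [star_mul, mul_assoc]
      _ ≤ star x * algebraMap ℝ F (‖a‖ ^ 2) * x := star_left_conjugate_le_conjugate h2 x
      _ = _ := by simp [Algebra.algebraMap_eq_smul_one]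
  refine Real.sqrt_le_iff.2 ⟨mul_nonneg (norm_nonneg _) (h.tn_nonneg _), (h.mono h1).trans ?_⟩
  rw [mul_pow, h.tn_sq]
  rw [← Complex.coe_smul, map_smul, smul_eq_mul, Complex.re_ofReal_mul]

theorem tn_mul_le_right (x b : F) : tn τ (x * b) ≤ tn τ x * ‖b‖ := by
  rw [← h.tn_star, star_mul, ← h.tn_star x, mul_comm, ← norm_star b]
  exact h.tn_mul_le_left _ _

theorem tn_add_le (x y : F) : tn τ (x + y) ≤ tn τ x + tn τ y := by
  refine Real.sqrt_le_iff.2 ⟨add_nonneg (h.tn_nonneg _) (h.tn_nonneg _), ?_⟩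
  have hxy := h.re_le x y
  have hyx := h.re_le y x
  simp only [star_add, add_mul, mul_add, map_add, Complex.add_re]
  nlinarith [h.tn_sq x, h.tn_sq y]

theorem tn_neg (x : F) : tn τ (-x) = tn τ x := by simp [tn]

theorem tn_sub_le (x y : F) : tn τ (x - y) ≤ tn τ x + tn τ y := by
  simpa [sub_eq_add_neg, h.tn_neg] using h.tn_add_le x (-y)

theorem tn_smul (c : ℂ) (x : F) : tn τ (c • x) = ‖c‖ * tn τ x := by
  simp only [tn, star_smul, smul_mul_assoc, mul_smul_comm, map_smul, smul_eq_mul, ← mul_assoc]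
  rw [Complex.star_def, Complex.mul_conj', ← Complex.ofReal_pow, Complex.re_ofReal_mul,
    Real.sqrt_mul (by positivity), Real.sqrt_sq (norm_nonneg _)]

theorem tn_sum_le {ι : Type*} (s : Finset ι) (f : ι → F) :
    tn τ (∑ i ∈ s, f i) ≤ ∑ i ∈ s, tn τ (f i) := by
  classical
  induction s using Finset.induction_on with
  | empty => simp [tn]
  | insert a s ha ih =>
    rw [Finset.sum_insert ha, Finset.sum_insert ha]
    exact (h.tn_add_le _ _).trans (by linarith)

/-- Commutators are orthogonal to their commutant. -/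
theorem mul_commutator_eq_zero {X a b : F} (ha : Commute X a) :
    τ (X * (a * b - b * a)) = 0 := by
  have e : τ (X * (b * a)) = τ (X * (a * b)) := by
    rw [← mul_assoc, h.comm (X * b) a, ← mul_assoc, ← ha.eq, mul_assoc]
  rw [mul_sub, map_sub, e, sub_self]

end IsTrace

section Cong

variable {T : Set (F →ₗ[ℂ] ℂ)} (hT : ∀ τ ∈ T, IsTrace τ)

theorem Cong.refl (T : Set (F →ₗ[ℂ] ℂ)) (a : F) : Cong T a a := fun τ _ => by simp [tn]

include hT

theorem Cong.symm {a b : F} (h : Cong T a b) : Cong T b a := fun τ hτ => by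
  rw [← neg_sub, (hT τ hτ).tn_neg, h τ hτ]

theorem Cong.trans {a b c : F} (h : Cong T a b) (h' : Cong T b c) : Cong T a c := fun τ hτ => by
  refine le_antisymm ?_ ((hT τ hτ).tn_nonneg _)
  calc tn τ (a - c) = tn τ ((a - b) + (b - c)) := by rw [sub_add_sub_cancel]
    _ ≤ tn τ (a - b) + tn τ (b - c) := (hT τ hτ).tn_add_le _ _
    _ = 0 := by rw [h τ hτ, h' τ hτ, add_zero]

theorem Cong.map_eq {a b : F} (h : Cong T a b) {τ : F →ₗ[ℂ] ℂ} (hτ : τ ∈ T) : τ a = τ b := by
  refine sub_eq_zero.1 (norm_le_zero_iff.1 ?_)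
  rw [← map_sub]
  exact ((hT τ hτ).norm_le_tn _).trans (h τ hτ).le

theorem Cong.add {a b c d : F} (h : Cong T a b) (h' : Cong T c d) : Cong T (a + c) (b + d) :=
  fun τ hτ => by
    refine le_antisymm ?_ ((hT τ hτ).tn_nonneg _)
    rw [add_sub_add_comm]
    exact ((hT τ hτ).tn_add_le _ _).trans (by rw [h τ hτ, h' τ hτ, add_zero])

theorem Cong.mul {a b c d : F} (h : Cong T a b) (h' : Cong T c d) : Cong T (a * c) (b * d) :=
  fun τ hτ => by
    refine le_antisymm ?_ ((hT τ hτ).tn_nonneg _)
    rw [show a * c - b * d = (a - b) * c + b * (c - d) by rw [sub_mul, mul_sub]; abel]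
    refine ((hT τ hτ).tn_add_le _ _).trans ?_
    have e1 := (hT τ hτ).tn_mul_le_right (a - b) c
    have e2 := (hT τ hτ).tn_mul_le_left b (c - d)
    rw [h τ hτ, zero_mul] at e1
    rw [h' τ hτ, mul_zero] at e2
    linarith

theorem Cong.star {a b : F} (h : Cong T a b) : Cong T (star a) (star b) := fun τ hτ => by
  rw [← star_sub, (hT τ hτ).tn_star, h τ hτ]

theorem Cong.smul {a b : F} (h : Cong T a b) (c : ℂ) : Cong T (c • a) (c • b) := fun τ hτ => by
  rw [← smul_sub, (hT τ hτ).tn_smul, h τ hτ, mul_zero]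

theorem Cong.of_forall_le {a b : F} (h : ∀ ε > 0, ∀ τ ∈ T, tn τ (a - b) ≤ ε) : Cong T a b :=
  fun τ hτ => le_antisymm (le_of_forall_pos_le_add fun ε hε => by simpa using h ε hε τ hτ)
    ((hT τ hτ).tn_nonneg _)

theorem Cong.of_tendsto {ι : Type*} {l : Filter ι} [l.NeBot] {f g : ι → F} {a b : F}
    (hf : Filter.Tendsto f l (nhds a)) (hg : Filter.Tendsto g l (nhds b))
    (h : ∀ i, Cong T (f i) (g i)) : Cong T a b := by
  refine Cong.of_forall_le hT fun ε hε τ hτ => ?_
  have h1 := Metric.tendsto_nhds.1 hf (ε / 2) (half_pos hε)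
  have h2 := Metric.tendsto_nhds.1 hg (ε / 2) (half_pos hε)
  obtain ⟨i, hi, hi'⟩ := (h1.and h2).exists
  rw [dist_eq_norm] at hi hi'
  rw [show a - b = (a - f i) + ((f i - g i) + (g i - b)) by abel]
  refine ((hT τ hτ).tn_add_le _ _).trans ?_
  refine (add_le_add ((hT τ hτ).tn_le_norm _) (((hT τ hτ).tn_add_le _ _).trans
    (add_le_add (h i τ hτ).le ((hT τ hτ).tn_le_norm _)))).trans ?_
  rw [norm_sub_rev a]; linarith

theorem Cong.sum {ι : Type*} (s : Finset ι) {f g : ι → F} (h : ∀ i ∈ s, Cong T (f i) (g i)) :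
    Cong T (∑ i ∈ s, f i) (∑ i ∈ s, g i) := by
  classical
  induction s using Finset.induction_on with
  | empty => simpa using Cong.refl T 0
  | insert a s ha ih =>
    rw [Finset.sum_insert ha, Finset.sum_insert ha]
    exact Cong.add hT (h a (Finset.mem_insert_self a s))
      (ih fun i hi => h i (Finset.mem_insert_of_mem hi))

/-- Functional calculus preserves congruence. -/
theorem Cong.cfc {a b : F} (h : Cong T a b) (ha : IsSelfAdjoint a) (hb : IsSelfAdjoint b)
    {R : ℝ} (hR : ‖a‖ ≤ R) (hR' : ‖b‖ ≤ R) (f : ℝ → ℝ) (hf : ContinuousOn f (Set.Icc (-R) R)) :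
    Cong T (_root_.cfc f a) (_root_.cfc f b) := by
  rcases subsingleton_or_nontrivial F with hs | hs
  · rw [Subsingleton.elim (_root_.cfc f a) (_root_.cfc f b)]; exact Cong.refl T _
  have hp : ∀ p : Polynomial ℝ, Cong T (Polynomial.aeval a p) (Polynomial.aeval b p) := by
    intro p
    induction p using Polynomial.induction_on' with
    | add p q hp hq => rw [map_add, map_add]; exact Cong.add hT hp hq
    | monomial n r =>
      simp only [Polynomial.aeval_monomial]
      refine Cong.mul hT (Cong.refl T _) ?_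
      induction n with
      | zero => simpa using Cong.refl T (1 : F)
      | succ n ih => rw [pow_succ, pow_succ]; exact Cong.mul hT ih h
  have hs' : ∀ x : F, ‖x‖ ≤ R → spectrum ℝ x ⊆ Set.Icc (-R) R := fun x hx t ht => by
    have := (spectrum.norm_le_norm_of_mem ht).trans hx
    rw [Real.norm_eq_abs] at this
    exact abs_le.1 this
  refine Cong.of_forall_le hT fun ε hε τ hτ => ?_
  obtain ⟨p, hp'⟩ := exists_polynomial_near_of_continuousOn (-R) R f hf (ε / 2) (half_pos hε)
  have key : ∀ x : F, IsSelfAdjoint x → ‖x‖ ≤ R →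
      ‖_root_.cfc f x - Polynomial.aeval x p‖ ≤ ε / 2 := fun x hx hxR => by
    rw [← cfc_polynomial p x, ← cfc_sub f _ x (hf.mono (hs' x hxR)) p.continuous.continuousOn]
    refine norm_cfc_le (by positivity) fun t ht => ?_
    rw [Real.norm_eq_abs, abs_sub_comm]
    exact (hp' t (hs' x hxR ht)).le
  rw [show _root_.cfc f a - _root_.cfc f b = (_root_.cfc f a - Polynomial.aeval a p) +
    ((Polynomial.aeval a p - Polynomial.aeval b p) + (Polynomial.aeval b p - _root_.cfc f b)) by
      abel]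
  refine ((hT τ hτ).tn_add_le _ _).trans ((add_le_add ((hT τ hτ).tn_le_norm _)
    (((hT τ hτ).tn_add_le _ _).trans (add_le_add (hp p τ hτ).le
      ((hT τ hτ).tn_le_norm _)))).trans ?_)
  have k2 := key b hb hR'
  rw [norm_sub_rev] at k2
  linarith [key a ha hR]

end Cong

end Vale.Agent.P095.Amenable
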