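import Vale.Agent.P101.Copies
import Vale.Agent.P095.Amenable.Trace

/-!
# The abstract setting for tracial equivariant absorption

A C*-algebra with a set of tracial states, an action of a group, and the properties that the
central sequence algebra of a unital separable C*-algebra provides.
-/

open TopologicalSpace Filter
open scoped Pointwise

namespace Vale.Agent.P095.Amenable

variable {G : Type} [Group G] {F : Type*} [CStarAlgebra F]

/-- An action preserving a set of tracial states. -/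
structure Sys (T : Set (F →ₗ[ℂ] ℂ)) (α : G → (F ≃⋆ₐ[ℂ] F)) : Prop where
  isTrace : ∀ τ ∈ T, IsTrace τ
  act_one : ∀ x, α 1 x = x
  act_mul : ∀ g h x, α (g * h) x = α g (α h x)
  preserve : ∀ g, ∀ τ ∈ T, ∃ σ ∈ T, ∀ x, σ x = τ (α g x)

/-- A map of `D` which is unital, contractive, star preserving, commutes with `S`, is multiplicative
and null preserving for the traces in `T`, and whose values are fixed by `K` for these traces. -/
structure AbsMap (T : Set (F →ₗ[ℂ] ℂ)) (α : G → (F ≃⋆ₐ[ℂ] F)) (K : Subgroup G)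
    (D : StarSubalgebra ℂ F) (S : Set F) (Φ : D →ₗ[ℂ] F) : Prop where
  map_one : Φ 1 = 1
  norm_le : ∀ d, ‖Φ d‖ ≤ ‖(d : F)‖
  map_star : ∀ d, Φ (star d) = star (Φ d)
  commute : ∀ d, ∀ t ∈ S, Commute (Φ d) t
  map_mul : ∀ d e, Cong T (Φ (d * e)) (Φ d * Φ e)
  null : ∀ d : D, Cong T (d : F) 0 → Cong T (Φ d) 0
  fixed : ∀ g ∈ K, ∀ d, Cong T (α g (Φ d)) (Φ d)

/-- Every separable subalgebra can be moved into the commutant of every countable set, fixed by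
`K`, multiplicatively for the traces in `T`. -/
def Absorbs (T : Set (F →ₗ[ℂ] ℂ)) (α : G → (F ≃⋆ₐ[ℂ] F)) (K : Subgroup G) : Prop :=
  ∀ D : StarSubalgebra ℂ F, IsClosed (D : Set F) → IsSeparable (D : Set F) →
    ∀ S : Set F, S.Countable → ∃ Φ : D →ₗ[ℂ] F, AbsMap T α K D S Φ

/-- A square zero element which is full, for the traces in `T`. -/
def Full (T : Set (F →ₗ[ℂ] ℂ)) : Prop :=
  ∃ (v : F) (n : ℕ) (b : Fin n → F), Cong T (v * v) 0 ∧
    Cong T (∑ i, star (b i) * (star v * v) * (star v * v) * b i) 1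

/-- What the central sequence algebra of a separable algebra provides: equivariant null
preserving copies, and diagonal limits of unitaries and of maps. -/
structure Saturated (T : Set (F →ₗ[ℂ] ℂ)) (α : G → (F ≃⋆ₐ[ℂ] F)) : Prop where
  copies : ∀ D : StarSubalgebra ℂ F, IsClosed (D : Set F) → IsSeparable (D : Set F) →
    (∀ g, ∀ d ∈ D, α g d ∈ D) → ∀ S : Set F, S.Countable →
      ∃ θ : D →⋆ₐ[ℂ] F, (∀ d, ∀ t ∈ S, Commute (θ d) t) ∧
        (∀ g (d : D) (h : α g (d : F) ∈ D), α g (θ d) = θ ⟨α g (d : F), h⟩) ∧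
        ∀ d : D, Cong T (d : F) 0 → Cong T (θ d) 0
  diag_unitary : ∀ (K : Subgroup G) (S : Set F), S.Countable → ∀ u : ℕ → F,
    (∀ m, u m ∈ unitary F) → (∀ m, ∀ t ∈ S, Commute (u m) t) →
    (∀ g ∈ K, ∀ ε : ℝ, 0 < ε → ∀ᶠ m in atTop, ∀ τ ∈ T, tn τ (α g (u m) - u m) ≤ ε) →
    (∀ t ∈ S, ∀ n : ℕ, n ≠ 0 → ∀ ε : ℝ, 0 < ε → ∀ᶠ m in atTop, ∀ τ ∈ T,
      ‖τ (t * u m ^ n)‖ ≤ ε) →
    ∃ v ∈ unitary F, (∀ t ∈ S, Commute v t) ∧ (∀ g ∈ K, Cong T (α g v) v) ∧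
      ∀ t ∈ S, ∀ n : ℕ, n ≠ 0 → ∀ τ ∈ T, τ (t * v ^ n) = 0
  diag_map : ∀ (K : Subgroup G) (D : StarSubalgebra ℂ F), IsClosed (D : Set F) →
    IsSeparable (D : Set F) → ∀ S : Set F, S.Countable → ∀ Φ : ℕ → (D →ₗ[ℂ] F),
    (∀ m, Φ m 1 = 1) → (∀ m d, ‖Φ m d‖ ≤ ‖(d : F)‖) →
    (∀ m d, Φ m (star d) = star (Φ m d)) → (∀ m d, ∀ t ∈ S, Commute (Φ m d) t) →
    (∀ d e, ∀ ε : ℝ, 0 < ε → ∀ᶠ m in atTop, ∀ τ ∈ T,
      tn τ (Φ m (d * e) - Φ m d * Φ m e) ≤ ε) →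
    (∀ d : D, Cong T (d : F) 0 → ∀ ε : ℝ, 0 < ε → ∀ᶠ m in atTop, ∀ τ ∈ T, tn τ (Φ m d) ≤ ε) →
    (∀ g ∈ K, ∀ d, ∀ ε : ℝ, 0 < ε → ∀ᶠ m in atTop, ∀ τ ∈ T,
      tn τ (α g (Φ m d) - Φ m d) ≤ ε) →
    ∃ Ψ : D →ₗ[ℂ] F, AbsMap T α K D S Ψ

/-- A finitely generated group of subexponential growth. -/
def SubexpGrowth (Q : Type) [Group Q] : Prop :=
  ∃ W : Finset Q, (1 : Q) ∈ W ∧ (∀ x ∈ W, x⁻¹ ∈ W) ∧ Subgroup.closure (W : Set Q) = ⊤ ∧
    ∀ t : ℝ, 0 < t → ∃ C : ℝ, ∀ n : ℕ,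
      (((W : Set Q) ^ n).ncard : ℝ) ≤ C * Real.exp (t * n)

/-- Subexponentially amenable groups: the smallest class containing the finitely generated groups
of subexponential growth which is closed under extensions and countable directed unions. -/
inductive SubexpAmenable : ∀ (Q : Type) [Group Q], Prop
  | growth {Q : Type} [Group Q] (h : SubexpGrowth Q) : SubexpAmenable Q
  | extension {Q R : Type} [Group Q] [Group R] (π : Q →* R) (hπ : Function.Surjective π)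
      (hN : SubexpAmenable π.ker) (hR : SubexpAmenable R) : SubexpAmenable Q
  | union {Q : Type} [Group Q] (H : ℕ → Subgroup Q) (hmono : Monotone H)
      (hcover : ∀ q, ∃ n, q ∈ H n) (h : ∀ n, SubexpAmenable (H n)) : SubexpAmenable Q

end Vale.Agent.P095.Amenable
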