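import Vale.Agent.P101.Statement
import Vale.Agent.P095.Amenable.Defs

/-!
# Limit traces and induced actions on the central sequence algebra
-/

open Filter Topology
open Vale.Agent.P101 (CentralSeq Ultrapower BddSeq qmk)

namespace Vale.Agent.P095.Amenable

variable (A : Type*) [CStarAlgebra A] [Nontrivial A] (ω : Ultrafilter ℕ)

/-- Functionals on `F_ω(A)` which are limits along `ω` of tracial states of `A`. -/
def limTraces : Set (CentralSeq A ω →ₗ[ℂ] ℂ) :=
  {τ | ∃ σ : ℕ → (A →ₗ[ℂ] ℂ), (∀ n, IsTrace (σ n)) ∧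
    ∀ (z : CentralSeq A ω) (x : BddSeq A), qmk ω x = (z : Ultrapower A ω) →
      Tendsto (fun n => σ n (x n)) ω (𝓝 (τ z))}

/-- The action `α` on `F_ω(A)` acts coordinatewise by `β` on representing sequences. -/
def Induced {G : Type} (β : G → (A ≃⋆ₐ[ℂ] A))
    (α : G → (CentralSeq A ω ≃⋆ₐ[ℂ] CentralSeq A ω)) : Prop :=
  ∀ (g : G) (z : CentralSeq A ω) (x y : BddSeq A), qmk ω x = (z : Ultrapower A ω) →
    (∀ n, y n = β g (x n)) → qmk ω y = (α g z : Ultrapower A ω)

end Vale.Agent.P095.Amenable
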