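import Vale.Agent.P101.Fomega
import Vale.Agent.P101.Stage1
import Vale.Agent.P095.Amenable.CentralDefs

/-!
# The central sequence algebra with its limit traces and induced action

Induced actions exist and preserve the limit traces, limit traces exist, and the absence of
characters gives a full square zero element.
-/

set_option linter.unusedSectionVars false
set_option synthInstance.maxHeartbeats 100000

open Filter Topology TopologicalSpace
open Vale.Agent.P101 (CentralSeq Ultrapower BddSeq qmk qmk_eq_iff constSeq)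
open scoped ComplexOrder

namespace Vale.Agent.P095.Amenable

noncomputable section

variable {A : Type} [CStarAlgebra A] [Nontrivial A] {ω : Ultrafilter ℕ}

/-- An automorphism acting on bounded sequences coordinatewise. -/
def mapSeq (e : A ≃⋆ₐ[ℂ] A) (x : BddSeq A) : BddSeq A :=
  BddSeq.mk (fun n => e (x n)) ‖x‖ fun n =>
    (NonUnitalStarAlgHom.norm_map e e.injective (x n)).trans_le (x.norm_apply_le n)

lemma mapSeq_apply (e : A ≃⋆ₐ[ℂ] A) (x : BddSeq A) (n : ℕ) : mapSeq e x n = e (x n) := rfl

lemma exists_rep (z : CentralSeq A ω) : ∃ x : BddSeq A, qmk ω x = (z : Ultrapower A ω) :=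
  Ideal.Quotient.mk_surjective _

lemma qmk_mapSeq_congr (e : A ≃⋆ₐ[ℂ] A) {x y : BddSeq A} (h : qmk ω x = qmk ω y) :
    qmk ω (mapSeq e x) = qmk ω (mapSeq e y) := by
  rw [qmk_eq_iff] at h ⊢
  refine h.congr fun n => ?_
  rw [mapSeq_apply, mapSeq_apply, ← map_sub]
  exact (NonUnitalStarAlgHom.norm_map e e.injective _).symm

lemma qmk_mapSeq_mem (e : A ≃⋆ₐ[ℂ] A) (z : CentralSeq A ω) {x : BddSeq A}
    (hx : qmk ω x = (z : Ultrapower A ω)) :
    qmk ω (mapSeq e x) ∈
      StarSubalgebra.centralizer ℂ (Set.range fun a : A => qmk ω (constSeq a)) := by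
  rw [StarSubalgebra.mem_centralizer_iff]
  have key : ∀ a : A, qmk ω (constSeq a) * qmk ω (mapSeq e x) =
      qmk ω (mapSeq e x) * qmk ω (constSeq a) := fun a => by
    obtain ⟨b, rfl⟩ := e.surjective a
    have hc : qmk ω (constSeq b) * qmk ω x = qmk ω x * qmk ω (constSeq b) := by
      rw [hx]; exact ((StarSubalgebra.mem_centralizer_iff ℂ).1 z.2 _ ⟨b, rfl⟩).1
    rw [← map_mul, ← map_mul] at hc
    have h := qmk_mapSeq_congr e hc
    rw [← map_mul, ← map_mul]
    convert h using 2 <;> refine Subtype.ext (funext fun n => ?_)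
    · show e b * e (x n) = e (b * x n); rw [map_mul]
    · show e (x n) * e b = e (x n * b); rw [map_mul]
  rintro _ ⟨a, rfl⟩
  refine ⟨key a, ?_⟩
  rw [Vale.Agent.P101.star_qmk]
  exact key (star a)

/-- An automorphism acting on the central sequence algebra. -/
def actFun (e : A ≃⋆ₐ[ℂ] A) (z : CentralSeq A ω) : CentralSeq A ω :=
  ⟨qmk ω (mapSeq e (exists_rep z).choose), qmk_mapSeq_mem e z (exists_rep z).choose_spec⟩

lemma actFun_spec (e : A ≃⋆ₐ[ℂ] A) (z : CentralSeq A ω) {x : BddSeq A}
    (hx : qmk ω x = (z : Ultrapower A ω)) :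
    (actFun e z : Ultrapower A ω) = qmk ω (mapSeq e x) :=
  qmk_mapSeq_congr e ((exists_rep z).choose_spec.trans hx.symm)

lemma actFun_add (e : A ≃⋆ₐ[ℂ] A) (z w : CentralSeq A ω) :
    actFun e (z + w) = actFun e z + actFun e w := by
  obtain ⟨x, hx⟩ := exists_rep z
  obtain ⟨y, hy⟩ := exists_rep w
  refine Subtype.ext ?_
  show (actFun e (z + w) : Ultrapower A ω) = actFun e z + actFun e w
  rw [actFun_spec e z hx, actFun_spec e w hy,
    actFun_spec e (z + w) (x := x + y) (by rw [map_add, hx, hy]; rfl), ← map_add]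
  congr 1
  exact Subtype.ext (funext fun n => map_add e (x n) (y n))

lemma actFun_mul (e : A ≃⋆ₐ[ℂ] A) (z w : CentralSeq A ω) :
    actFun e (z * w) = actFun e z * actFun e w := by
  obtain ⟨x, hx⟩ := exists_rep z
  obtain ⟨y, hy⟩ := exists_rep w
  refine Subtype.ext ?_
  show (actFun e (z * w) : Ultrapower A ω) = actFun e z * actFun e w
  rw [actFun_spec e z hx, actFun_spec e w hy,
    actFun_spec e (z * w) (x := x * y) (by rw [map_mul, hx, hy]; rfl), ← map_mul]
  congr 1
  exact Subtype.ext (funext fun n => map_mul e (x n) (y n))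

lemma actFun_star (e : A ≃⋆ₐ[ℂ] A) (z : CentralSeq A ω) :
    actFun e (star z) = star (actFun e z) := by
  obtain ⟨x, hx⟩ := exists_rep z
  refine Subtype.ext ?_
  show (actFun e (star z) : Ultrapower A ω) = star (actFun e z : Ultrapower A ω)
  rw [actFun_spec e z hx, actFun_spec e (star z) (x := star x)
    (by rw [← Vale.Agent.P101.star_qmk, hx]; rfl), Vale.Agent.P101.star_qmk]
  congr 1
  exact Subtype.ext (funext fun n => map_star e (x n))

lemma actFun_smul (e : A ≃⋆ₐ[ℂ] A) (c : ℂ) (z : CentralSeq A ω) :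
    actFun e (c • z) = c • actFun e z := by
  obtain ⟨x, hx⟩ := exists_rep z
  refine Subtype.ext ?_
  show (actFun e (c • z) : Ultrapower A ω) = c • (actFun e z : Ultrapower A ω)
  rw [actFun_spec e z hx, actFun_spec e (c • z) (x := c • x)
    (show qmk ω (c • x) = c • (z : Ultrapower A ω) by rw [← hx]; rfl),
    show c • qmk ω (mapSeq e x) = qmk ω (c • mapSeq e x) from rfl]
  congr 1
  exact Subtype.ext (funext fun n => map_smul e c (x n))

lemma actFun_actFun {e f : A ≃⋆ₐ[ℂ] A} (h : ∀ a, f (e a) = a) (z : CentralSeq A ω) :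
    actFun f (actFun e z) = z := by
  obtain ⟨x, hx⟩ := exists_rep z
  refine Subtype.ext ?_
  rw [actFun_spec f (actFun e z) (x := mapSeq e x) (actFun_spec e z hx).symm, ← hx]
  congr 1
  exact Subtype.ext (funext fun n => h (x n))

section Action

variable [SeparableSpace A] {G : Type} [Group G] [Countable G] (hω : (ω : Filter ℕ) ≤ cofinite)
  {β : G → (A ≃⋆ₐ[ℂ] A)} (h1 : ∀ x, β 1 x = x) (hmul : ∀ g h x, β (g * h) x = β g (β h x))
include hω h1 hmul

theorem induced_exists : ∃ α, Induced A ω β α := by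
  refine ⟨fun g =>
    { toFun := actFun (β g)
      invFun := actFun (β g⁻¹)
      left_inv := actFun_actFun fun a => by rw [← hmul, inv_mul_cancel, h1]
      right_inv := actFun_actFun fun a => by rw [← hmul, mul_inv_cancel, h1]
      map_mul' := actFun_mul (β g)
      map_add' := actFun_add (β g)
      map_star' := actFun_star (β g)
      map_smul' := actFun_smul (β g) }, fun g z x y hx hy => ?_⟩
  refine Eq.trans ?_ (actFun_spec (β g) z hx).symm
  congr 1
  exact Subtype.ext (funext hy)

end Action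

/-- Limits along `ω` of a sequence of tracial states give a functional. -/
theorem exists_limTrace {σ : ℕ → (A →ₗ[ℂ] ℂ)} (hσ : ∀ n, IsTrace (σ n)) :
    ∃ τ : CentralSeq A ω →ₗ[ℂ] ℂ, ∀ (z : CentralSeq A ω) (x : BddSeq A),
      qmk ω x = (z : Ultrapower A ω) → Tendsto (fun n => σ n (x n)) ω (𝓝 (τ z)) := by
  have lim : ∀ x : BddSeq A, ∃ L : ℂ, Tendsto (fun n => σ n (x n)) ω (𝓝 L) := fun x => by
    obtain ⟨L, -, hL⟩ := (isCompact_closedBall (0 : ℂ) ‖x‖).ultrafilter_le_nhds
      (ω.map fun n => σ n (x n)) (by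
        rw [le_principal_iff]
        exact show ∀ᶠ n in (ω : Filter ℕ), σ n (x n) ∈ Metric.closedBall (0 : ℂ) ‖x‖ from
          Eventually.of_forall fun n => mem_closedBall_zero_iff.2
            (((hσ n).norm_le_norm _).trans (x.norm_apply_le n)))
    exact ⟨L, hL⟩
  choose L hL using lim
  choose r hr using exists_rep (A := A) (ω := ω)
  have key : ∀ (z : CentralSeq A ω) (x : BddSeq A), qmk ω x = (z : Ultrapower A ω) →
      Tendsto (fun n => σ n (x n)) ω (𝓝 (L (r z))) := fun z x hx => by
    have h0 : Tendsto (fun n => σ n (x n) - σ n (r z n)) ω (𝓝 0) :=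
      squeeze_zero_norm (fun n => by rw [← map_sub]; exact (hσ n).norm_le_norm _)
        ((qmk_eq_iff ω).1 (hx.trans (hr z).symm))
    simpa using h0.add (hL (r z))
  refine ⟨{ toFun := fun z => L (r z)
            map_add' := fun z w => ?_
            map_smul' := fun c z => ?_ }, key⟩
  · refine tendsto_nhds_unique (key (z + w) (r z + r w) (by rw [map_add, hr, hr]; rfl)) ?_
    exact ((hL (r z)).add (hL (r w))).congr fun n => (map_add (σ n) _ _).symm
  · refine tendsto_nhds_unique (key (c • z) (c • r z)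
      (show qmk ω (c • r z) = c • (z : Ultrapower A ω) by rw [← hr z]; rfl)) ?_
    exact ((hL (r z)).const_mul c).congr fun n => (map_smul (σ n) c _).symm

section Traces

variable [SeparableSpace A] {G : Type} [Group G] [Countable G] (hω : (ω : Filter ℕ) ≤ cofinite)
  {β : G → (A ≃⋆ₐ[ℂ] A)} (h1 : ∀ x, β 1 x = x) (hmul : ∀ g h x, β (g * h) x = β g (β h x))
include hω h1 hmul

theorem limTraces_nonempty (h : ∃ τ : A →ₗ[ℂ] ℂ, IsTrace τ) : (limTraces A ω).Nonempty := by
  obtain ⟨t, ht⟩ := h
  obtain ⟨τ, hτ⟩ := exists_limTrace (ω := ω) (σ := fun _ => t) fun _ => ht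
  exact ⟨τ, fun _ => t, fun _ => ht, hτ⟩

theorem sys_central {α : G → (CentralSeq A ω ≃⋆ₐ[ℂ] CentralSeq A ω)} (hα : Induced A ω β α) :
    Sys (limTraces A ω) α where
  isTrace := by
    rintro τ ⟨σ, hσ, hτ⟩
    refine ⟨tendsto_nhds_unique (hτ 1 1 (map_one _)) ?_, fun z => ?_, fun z w => ?_⟩
    · exact tendsto_const_nhds.congr fun n => (hσ n).map_one.symm
    · obtain ⟨x, hx⟩ := exists_rep z
      have h := hτ (star z * z) (star x * x)
        (by rw [map_mul, ← Vale.Agent.P101.star_qmk, hx]; rfl)
      refine Complex.nonneg_iff.2 ⟨ge_of_tendsto (Complex.continuous_re.continuousAt.tendsto.comp h)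
        (Eventually.of_forall fun n => (hσ n).re_nonneg (x n)), ?_⟩
      exact tendsto_nhds_unique tendsto_const_nhds ((Complex.continuous_im.continuousAt.tendsto.comp
        h).congr fun n => ((Complex.nonneg_iff.1 ((hσ n).nonneg (x n))).2).symm)
    · obtain ⟨x, hx⟩ := exists_rep z
      obtain ⟨y, hy⟩ := exists_rep w
      refine tendsto_nhds_unique ((hτ (z * w) (x * y) (by rw [map_mul, hx, hy]; rfl)).congr
        fun n => (hσ n).comm (x n) (y n)) (hτ (w * z) (y * x) (by rw [map_mul, hx, hy]; rfl))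
  act_one z := by
    obtain ⟨x, hx⟩ := exists_rep z
    exact Subtype.ext ((hα 1 z x x hx fun n => (h1 _).symm).symm.trans hx)
  act_mul g k z := by
    obtain ⟨x, hx⟩ := exists_rep z
    refine Subtype.ext ((hα (g * k) z x (mapSeq (β g) (mapSeq (β k) x)) hx
      fun n => (hmul g k _).symm).symm.trans ?_)
    exact hα g (α k z) (mapSeq (β k) x) _ (hα k z x _ hx fun n => rfl) fun n => rfl
  preserve := by
    rintro g τ ⟨σ, hσ, hτ⟩
    refine ⟨{ toFun := fun z => τ (α g z)
              map_add' := fun z w => by rw [map_add, map_add]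
              map_smul' := fun c z => by rw [map_smul, map_smul, RingHom.id_apply] },
      ⟨fun n => { toFun := fun a => σ n (β g a)
                  map_add' := fun a b => by rw [map_add, map_add]
                  map_smul' := fun c a => by rw [map_smul, map_smul, RingHom.id_apply] },
        fun n => ⟨?_, fun a => ?_, fun a b => ?_⟩, fun z x hx => ?_⟩, fun z => rfl⟩
    · show σ n (β g 1) = 1
      rw [map_one, (hσ n).map_one]
    · show 0 ≤ σ n (β g (star a * a))
      rw [map_mul, map_star]; exact (hσ n).nonneg _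
    · show σ n (β g (a * b)) = σ n (β g (b * a))
      rw [map_mul (β g), map_mul (β g)]; exact (hσ n).comm _ _
    · exact hτ (α g z) (mapSeq (β g) x) (hα g z x _ hx fun n => rfl)

end Traces

/-- A middle factor can be squared. -/
theorem exists_sum_sq_eq_one {F : Type*} [CStarAlgebra F] [Nontrivial F] {n : ℕ} (b : Fin n → F)
    {v : F} (h : ∑ i, star (b i) * (star v * v) * b i = 1) :
    ∃ b' : Fin n → F, ∑ i, star (b' i) * (star v * v) * (star v * v) * b' i = 1 := by
  let : PartialOrder F := CStarAlgebra.spectralOrder F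
  have : StarOrderedRing F := CStarAlgebra.spectralOrderedRing F
  set c := star v * v
  set P := ∑ i, star (b i) * b i with hP
  set S := ∑ i, star (b i) * c * c * b i with hS
  set s : ℝ := (‖P‖ + 1)⁻¹ with hs
  have hs0 : 0 < s := by positivity
  have hle : (2 * s) • c ≤ c * c + algebraMap ℝ F (s ^ 2) := by
    have h0 := ((IsSelfAdjoint.star_mul_self v).sub
      (IsSelfAdjoint.algebraMap F (IsSelfAdjoint.all s))).mul_self_nonneg
    rw [← sub_nonneg]
    convert h0 using 1
    simp only [Algebra.algebraMap_eq_smul_one, sub_mul, mul_sub, smul_mul_assoc, mul_smul_comm,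
      one_mul, mul_one, smul_smul]
    module
  have h2 : algebraMap ℝ F (2 * s) ≤ S + (s ^ 2) • P := by
    calc algebraMap ℝ F (2 * s) = ∑ i, star (b i) * ((2 * s) • c) * b i := by
          simp only [mul_smul_comm, smul_mul_assoc, ← Finset.smul_sum, h]
          exact Algebra.algebraMap_eq_smul_one _
      _ ≤ ∑ i, star (b i) * (c * c + algebraMap ℝ F (s ^ 2)) * b i :=
          Finset.sum_le_sum fun i _ => star_left_conjugate_le_conjugate hle _
      _ = S + (s ^ 2) • P := by
          simp only [mul_add, add_mul, Finset.sum_add_distrib, hS, hP, mul_assoc,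
            Algebra.algebraMap_eq_smul_one, mul_smul_comm, smul_mul_assoc, mul_one,
            Finset.smul_sum]
  have hPs : IsSelfAdjoint P := isSelfAdjoint_sum _ fun i _ => IsSelfAdjoint.star_mul_self _
  have hP1 : (s ^ 2) • P ≤ algebraMap ℝ F s := by
    refine (smul_le_smul_of_nonneg_left hPs.le_algebraMap_norm_self (by positivity)).trans ?_
    rw [Algebra.smul_def, ← map_mul]
    refine algebraMap_mono F ?_
    rw [sq, mul_assoc]
    refine mul_le_of_le_one_right hs0.le ?_
    rw [hs, inv_mul_le_iff₀ (by positivity)]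
    linarith
  have hlow : algebraMap ℝ F s ≤ S := by
    have := h2.trans (add_le_add_right hP1 S)
    rwa [two_mul, map_add, add_le_add_iff_right] at this
  obtain ⟨r, hr, hrS⟩ := Vale.Agent.P101.exists_normalize hs0 hlow
  refine ⟨fun i => b i * r, ?_⟩
  rw [← hrS, hS, Finset.mul_sum, Finset.sum_mul]
  simp [hr.star_eq, mul_assoc]

section FullCentral

variable [SeparableSpace A] {G : Type} [Group G] [Countable G] (hω : (ω : Filter ℕ) ≤ cofinite)
  {β : G → (A ≃⋆ₐ[ℂ] A)} (h1 : ∀ x, β 1 x = x) (hmul : ∀ g h x, β (g * h) x = β g (β h x))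
include hω h1 hmul

theorem full_central (h : Vale.Agent.P101.NoCharacter A ω) : Full (limTraces A ω) := by
  obtain ⟨v, hv, n, b, hb⟩ :=
    Vale.Agent.P101.exists_full_sq_zero (Vale.Agent.P101.reindex_centralSeq (A := A) hω) h
  obtain ⟨b', hb'⟩ := exists_sum_sq_eq_one b hb
  refine ⟨v, n, b', ?_, ?_⟩
  · rw [hv]; exact Cong.refl _ _
  · rw [hb']; exact Cong.refl _ _

end FullCentral

end

end Vale.Agent.P095.Amenable
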