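import Vale.Agent.P095.Amenable.Trace
import Vale.Agent.P101.Copies

/-!
# A Lindeberg estimate for commuting centred elements under a tracial state

The exponential of a sum of commuting self-adjoint elements, each centred and of variance bounded
below relative to the others, has small trace against every element of the remaining algebra.
-/

open scoped ComplexOrder
open Vale.Agent.P101 (genAlg subset_genAlg isClosed_genAlg genAlg_le)

namespace Vale.Agent.P095.Amenable

variable {F : Type*} [CStarAlgebra F]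

lemma genAlg_mono {s t : Set F} (h : s ⊆ t) : genAlg s ≤ genAlg t :=
  genAlg_le (isClosed_genAlg t) (h.trans (subset_genAlg t))

/-- A self-adjoint element commuting with the generators commutes with the generated algebra. -/
lemma commute_of_mem_genAlg {s : Set F} {z : F} (hz : IsSelfAdjoint z)
    (h : ∀ y ∈ s, Commute z y) {b : F} (hb : b ∈ genAlg s) : Commute z b := by
  have hcl : IsClosed ((StarSubalgebra.centralizer ℂ {z} : StarSubalgebra ℂ F) : Set F) := by
    rw [StarSubalgebra.coe_centralizer]; exact Set.isClosed_centralizer _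
  have hle : genAlg s ≤ StarSubalgebra.centralizer ℂ {z} := genAlg_le hcl fun y hy => by
    rw [SetLike.mem_coe, StarSubalgebra.mem_centralizer_iff]
    rintro _ rfl
    rw [hz.star_eq]
    exact ⟨h y hy, h y hy⟩
  exact ((StarSubalgebra.mem_centralizer_iff ℂ).1 (hle hb) z rfl).1

lemma cfc_mem_genAlg {s : Set F} {z : F} (hz : z ∈ s) (f : ℂ → ℂ) : cfc f z ∈ genAlg s :=
  StarAlgebra.elemental.le_of_mem (isClosed_genAlg s) (subset_genAlg s hz)
    (cfc_mem_elemental f z)

lemma cfc_real_mem_genAlg {s : Set F} {z : F} (hz : z ∈ s) (hsa : IsSelfAdjoint z) (f : ℝ → ℝ) :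
    cfc f z ∈ genAlg s := by
  rw [cfc_real_eq_complex f (a := z) hsa]
  exact cfc_mem_genAlg hz _

/-- The remainder of the second order expansion of an exponential. -/
lemma exp_remainder {R a : ℝ} (ha : |a| * R ≤ 1) {t : ℝ} (ht : |t| ≤ R) :
    ‖Complex.exp (Complex.I * (a : ℂ) * (t : ℂ)) - 1 - Complex.I * (a : ℂ) * (t : ℂ)
      + ((a ^ 2 / 2 : ℝ) : ℂ) * ((t : ℂ) * (t : ℂ))‖ ≤ |a| ^ 3 * R ^ 3 := by
  set w : ℂ := Complex.I * (a : ℂ) * (t : ℂ) with hw
  have hn : ‖w‖ ≤ |a| * R := by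
    simp only [hw, norm_mul, Complex.norm_I, Complex.norm_real, Real.norm_eq_abs, one_mul]
    exact mul_le_mul_of_nonneg_left ht (abs_nonneg a)
  have hb := Complex.exp_bound (hn.trans ha) (n := 3) (by norm_num)
  have he : Complex.exp w - 1 - w + ((a ^ 2 / 2 : ℝ) : ℂ) * ((t : ℂ) * (t : ℂ)) =
      Complex.exp w - ∑ m ∈ Finset.range 3, w ^ m / m.factorial := by
    simp only [Finset.sum_range_succ, Finset.sum_range_zero, hw]
    norm_num [mul_pow, Complex.I_sq]
    ring
  rw [he]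
  refine hb.trans ?_
  refine (mul_le_of_le_one_right (by positivity) (by norm_num [Nat.factorial])).trans ?_
  rw [← mul_pow]
  gcongr

variable [PartialOrder F] [StarOrderedRing F] {τ : F →ₗ[ℂ] ℂ}

omit [PartialOrder F] [StarOrderedRing F] in
/-- One exponential against its second order expansion, and its norm. -/
lemma expStep {Z : F} (hZ : IsSelfAdjoint Z) [Nontrivial F] {R a : ℝ} (hR : ‖Z‖ ≤ R)
    (ha : |a| * R ≤ 1) :
    ∃ g : ℂ → ℂ, NormedSpace.exp (Complex.I • ((a : ℂ) • Z)) = cfc g Z ∧ ‖cfc g Z‖ ≤ 1 ∧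
      ‖cfc g Z - (1 - ((a ^ 2 / 2 : ℝ) : ℂ) • (Z * Z)) - (Complex.I * (a : ℂ)) • Z‖ ≤
        |a| ^ 3 * R ^ 3 := by
  have hN : IsStarNormal Z := hZ.isStarNormal
  set k : ℂ := Complex.I * (a : ℂ) with hk
  have hsp : ∀ z ∈ spectrum ℂ Z, ∃ t : ℝ, z = (t : ℂ) ∧ |t| ≤ R := fun z hz => by
    refine ⟨z.re, hZ.mem_spectrum_eq_re hz, ?_⟩
    exact (Complex.abs_re_le_norm z).trans ((spectrum.norm_le_norm_of_mem hz).trans hR)
  have hR0 : 0 ≤ R := (norm_nonneg _).trans hR
  refine ⟨fun z => Complex.exp (k * z), ?_, ?_, ?_⟩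
  · rw [smul_smul, ← hk, ← CFC.complex_exp_eq_normedSpace_exp (a := k • Z)
      (ha := by rw [← cfc_const_mul_id k Z]; exact cfc_predicate _ _),
      ← cfc_comp_const_mul k Complex.exp Z (by fun_prop)]
  · refine norm_cfc_le zero_le_one fun z hz => ?_
    obtain ⟨t, rfl, -⟩ := hsp z hz
    rw [show k * (t : ℂ) = ((a * t : ℝ) : ℂ) * Complex.I by rw [hk]; push_cast; ring,
      Complex.norm_exp_ofReal_mul_I]
  · have e : cfc (fun z : ℂ => Complex.exp (k * z)) Z - (1 - ((a ^ 2 / 2 : ℝ) : ℂ) • (Z * Z))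
        - k • Z = cfc (fun z : ℂ => Complex.exp (k * z) -
          (1 - ((a ^ 2 / 2 : ℝ) : ℂ) * (z * z)) - k * z) Z := by
      rw [cfc_sub .., cfc_sub .., cfc_sub .., cfc_const_mul .., cfc_const_mul .., cfc_mul ..,
        cfc_id' ℂ Z, cfc_const_one ℂ Z]
    rw [e]
    refine norm_cfc_le (by positivity) fun z hz => ?_
    obtain ⟨t, rfl, ht⟩ := hsp z hz
    have := exp_remainder ha ht
    refine le_trans (le_of_eq (congrArg (fun u : ℂ => ‖u‖) ?_)) this
    rw [hk]; ring

omit [PartialOrder F] [StarOrderedRing F] in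
/-- A square root of the second order expansion. -/
lemma sqrtStep {Z : F} (hZ : IsSelfAdjoint Z) [Nontrivial F] {R a : ℝ} (hR : ‖Z‖ ≤ R)
    (ha : |a| * R ≤ 1) :
    ∃ f : ℝ → ℝ, cfc f Z * cfc f Z = 1 - ((a ^ 2 / 2 : ℝ) : ℂ) • (Z * Z) ∧ ‖cfc f Z‖ ≤ 1 := by
  have hq : ∀ t ∈ spectrum ℝ Z, a ^ 2 / 2 * (t * t) ≤ 1 := fun t ht => by
    have h1 : |t| ≤ R := (spectrum.norm_le_norm_of_mem ht).trans hR
    have h2 : (|a| * |t|) ^ 2 ≤ 1 := by
      have : |a| * |t| ≤ 1 := (mul_le_mul_of_nonneg_left h1 (abs_nonneg a)).trans ha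
      exact pow_le_one₀ (by positivity) this
    rw [mul_pow, sq_abs, sq_abs] at h2
    nlinarith
  refine ⟨fun t => Real.sqrt (1 - a ^ 2 / 2 * (t * t)), ?_, ?_⟩
  · rw [← cfc_mul _ _ Z (by fun_prop) (by fun_prop),
      cfc_congr (g := fun t : ℝ => 1 - a ^ 2 / 2 * (t * t)) fun t ht => by
        exact Real.mul_self_sqrt (sub_nonneg.2 (hq t ht)),
      cfc_sub .., cfc_const_mul .., cfc_mul .., cfc_id' ℝ Z, cfc_const_one ℝ Z, Complex.coe_smul]
  · refine norm_cfc_le zero_le_one fun t _ => ?_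
    rw [Real.norm_eq_abs, abs_of_nonneg (Real.sqrt_nonneg _)]
    refine Real.sqrt_le_one.2 ?_
    nlinarith [mul_nonneg (sq_nonneg a) (sq_nonneg t)]

/-- **Lindeberg estimate.** -/
theorem lindeberg (hτ : IsTrace τ) {N : ℕ} (Z : Fin N → F) (x : F)
    (hZ : ∀ j, IsSelfAdjoint (Z j)) (hcomm : ∀ i j, Commute (Z i) (Z j))
    {R : ℝ} (hR : ∀ j, ‖Z j‖ ≤ R) {c δ : ℝ} (hc : 0 < c) (hδ : 0 ≤ δ)
    (hcent : ∀ j, ∀ X ∈ genAlg ({x} ∪ Z '' {i | i ≠ j}), τ (X * Z j) = 0)
    (hlow : ∀ j, ∀ X ∈ genAlg ({x} ∪ Z '' {i | i ≠ j}), 0 ≤ X → X ≤ 1 →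
      c * (τ X).re - δ ≤ (τ (X * (Z j * Z j))).re)
    (a : ℝ) (ha : |a| * R ≤ 1) (hac : a ^ 2 * c ≤ 2) :
    ‖τ (x * NormedSpace.exp (Complex.I • ((a : ℂ) • ∑ j, Z j)))‖ ≤
      ‖x‖ * ((1 - a ^ 2 * c / 2) ^ N + δ / c + N * |a| ^ 3 * R ^ 3) := by
  classical
  have : Nontrivial F := by
    refine ⟨⟨1, 0, fun e => ?_⟩⟩
    have := congrArg τ e
    rw [hτ.map_one, map_zero] at this
    exact one_ne_zero this
  let : NormedAlgebra ℚ F := NormedAlgebra.restrictScalars ℚ ℂ F
  set ρ := 1 - a ^ 2 * c / 2 with hρ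
  have hρ0 : 0 ≤ ρ := by rw [hρ]; linarith
  set ε := |a| ^ 3 * R ^ 3 with hε
  set U : Finset (Fin N) → F := fun s => NormedSpace.exp (Complex.I • ((a : ℂ) • ∑ j ∈ s, Z j))
  suffices H : ∀ s : Finset (Fin N), ∃ P : F, IsSelfAdjoint P ∧ ‖P‖ ≤ 1 ∧
      P ∈ genAlg (Z '' (s : Set (Fin N))) ∧ (τ (P * P)).re - δ / c ≤ ρ ^ s.card * (1 - δ / c) ∧
      ∀ y ∈ genAlg ({x} ∪ Z '' (s : Set (Fin N))ᶜ),
        ‖τ (y * U s) - τ (y * (P * P))‖ ≤ s.card * ε * ‖y‖ by
    obtain ⟨P, hP, hP1, -, hPτ, hPy⟩ := H Finset.univ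
    rw [Finset.card_univ, Fintype.card_fin] at hPτ hPy
    have h1 := hPy x (subset_genAlg _ (Or.inl rfl))
    have h2 : ‖τ (x * (P * P))‖ ≤ ‖x‖ * (τ (P * P)).re := by
      rw [← mul_assoc, hτ.comm (x * P) P]
      conv_lhs => rw [← hP.star_eq]
      refine (hτ.norm_le _ _).trans ?_
      rw [hP.star_eq]
      have e : (τ (P * P)).re = tn τ P * tn τ P := by
        have := hτ.tn_sq P
        rw [hP.star_eq] at this
        rw [← this, sq]
      rw [e, mul_left_comm]
      exact mul_le_mul_of_nonneg_left (hτ.tn_mul_le_left x P) (hτ.tn_nonneg P)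
    have h3 : (τ (P * P)).re ≤ ρ ^ N + δ / c := by
      have h4 : ρ ^ N * (1 - δ / c) ≤ ρ ^ N := mul_le_of_le_one_right (pow_nonneg hρ0 N)
        (sub_le_self _ (by positivity))
      linarith
    calc ‖τ (x * U Finset.univ)‖ ≤ ‖τ (x * (P * P))‖ +
          ‖τ (x * U Finset.univ) - τ (x * (P * P))‖ := norm_le_insert' _ _
      _ ≤ ‖x‖ * (ρ ^ N + δ / c) + N * ε * ‖x‖ :=
          add_le_add (h2.trans (mul_le_mul_of_nonneg_left h3 (norm_nonneg x))) h1
      _ = _ := by rw [hε]; ring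
  intro s
  induction s using Finset.induction_on with
  | empty =>
    refine ⟨1, .one _, by simp, one_mem _, ?_, fun y _ => ?_⟩
    · simp [hτ.map_one]
    · simp [U]
  | insert j s hj ih =>
    obtain ⟨P, hP, hP1, hPm, hPτ, hPy⟩ := ih
    obtain ⟨g, hge, hg1, hgr⟩ := expStep (hZ j) (hR j) ha
    obtain ⟨f, hff, hf1⟩ := sqrtStep (hZ j) (hR j) ha
    set e := cfc g (Z j)
    set r := cfc f (Z j)
    have hr : IsSelfAdjoint r := cfc_predicate _ _
    have hzP : Commute (Z j) P := commute_of_mem_genAlg (hZ j)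
      (by rintro _ ⟨i, -, rfl⟩; exact hcomm j i) hPm
    have hrP : Commute r P := hzP.cfc_real f
    -- the positive product seen by the new element
    set sub : Set F := {x} ∪ Z '' {i | i ≠ j}
    have hPsub : P * P ∈ genAlg sub := by
      refine mul_mem (genAlg_mono ?_ hPm) (genAlg_mono ?_ hPm) <;>
      · rintro _ ⟨i, hi, rfl⟩
        exact Or.inr ⟨i, fun h => hj (h ▸ hi), rfl⟩
    refine ⟨P * r, ?_, ?_, ?_, ?_, ?_⟩
    · exact (hP.commute_iff hr).1 hrP.symm
    · exact (norm_mul_le _ _).trans (mul_le_one₀ hP1 (norm_nonneg _) hf1)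
    · refine mul_mem (genAlg_mono (Set.image_mono (by simp)) hPm) ?_
      exact cfc_real_mem_genAlg (s := Z '' ↑(insert j s)) ⟨j, by simp, rfl⟩ (hZ j) f
    · have h0 : 0 ≤ P * P := hP.mul_self_nonneg
      have h1 : P * P ≤ 1 := (CStarAlgebra.norm_le_one_iff_of_nonneg _ h0).1
        ((norm_mul_le _ _).trans (mul_le_one₀ hP1 (norm_nonneg _) hP1))
      have hl := hlow j _ hPsub h0 h1
      have e1 : P * r * (P * r) = P * P - ((a ^ 2 / 2 : ℝ) : ℂ) • (P * P * (Z j * Z j)) := by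
        rw [mul_assoc, ← mul_assoc r P, hrP.eq, mul_assoc P r r, hff, ← mul_assoc, mul_sub,
          mul_one, mul_smul_comm]
      rw [e1, map_sub, map_smul, smul_eq_mul, Complex.sub_re, Complex.re_ofReal_mul,
        Finset.card_insert_of_notMem hj]
      have hh := mul_le_mul_of_nonneg_left hl (by positivity : 0 ≤ a ^ 2 / 2)
      have hd : a ^ 2 / 2 * δ = a ^ 2 * c / 2 * (δ / c) := by field_simp
      have hm := mul_le_mul_of_nonneg_left hPτ hρ0
      have key : (τ (P * P)).re - a ^ 2 / 2 * (τ (P * P * (Z j * Z j))).re - δ / c ≤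
          ρ * ((τ (P * P)).re - δ / c) := by
        rw [hρ]; linear_combination hh + hd
      rw [← mul_assoc] at hm
      rw [pow_succ' ρ]
      exact key.trans hm
    · intro y hy
      rw [Finset.coe_insert] at hy
      have hyj : y * e ∈ genAlg ({x} ∪ Z '' (s : Set (Fin N))ᶜ) := by
        refine mul_mem (genAlg_mono (Set.union_subset_union_right _ (Set.image_mono
          (Set.compl_subset_compl.2 (Set.subset_insert _ _)))) hy) ?_
        exact cfc_mem_genAlg (s := {x} ∪ Z '' (s : Set (Fin N))ᶜ) (Or.inr ⟨j, by simpa using hj, rfl⟩) g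
      have hU : U (insert j s) = e * U s := by
        simp only [U]
        rw [Finset.sum_insert hj, smul_add, smul_add,
          NormedSpace.exp_add_of_commute (((Commute.sum_right s _ _ fun i _ => hcomm j i).smul_left
            _).smul_left _ |>.smul_right _ |>.smul_right _), hge]
      have he : Commute e (P * P) := (hzP.mul_right hzP).cfc
        (by rw [(hZ j).star_eq]; exact hzP.mul_right hzP) g
      have hX : y * (P * P) ∈ genAlg sub := by
        refine mul_mem (genAlg_mono ?_ hy) hPsub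
        exact Set.union_subset_union_right _ (Set.image_mono fun i hi h => hi (by simp [h]))
      have h1 := hPy _ hyj
      set q := 1 - ((a ^ 2 / 2 : ℝ) : ℂ) • (Z j * Z j)
      have h2 : τ (y * e * (P * P)) - τ (y * (P * r * (P * r))) =
          τ (y * (P * P) * (e - q - (Complex.I * (a : ℂ)) • Z j)) := by
        have a1 : y * e * (P * P) = y * (P * P) * e := by rw [mul_assoc, he.eq, ← mul_assoc]
        have a2 : y * (P * r * (P * r)) = y * (P * P) * q := by
          rw [mul_assoc P r, ← mul_assoc r P, hrP.eq, mul_assoc P r r, hff]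
          simp only [mul_assoc, q]
        rw [a1, a2, mul_sub (y * (P * P)) (e - q) _, map_sub, mul_smul_comm, map_smul,
          hcent j _ hX, smul_zero, sub_zero, mul_sub (y * (P * P)) e q, map_sub]
      have h3 : ‖τ (y * e * (P * P)) - τ (y * (P * r * (P * r)))‖ ≤ ε * ‖y‖ := by
        rw [h2]
        refine ((hτ.norm_le_norm _).trans (norm_mul_le _ _)).trans ?_
        rw [mul_comm ε]
        refine mul_le_mul ((norm_mul_le _ _).trans (mul_le_of_le_one_right (norm_nonneg _)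
          ((norm_mul_le _ _).trans (mul_le_one₀ hP1 (norm_nonneg _) hP1)))) hgr (norm_nonneg _)
          (norm_nonneg _)
      rw [hU, ← mul_assoc, Finset.card_insert_of_notMem hj]
      refine (norm_sub_le_norm_sub_add_norm_sub _ (τ (y * e * (P * P))) _).trans ?_
      refine (add_le_add h1 h3).trans ?_
      have : ‖y * e‖ ≤ ‖y‖ := (norm_mul_le _ _).trans (mul_le_of_le_one_right (norm_nonneg _) hg1)
      have hε0 : 0 ≤ ε := (norm_nonneg _).trans hgr
      push_cast
      nlinarith [mul_le_mul_of_nonneg_left this (by positivity : (0 : ℝ) ≤ s.card * ε)]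

end Vale.Agent.P095.Amenable
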