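import Vale.Agent.P095.Amenable.CoinBlock
import Vale.Agent.P095.Amenable.Balls
import Vale.Agent.P095.Amenable.Lindeberg

/-!
# Stage one: coins for a layer of subexponential growth

From a full square zero element fixed by the kernel, Gibbs averages of its centred commutator over
commuting copies give blocks, and the exponential of a normalised sum of many blocks is an almost
invariant unitary whose small powers are almost orthogonal to a prescribed countable set.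
-/

set_option linter.unusedSectionVars false

open TopologicalSpace Filter
open scoped ComplexOrder
open Vale.Agent.P101 (genAlg isClosed_genAlg subset_genAlg genAlg_le)

namespace Vale.Agent.P095.Amenable

noncomputable section

variable {F : Type*} [CStarAlgebra F]

/-- A trace vanishes on products containing a factor of zero two-seminorm. -/
theorem trace_null_mul {τ : F →ₗ[ℂ] ℂ} (hτ : IsTrace τ) {z : F} (hz : tn τ z = 0) (a b : F) :
    τ (a * z * b) = 0 := by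
  refine norm_le_zero_iff.1 ((hτ.norm_le_tn _).trans ((hτ.tn_mul_le_right _ _).trans ?_))
  have h : tn τ (a * z) ≤ ‖a‖ * tn τ z := hτ.tn_mul_le_left a z
  rw [hz, mul_zero] at h
  exact mul_nonpos_of_nonpos_of_nonneg h (norm_nonneg b)

variable [PartialOrder F] [StarOrderedRing F]

/-- The commutator of a full square zero element has second moment bounded below against
everything commuting with it. -/
theorem commutator_lower {τ : F →ₗ[ℂ] ℂ} (hτ : IsTrace τ) {X V : F} (hX : 0 ≤ X)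
    (hV : Commute X V) (hV' : Commute X (star V)) {n : ℕ} (b : Fin n → F)
    (hb : ∀ i, Commute X (b i)) (hsq : tn τ (V * V) = 0)
    (hfull : tn τ ((∑ i, star (b i) * (star V * V) * (star V * V) * b i) - 1) = 0) :
    (τ X).re ≤ (∑ i, ‖b i‖ ^ 2) *
      (τ (X * ((star V * V - V * star V) * (star V * V - V * star V)))).re := by
  set H := star V * V with hH
  set P := V * star V with hP
  have hHsa : IsSelfAdjoint H := IsSelfAdjoint.star_mul_self V
  have hPsa : IsSelfAdjoint P := IsSelfAdjoint.mul_star_self V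
  have hXH : Commute X H := hV'.mul_right hV
  have e1 : τ (X * (H * P)) = 0 := by
    rw [show X * (H * P) = X * star V * (V * V) * star V by simp only [hH, hP, mul_assoc]]
    exact trace_null_mul hτ hsq _ _
  have e2 : τ (X * (P * H)) = 0 := by
    rw [show X * (P * H) = X * V * star (V * V) * V by simp only [hH, hP, star_mul, mul_assoc]]
    exact trace_null_mul hτ (by rw [hτ.tn_star, hsq]) _ _
  have eY : (τ (X * ((H - P) * (H - P)))).re = (τ (X * (H * H))).re + (τ (X * (P * P))).re := by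
    simp only [sub_mul, mul_sub, map_sub, e1, e2, Complex.sub_re, Complex.zero_re]
    ring
  have hPP : 0 ≤ (τ (X * (P * P))).re :=
    (Complex.nonneg_iff.1 (hτ.map_mul_nonneg hX hPsa.mul_self_nonneg)).1
  have h1 : ∀ i, (τ (X * (star (b i) * H * H * b i))).re ≤ ‖b i‖ ^ 2 * (τ (X * (H * H))).re := by
    intro i
    have hK : 0 ≤ H * X * H := hHsa.conjugate_nonneg hX
    have hbb : b i * star (b i) ≤ algebraMap ℝ F (‖b i‖ ^ 2) := by
      refine (IsSelfAdjoint.mul_star_self (b i)).le_algebraMap_norm_self.trans (le_of_eq ?_)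
      rw [CStarRing.norm_self_mul_star, ← sq]
    have h2 := hτ.mul_le_mul_left hK hbb
    have e3 : τ (X * (star (b i) * H * H * b i)) = τ (H * X * H * (b i * star (b i))) := by
      rw [show X * (star (b i) * H * H * b i) = (X * star (b i)) * (H * H * b i) by
        simp only [mul_assoc], hτ.comm]
      have : H * H * b i * (X * star (b i)) = H * X * H * (b i * star (b i)) := by
        simp only [mul_assoc]
        rw [← mul_assoc (b i) X, ← (hb i).eq, mul_assoc X (b i), ← mul_assoc H X, ← hXH.eq,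
          mul_assoc X H]
      rw [this]
    have e4 : τ (H * X * H) = τ (X * (H * H)) := by
      rw [mul_assoc, hτ.comm, mul_assoc]
    rw [Algebra.algebraMap_eq_smul_one, mul_smul_comm, mul_one, ← Complex.coe_smul, map_smul,
      smul_eq_mul, Complex.re_ofReal_mul, e4] at h2
    rw [e3]
    exact h2
  have e5 : (τ X).re = ∑ i, (τ (X * (star (b i) * H * H * b i))).re := by
    have h0 := trace_null_mul hτ hfull X 1
    rw [mul_one, mul_sub, mul_one, map_sub, sub_eq_zero, Finset.mul_sum, map_sum] at h0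
    rw [← Complex.re_sum, h0]
  rw [e5, eY, Finset.sum_mul]
  refine Finset.sum_le_sum fun i _ => (h1 i).trans ?_
  exact mul_le_mul_of_nonneg_left (le_add_of_nonneg_right hPP) (sq_nonneg _)

/-- A block lies in every closed algebra containing the increments. -/
theorem blockSum_mem_of_closed {Q : Type*} {s : Finset Q} {w : Q → ℝ} {ε : ℝ} {f : ℕ → Q → F}
    {k : ℕ} {U : StarSubalgebra ℂ F} (hU : IsClosed (U : Set F))
    (hf : ∀ i < k, ∀ q ∈ s, f i q ∈ U) : blockSum s w ε f k ∈ U := by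
  rw [blockSum, ← Complex.coe_smul]
  exact SMulMemClass.smul_mem _ (sum_mem fun l hl => avg_mem_of_closed hU
    (fun i hi => hf i (hi.trans (Finset.mem_range.1 hl))) (hf l (Finset.mem_range.1 hl)))

variable {G : Type} [Group G] {T : Set (F →ₗ[ℂ] ℂ)} {α : G → (F ≃⋆ₐ[ℂ] F)} {K : Subgroup G}
  {Q : Type} [Group Q] [DecidableEq Q] {π : K →* Q}

/-- The commutator at a site has second moment bounded below. -/
theorem site_lower (hs : Sys T α) (hπ : Function.Surjective π) {D : StarSubalgebra ℂ F}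
    (hD : IsClosed (D : Set F)) (hinv : ∀ g, ∀ d ∈ D, α g d ∈ D) (φ : D →⋆ₐ[ℂ] F)
    (hnull : ∀ d : D, Cong T (d : F) 0 → Cong T (φ d) 0) (v : D) {n : ℕ} (b : Fin n → D)
    (hv : Cong T ((v : F) * v) 0)
    (hb : Cong T (∑ i, star (b i : F) * (star (v : F) * v) * (star (v : F) * v) * (b i : F)) 1)
    {τ : F →ₗ[ℂ] ℂ} (hτ : τ ∈ T) {Y : F} (hY0 : 0 ≤ Y) (hYc : ∀ d, Commute Y (φ d)) (q : Q) :
    1 / ((∑ i, ‖(b i : F)‖ ^ 2) + 1) * (τ Y).re ≤
      (τ (Y * (site α π hπ hinv φ (star v * v - v * star v) q *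
        site α π hπ hinv φ (star v * v - v * star v) q))).re := by
  have hc : ∀ d, Commute Y (site α π hπ hinv φ d q) := fun d => hYc _
  have hsq : tn τ (site α π hπ hinv φ v q * site α π hπ hinv φ v q) = 0 := by
    have h := cong_site_zero α π hπ hinv φ hs hnull (d := v * v) hv q τ hτ
    rwa [site_mul, sub_zero] at h
  set Fd : D := (∑ i, star (b i) * (star v * v) * (star v * v) * b i) - 1 with hFd
  have hfull : Cong T (Fd : F) 0 := fun σ hσ => by
    have h := hb σ hσ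
    rw [sub_zero, hFd]
    push_cast
    exact h
  have h := cong_site_zero α π hπ hinv φ hs hnull hfull q τ hτ
  have hsum : ∀ (g : Fin n → D), site α π hπ hinv φ (∑ i, g i) q =
      ∑ i, site α π hπ hinv φ (g i) q := fun g => map_sum
    (AddMonoidHom.mk' (fun d => site α π hπ hinv φ d q)
      fun a a' => site_add α π hπ hinv φ a a' q) g _
  rw [sub_zero, hFd, site_sub, site_one, hsum] at h
  simp only [site_mul, site_star] at h
  have h1 := commutator_lower (hs.isTrace τ hτ) hY0 (hc v) (site_star α π hπ hinv φ v q ▸ hc _)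
    (fun i => site α π hπ hinv φ (b i) q) (fun i => hc _) hsq h
  simp only [← site_mul, ← site_star, ← site_sub] at h1
  rw [site_mul] at h1
  have hsa : IsSelfAdjoint (site α π hπ hinv φ (star v * v - v * star v) q) := by
    rw [isSelfAdjoint_iff, ← site_star, star_sub, star_mul, star_mul, star_star]
  have h2 : 0 ≤ (τ (Y * (site α π hπ hinv φ (star v * v - v * star v) q *
      site α π hπ hinv φ (star v * v - v * star v) q))).re :=
    (Complex.nonneg_iff.1 ((hs.isTrace τ hτ).map_mul_nonneg hY0 hsa.mul_self_nonneg)).1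
  have h3 : ∑ i, ‖site α π hπ hinv φ (b i) q‖ ^ 2 ≤ ∑ i, ‖(b i : F)‖ ^ 2 :=
    Finset.sum_le_sum fun i _ =>
      pow_le_pow_left₀ (norm_nonneg _) (norm_site_le α π hπ hinv φ hD _ _) 2
  rw [one_div, inv_mul_le_iff₀ (by positivity)]
  nlinarith [mul_le_mul_of_nonneg_right h3 h2]

/-- The exponential of a normalised sum of blocks moves little. -/
theorem tn_map_exp_le {τ : F →ₗ[ℂ] ℂ} (hτ : IsTrace τ) (φ : F →⋆ₐ[ℂ] F) {N : ℕ} (Z d : Fin N → F)
    {tot : F} {a e : ℝ} (htot : tot = (a : ℂ) • ∑ j, Z j) (htsa : IsSelfAdjoint tot) (ha : 0 ≤ a)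
    (hd : ∀ j, tn τ (φ (Z j) - Z j - d j) = 0) (he : ∀ j, tn τ (d j) ≤ e) (he0 : 0 ≤ e)
    (hdsa : ∀ j, IsSelfAdjoint (d j)) (horth : ∀ i j, i ≠ j → τ (d i * d j) = 0) :
    tn τ (φ (NormedSpace.exp (Complex.I • tot)) - NormedSpace.exp (Complex.I • tot)) ≤
      a * Real.sqrt N * e := by
  let : NormedAlgebra ℚ F := NormedAlgebra.restrictScalars ℚ ℂ F
  have hexp := NormedSpace.map_exp (f := φ) (Vale.Agent.P101.hom_continuous _) (Complex.I • tot)
  rw [map_smul] at hexp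
  rw [hexp]
  refine (exp_lip hτ (htsa.map φ) htsa).trans ?_
  have e1 : φ tot - tot = (a : ℂ) • (∑ j, (φ (Z j) - Z j - d j) + ∑ j, d j) := by
    rw [htot, map_smul, map_sum, ← smul_sub, ← Finset.sum_sub_distrib, ← Finset.sum_add_distrib]
    simp
  have h0 : tn τ (∑ j, (φ (Z j) - Z j - d j)) = 0 := by
    refine le_antisymm ((hτ.tn_sum_le _ _).trans ?_) (hτ.tn_nonneg _)
    simp [hd]
  have h1 : tn τ (∑ j, d j) ≤ Real.sqrt N * e := by
    refine (pow_le_pow_iff_left₀ (hτ.tn_nonneg _) (by positivity) two_ne_zero).1 ?_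
    rw [tn_sum_sq_orth hτ _ d (fun j _ => hdsa j) (fun i _ j _ h => horth i j h),
      mul_pow (Real.sqrt N), Real.sq_sqrt (Nat.cast_nonneg N)]
    refine (Finset.sum_le_card_nsmul _ _ _ fun j _ =>
      pow_le_pow_left₀ (hτ.tn_nonneg _) (he j) 2).trans_eq ?_
    simp
  rw [e1, hτ.tn_smul, Complex.norm_real, Real.norm_eq_abs, abs_of_nonneg ha, mul_assoc]
  refine mul_le_mul_of_nonneg_left ((hτ.tn_add_le _ _).trans ?_) ha
  rw [h0, zero_add]
  exact h1

/-- The three error terms of a small power. -/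
theorem small_power_bound {κ c A Rk η M pa : ℝ} {N p : ℕ} (hκ : 0 < κ) (hc : 0 < c)
    (hA : 0 ≤ A) (hRk : 0 ≤ Rk) (hη : 0 < η) (hN : 0 < Real.sqrt N) (hp : p ≠ 0)
    (hpa : pa = p * (1 / (κ * Real.sqrt N))) (hle : |pa| ≤ A / Real.sqrt N)
    (hL : A ^ 3 * Rk ^ 3 / η ≤ Real.sqrt N) (hpc : pa ^ 2 * c ≤ 2) (hηκ : η = κ ^ 4) :
    (1 - pa ^ 2 * c / 2) ^ N + 2 * η * (M ^ 2 + 1) / c + N * |pa| ^ 3 * Rk ^ 3 ≤
      2 * κ ^ 2 / c + 2 * κ ^ 4 * (M ^ 2 + 1) / c + κ ^ 4 := by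
  refine add_le_add (add_le_add ?_ (le_of_eq (by rw [hηκ]))) ?_
  · have hbase : 0 ≤ 1 - pa ^ 2 * c / 2 := by linarith
    have h1 := Real.add_one_le_exp (-(pa ^ 2 * c / 2))
    refine (pow_le_pow_left₀ hbase (by linarith : _ ≤ Real.exp (-(pa ^ 2 * c / 2))) N).trans ?_
    rw [← Real.exp_nat_mul]
    have hN0 : (0 : ℝ) < N := Real.sqrt_pos.1 hN
    have e : (N : ℝ) * -(pa ^ 2 * c / 2) = -((p : ℝ) ^ 2 * c / (2 * κ ^ 2)) := by
      rw [hpa]; field_simp
      rw [Real.sq_sqrt hN0.le]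
    rw [e, Real.exp_neg]
    have hp1 : (1 : ℝ) ≤ (p : ℝ) := by exact_mod_cast Nat.one_le_iff_ne_zero.2 hp
    have hx : 0 < (p : ℝ) ^ 2 * c / (2 * κ ^ 2) := by positivity
    refine (inv_anti₀ hx (le_trans (le_add_of_nonneg_right zero_le_one)
      (Real.add_one_le_exp _))).trans ?_
    rw [inv_div]
    gcongr
    exact le_mul_of_one_le_left hc.le (one_le_pow₀ hp1)
  · have h2 : |pa| ^ 3 ≤ (A / Real.sqrt N) ^ 3 := pow_le_pow_left₀ (abs_nonneg _) hle 3
    refine le_trans (b := A ^ 3 * Rk ^ 3 / Real.sqrt N)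
      ((mul_le_mul_of_nonneg_right (mul_le_mul_of_nonneg_left h2 (Nat.cast_nonneg N))
        (pow_nonneg hRk 3)).trans (le_of_eq ?_)) ?_
    · field_simp
      rw [Real.sq_sqrt (Nat.cast_nonneg N)]
      ring
    · rw [div_le_iff₀ hN, ← hηκ]
      rw [div_le_iff₀ hη] at hL
      linarith

/-- The average defect of a long block. -/
theorem defect_avg_le {ι : Type*} {τ : F →ₗ[ℂ] ℂ} {s : Finset ι} {f : ℕ → ι → F}
    {C : ℕ → StarSubalgebra ℂ F} {M : ℝ} {k : ℕ} (h : Steps τ s f C M k) (hτ : IsTrace τ)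
    {w : ι → ℝ} (hw : ∀ q, 0 ≤ w q) {g₀ : ι} (hg₀ : g₀ ∈ s) (h1 : w g₀ = 1) (hM : 0 ≤ M)
    {ε η Ct : ℝ} (hε : ε ≠ 0) (hεM : |ε| * M ≤ 1 / 8) (hεM3 : 100 * (|ε| * M ^ 3) ≤ η)
    (hη : 0 < η) (hη1 : η ≤ 1) (hCt : ∑ q ∈ s, w q ^ η ≤ Ct) (hk : 0 < k)
    (hkC : 2 * Real.log Ct / (η * ε ^ 2 * η) ≤ k) :
    (∑ l ∈ Finset.range k, defect τ s w ε f l) / k ≤ 2 * η * (M ^ 2 + 1) := by
  have hd := sum_defect_le h hτ (fun q _ => hw q) hg₀ h1.ge hε hM hεM hη hη1
  have hW1 : 1 ≤ ∑ q ∈ s, w q ^ η := by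
    have := Finset.single_le_sum (f := fun q => w q ^ η)
      (fun q _ => Real.rpow_nonneg (hw q) η) hg₀
    simpa [h1] using this
  have h2 : Real.log (∑ q ∈ s, w q ^ η) ≤ Real.log Ct :=
    Real.log_le_log (zero_lt_one.trans_le hW1) hCt
  have h3 : 2 * Real.log (∑ q ∈ s, w q ^ η) / (η * ε ^ 2) ≤ η * k := by
    rw [div_le_iff₀ (by positivity)] at hkC ⊢
    nlinarith
  have hk' : (0 : ℝ) < k := by exact_mod_cast hk
  rw [div_le_iff₀ hk']
  have h5 := mul_le_mul_of_nonneg_left hεM3 hk'.le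
  nlinarith

section Layout

variable {D : StarSubalgebra ℂ F}

/-- The copies used by one block. -/
def blockSet (θ : ℕ → (D →⋆ₐ[ℂ] F)) {N : ℕ} (j : Fin N) : Set F :=
  {x | ∃ l d, θ (Nat.pair j l) d = x}

/-- The prescribed set and the copies used by the other blocks. -/
def outsideSet (S : Set F) (θ : ℕ → (D →⋆ₐ[ℂ] F)) {N : ℕ} (j : Fin N) : Set F :=
  S ∪ {x | ∃ i, i ≠ j ∧ x ∈ blockSet θ i}

/-- The algebra before a step of a block. -/
def pastAlg (S : Set F) (θ : ℕ → (D →⋆ₐ[ℂ] F)) {N : ℕ} (j : Fin N) (l : ℕ) :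
    StarSubalgebra ℂ F :=
  genAlg (outsideSet S θ j ∪ {x | ∃ i, i < l ∧ ∃ d, θ (Nat.pair j i) d = x})

variable {S : Set F} {θ : ℕ → (D →⋆ₐ[ℂ] F)} {N : ℕ}
  (hθS : ∀ i d, ∀ t ∈ S, Commute (θ i d) t)
  (hθθ : ∀ i j, i ≠ j → ∀ d e, Commute (θ i d) (θ j e))

theorem blockSet_star (j : Fin N) {x : F} (hx : x ∈ blockSet θ j) : star x ∈ blockSet θ j := by
  obtain ⟨l, d, rfl⟩ := hx
  exact ⟨l, star d, map_star _ _⟩

theorem pair_ne {i j : Fin N} {l l' : ℕ} (h : i ≠ j ∨ l ≠ l') :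
    Nat.pair i l ≠ Nat.pair j l' := fun e => by
  obtain ⟨h1, h2⟩ := Nat.pair_eq_pair.1 e
  rcases h with h | h
  · exact h (Fin.ext h1)
  · exact h h2

include hθS hθθ in
theorem commute_pastAlg (j : Fin N) (l : ℕ) {X : F} (hX : X ∈ pastAlg S θ j l) (d : D) :
    Commute X (θ (Nat.pair j l) d) := by
  refine commute_genAlg (Y := Set.range (θ (Nat.pair j l))) (fun z hz => ?_) ?_ hX
    (subset_genAlg _ ⟨d, rfl⟩)
  · obtain ⟨e, rfl⟩ := hz
    exact ⟨star e, map_star _ _⟩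
  · rintro x ((hx | ⟨i, hi, l', e, rfl⟩) | ⟨i, hi, e, rfl⟩) z ⟨d', rfl⟩
    · exact (hθS _ _ _ hx).symm
    · exact hθθ _ _ (pair_ne (Or.inl hi)) _ _
    · exact hθθ _ _ (pair_ne (Or.inr hi.ne)) _ _

theorem outside_le_past (j : Fin N) {X : F} (hX : X ∈ genAlg (outsideSet S θ j)) :
    X ∈ pastAlg S θ j 0 :=
  genAlg_le (isClosed_genAlg _) (Set.subset_union_left.trans (subset_genAlg _)) hX

theorem block_le_past {i j : Fin N} (hij : i ≠ j) {X : F} (hX : X ∈ genAlg (blockSet θ i)) :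
    X ∈ pastAlg S θ j 0 :=
  genAlg_le (isClosed_genAlg _) (fun x hx => subset_genAlg _ (Or.inl (Or.inr ⟨i, hij, hx⟩))) hX

include hθθ in
theorem commute_blocks {i j : Fin N} (hij : i ≠ j) {X Y : F} (hX : X ∈ genAlg (blockSet θ i))
    (hY : Y ∈ genAlg (blockSet θ j)) : Commute X Y := by
  refine commute_genAlg (fun z hz => blockSet_star j hz) ?_ hX hY
  rintro x ⟨l, d, rfl⟩ z ⟨l', d', rfl⟩
  exact hθθ _ _ (pair_ne (Or.inl hij)) _ _

variable (hπ : Function.Surjective π) (hinv : ∀ g, ∀ d ∈ D, α g d ∈ D)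

/-- The translates of the commutator in the copies of one block. -/
def coinSteps (θ : ℕ → (D →⋆ₐ[ℂ] F)) (v : D) (j : Fin N) (l : ℕ) (q : Q) : F :=
  site α π hπ hinv (θ (Nat.pair j l)) (star v * v - v * star v) q

theorem coinSteps_selfAdjoint (v : D) (j : Fin N) (l : ℕ) (q : Q) :
    IsSelfAdjoint (coinSteps hπ hinv θ v j l q) := by
  rw [coinSteps, isSelfAdjoint_iff, ← site_star, star_sub, star_mul, star_mul, star_star]

theorem coinSteps_mem (v : D) (j : Fin N) (l : ℕ) (q : Q) :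
    coinSteps hπ hinv θ v j l q ∈ genAlg (blockSet θ j) :=
  subset_genAlg _ ⟨l, _, rfl⟩

include hθS hθθ in
theorem coinSteps_steps (hs : Sys T α) (hD : IsClosed (D : Set F)) (v : D) {τ : F →ₗ[ℂ] ℂ}
    (hτ : τ ∈ T) (j : Fin N) (s : Finset Q) (k : ℕ) :
    Steps τ s (coinSteps hπ hinv θ v j) (pastAlg S θ j)
      ‖((star v * v - v * star v : D) : F)‖ k :=
  { closed := fun l => isClosed_genAlg _
    mono := fun l l' hll => genAlg_le (isClosed_genAlg _) (by
      rintro x (hx | ⟨i, hi, hx⟩)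
      · exact subset_genAlg _ (Or.inl hx)
      · exact subset_genAlg _ (Or.inr ⟨i, hi.trans_le hll, hx⟩))
    selfAdjoint := fun l _ q _ => coinSteps_selfAdjoint hπ hinv v j l q
    norm_le := fun l _ q _ => norm_site_le α π hπ hinv _ hD _ q
    mem := fun l _ q _ => subset_genAlg _ (Or.inr ⟨l, Nat.lt_succ_self l, _, rfl⟩)
    commute := fun l _ X hX q _ => commute_pastAlg hθS hθθ j l hX _
    centred := fun l _ X hX q _ => by
      simp only [coinSteps, site_sub, site_mul, site_star]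
      refine (hs.isTrace τ hτ).mul_commutator_eq_zero ?_
      rw [← site_star]
      exact commute_pastAlg hθS hθθ j l hX _ }

include hθS hθθ in
/-- The exponential of the normalised blocks moves little. -/
theorem coins_move (hs : Sys T α) (hD : IsClosed (D : Set F)) (v : D)
    (hnull : ∀ i (d : D), Cong T (d : F) 0 → Cong T (θ i d) 0)
    (heq : ∀ i g (d : D) (h : α g (d : F) ∈ D), α g (θ i d) = θ i ⟨α g (d : F), h⟩)
    (hfix : FixedBy T α (π.ker.map K.subtype) ((star v * v - v * star v : D) : F))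
    {g : K} {s s' : Finset Q} (hss : s ⊆ s') (hσ : ∀ q ∈ s, π g * q ∈ s') (h1s : 1 ∈ s)
    {w : Q → ℝ} (hw : ∀ q, 0 ≤ w q) (hw1 : w 1 = 1) {ε e η δ a : ℝ} {k : ℕ} (hη : 0 ≤ η)
    (hδ : 0 ≤ δ) (hdiff : ∀ q ∈ s', |movWt (Equiv.mulLeft (π g)) s w q - cutWt s w q| ≤
      η * cutWt s w q + δ)
    (hedge : η + δ * s'.card * Real.exp (2 * |ε| *
      (k * ‖((star v * v - v * star v : D) : F)‖)) ≤ e) (he : e ≤ 1 / 4) (ha : 0 ≤ a)
    {tot : F} (htot : tot = (a : ℂ) • ∑ j : Fin N, blockSum s w ε (coinSteps hπ hinv θ v j) k)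
    (htsa : IsSelfAdjoint tot) {τ : F →ₗ[ℂ] ℂ} (hτ : τ ∈ T) :
    tn τ (α (g : G) (NormedSpace.exp (Complex.I • tot)) - NormedSpace.exp (Complex.I • tot)) ≤
      a * Real.sqrt N * (50 * ‖((star v * v - v * star v : D) : F)‖ * Real.sqrt e) := by
  set σ : Q ≃ Q := Equiv.mulLeft (π g)
  have hst := fun j : Fin N => coinSteps_steps hθS hθθ hπ hinv hs hD v hτ j s' k
  have hmem : ∀ (j : Fin N) (u : Q → ℝ),
      blockSum s' u ε (coinSteps hπ hinv θ v j) k ∈ genAlg (blockSet θ j) := fun j u =>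
    blockSum_mem_of_closed (isClosed_genAlg _) fun i _ q _ => coinSteps_mem hπ hinv v j i q
  refine tn_map_exp_le (hs.isTrace τ hτ) (α (g : G) : F →⋆ₐ[ℂ] F) _
    (fun j => blockDiff σ s s' w ε (coinSteps hπ hinv θ v j) k) htot htsa ha (fun j => ?_)
    (fun j => blockDiff_tn_le (hs.isTrace τ hτ) (hst j) σ hss hw h1s hw1.ge hη hδ hdiff
      (norm_nonneg _) hedge he) (by positivity)
    (fun j => (blockSum_selfAdjoint (hst j)).sub (blockSum_selfAdjoint (hst j)))
    fun i j hij => ?_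
  · exact cong_map_blockSum hs (g : G) σ hss hσ hw h1s (by rw [hw1]; exact one_pos)
      (fun i _ q _ => coinSteps_selfAdjoint hπ hinv v j i q)
      (fun i _ q _ => map_site α π hπ hinv _ hs (hnull _) (heq _) hfix g q) τ hτ
  · have hC : blockDiff σ s s' w ε (coinSteps hπ hinv θ v i) k ∈ pastAlg S θ j 0 :=
      block_le_past hij (sub_mem (hmem i _) (hmem i _))
    show τ (_ * (_ - _)) = 0
    rw [mul_sub, map_sub, blockSum_centred (hst j) (hs.isTrace τ hτ) hC,
      blockSum_centred (hst j) (hs.isTrace τ hτ) hC, sub_zero]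

include hθS hθθ in
/-- The powers of the exponential are almost orthogonal to the prescribed set. -/
theorem coins_power (hs : Sys T α) (hD : IsClosed (D : Set F)) (v : D) {n : ℕ} (b : Fin n → D)
    (hnull : ∀ i (d : D), Cong T (d : F) 0 → Cong T (θ i d) 0)
    (hv : Cong T ((v : F) * v) 0)
    (hb : Cong T (∑ i, star (b i : F) * (star (v : F) * v) * (star (v : F) * v) * (b i : F)) 1)
    {s : Finset Q} (h1s : 1 ∈ s) {w : Q → ℝ} (hw : ∀ q, 0 ≤ w q) (hw1 : w 1 = 1) {ε δ : ℝ}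
    {k : ℕ} (hk : 0 < k) (hδ0 : 0 ≤ δ) {τ : F →ₗ[ℂ] ℂ} (hτ : τ ∈ T)
    (hδ : ∀ j : Fin N,
      (∑ l ∈ Finset.range k, defect τ s w ε (coinSteps hπ hinv θ v j) l) / k ≤ δ)
    {t : F} (ht : t ∈ S) {pa : ℝ}
    (hpR : |pa| * (Real.sqrt k * ‖((star v * v - v * star v : D) : F)‖) ≤ 1)
    (hpc : pa ^ 2 * (1 / ((∑ i, ‖(b i : F)‖ ^ 2) + 1)) ≤ 2) :
    ‖τ (t * NormedSpace.exp (Complex.I •
        ((pa : ℂ) • ∑ j : Fin N, blockSum s w ε (coinSteps hπ hinv θ v j) k)))‖ ≤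
      ‖t‖ * ((1 - pa ^ 2 * (1 / ((∑ i, ‖(b i : F)‖ ^ 2) + 1)) / 2) ^ N +
        δ / (1 / ((∑ i, ‖(b i : F)‖ ^ 2) + 1)) +
        N * |pa| ^ 3 * (Real.sqrt k * ‖((star v * v - v * star v : D) : F)‖) ^ 3) := by
  have hτ' := hs.isTrace τ hτ
  have hst := fun j : Fin N => coinSteps_steps hθS hθθ hπ hinv hs hD v hτ j s k
  set Z : Fin N → F := fun j => blockSum s w ε (coinSteps hπ hinv θ v j) k
  have hZP : ∀ j, Z j ∈ genAlg (blockSet θ j) := fun j =>
    blockSum_mem_of_closed (isClosed_genAlg _) fun i _ q _ => coinSteps_mem hπ hinv v j i q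
  have hcomm : ∀ i j, Commute (Z i) (Z j) := fun i j => by
    rcases eq_or_ne i j with rfl | hij
    · exact Commute.refl _
    · exact commute_blocks hθθ hij (hZP i) (hZP j)
  have hsub : ∀ j, ∀ X ∈ genAlg ({t} ∪ Z '' {i | i ≠ j}), X ∈ pastAlg S θ j 0 := by
    intro j X hX
    refine genAlg_le (isClosed_genAlg _) ?_ hX
    rintro x (hx | ⟨i, hi, rfl⟩)
    · rw [Set.mem_singleton_iff.1 hx]
      exact subset_genAlg _ (Or.inl (Or.inl ht))
    · exact block_le_past hi (hZP i)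
  exact lindeberg hτ' Z t (fun j => blockSum_selfAdjoint (hst j)) hcomm
    (fun j => norm_blockSum_le (hst j) (fun q _ => hw q) h1s (by rw [hw1]; exact one_pos)
      (norm_nonneg _)) (by positivity) hδ0
    (fun j X hX => blockSum_centred (hst j) hτ' (hsub j X hX))
    (fun j X hX h0 h1 => le_trans (sub_le_sub_left (hδ j) _)
      (blockSum_lower (hst j) (fun q _ => hw q) h1s (by rw [hw1]; exact one_pos) hτ' hk
        (fun l _ Y hY hY0 q _ => site_lower hs hπ hD hinv (θ (Nat.pair j l)) (hnull _) v b hv hb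
          hτ hY0 (commute_pastAlg hθS hθθ j l hY) q) (hsub j X hX) h0 h1))
    pa hpR hpc

end Layout

/-- The parameters of approximate coins. -/
theorem coin_params {M c κ : ℝ} (hM : 0 ≤ M) (hc : 0 < c) (hκ : 0 < κ) (hκ1 : κ ≤ 1 / 2)
    (Ct : ℝ) (m : ℕ) :
    ∃ (ε : ℝ) (k N : ℕ), ε ≠ 0 ∧ |ε| * M ≤ 1 / 8 ∧ 100 * (|ε| * M ^ 3) ≤ κ ^ 4 ∧ 0 < k ∧
      2 * Real.log Ct / (κ ^ 4 * ε ^ 2 * κ ^ 4) ≤ k ∧ 0 < Real.sqrt N ∧
      1 / (κ * Real.sqrt N) * Real.sqrt N * (50 * M * Real.sqrt (3 * κ ^ 4)) ≤ 100 * M * κ ∧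
      ∀ p : ℕ, p ≠ 0 → p ≤ m + 1 →
        |(p * (1 / (κ * Real.sqrt N)) : ℝ)| * (Real.sqrt k * M) ≤ 1 ∧
        (p * (1 / (κ * Real.sqrt N)) : ℝ) ^ 2 * c ≤ 2 ∧
        (1 - (p * (1 / (κ * Real.sqrt N)) : ℝ) ^ 2 * c / 2) ^ N +
            2 * κ ^ 4 * (M ^ 2 + 1) / c +
            N * |(p * (1 / (κ * Real.sqrt N)) : ℝ)| ^ 3 * (Real.sqrt k * M) ^ 3 ≤
          2 * κ ^ 2 / c + 2 * κ ^ 4 * (M ^ 2 + 1) / c + κ ^ 4 := by
  have hη0 : 0 < κ ^ 4 := by positivity
  have hη12 : κ ^ 4 ≤ 1 / 12 := by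
    have := pow_le_pow_left₀ hκ.le hκ1 4
    norm_num at this ⊢; linarith
  set ε := κ ^ 4 / (800 * (M + 1) ^ 3) with hε
  have hε0 : 0 < ε := by positivity
  have hM3 : M ≤ (M + 1) ^ 3 ∧ M ^ 3 ≤ (M + 1) ^ 3 :=
    ⟨le_trans (by linarith) (le_self_pow₀ (by linarith : (1 : ℝ) ≤ M + 1) (by norm_num)),
      pow_le_pow_left₀ hM (by linarith) 3⟩
  have hεd : ε * (800 * (M + 1) ^ 3) = κ ^ 4 := div_mul_cancel₀ _ (by positivity)
  set k : ℕ := ⌈2 * Real.log Ct / (κ ^ 4 * ε ^ 2 * κ ^ 4)⌉₊ + 1 with hk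
  set Rk := Real.sqrt k * M with hRk
  have hRk0 : 0 ≤ Rk := by positivity
  set A := ((m : ℝ) + 1) / κ with hA
  have hA0 : 0 ≤ A := by positivity
  set L := 1 + A * Rk + A ^ 3 * Rk ^ 3 / κ ^ 4 + A ^ 2 * c with hL
  have hp1 : 0 ≤ A * Rk := mul_nonneg hA0 hRk0
  have hp2 : 0 ≤ A ^ 3 * Rk ^ 3 / κ ^ 4 := by positivity
  have hp3 : 0 ≤ A ^ 2 * c := by positivity
  set N := ⌈L ^ 2⌉₊ with hN
  have hNL : L ≤ Real.sqrt N :=
    (Real.le_sqrt (by linarith) (Nat.cast_nonneg N)).2 (Nat.le_ceil _)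
  have hsN : 0 < Real.sqrt N := lt_of_lt_of_le (by linarith) hNL
  refine ⟨ε, k, N, hε0.ne', ?_, ?_, Nat.succ_pos _, ?_, hsN, ?_, fun p hp hpm => ?_⟩
  · rw [abs_of_pos hε0]
    have := mul_le_mul_of_nonneg_left hM3.1 hε0.le
    nlinarith
  · rw [abs_of_pos hε0]
    have := mul_le_mul_of_nonneg_left hM3.2 hε0.le
    nlinarith
  · rw [hk]; push_cast
    linarith [Nat.le_ceil (2 * Real.log Ct / (κ ^ 4 * ε ^ 2 * κ ^ 4))]
  · have h3 : Real.sqrt (3 * κ ^ 4) ≤ 2 * κ ^ 2 :=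
      Real.sqrt_le_iff.2 ⟨by positivity, by nlinarith⟩
    calc 1 / (κ * Real.sqrt N) * Real.sqrt N * (50 * M * Real.sqrt (3 * κ ^ 4))
        = 50 * M * (Real.sqrt (3 * κ ^ 4) / κ) := by field_simp
      _ ≤ 50 * M * (2 * κ ^ 2 / κ) := by gcongr
      _ = 100 * M * κ := by field_simp; ring
  · set pa : ℝ := p * (1 / (κ * Real.sqrt N)) with hpa'
    have hpm' : (p : ℝ) ≤ m + 1 := by exact_mod_cast hpm
    have hpa : |pa| ≤ A / Real.sqrt N := by
      rw [abs_of_nonneg (by positivity), hpa', hA, mul_one_div, div_div]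
      gcongr
    have hpac : pa ^ 2 * c ≤ 2 := by
      have h1 : pa ^ 2 ≤ A ^ 2 / Real.sqrt N := by
        rw [← sq_abs]
        refine (pow_le_pow_left₀ (abs_nonneg _) hpa 2).trans ?_
        rw [div_pow]
        gcongr
        exact le_self_pow₀ (by linarith) two_ne_zero
      refine (mul_le_mul_of_nonneg_right h1 hc.le).trans ?_
      rw [div_mul_eq_mul_div, div_le_iff₀ hsN]
      linarith
    refine ⟨?_, hpac, small_power_bound hκ hc hA0 hRk0 hη0 hsN hp rfl hpa (by linarith) hpac rfl⟩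
    refine (mul_le_mul_of_nonneg_right hpa hRk0).trans ?_
    rw [div_mul_eq_mul_div, div_le_one hsN]
    linarith

/-- Approximate coins. -/
theorem exists_approx_coin (hs : Sys T α) (hsat : Saturated T α) (hπ : Function.Surjective π)
    (D : StarSubalgebra ℂ F) (hD : IsClosed (D : Set F)) (hsep : IsSeparable (D : Set F))
    (hinv : ∀ g, ∀ d ∈ D, α g d ∈ D) (v : D) {n : ℕ} (b : Fin n → D)
    (hv : Cong T ((v : F) * v) 0)
    (hb : Cong T (∑ i, star (b i : F) * (star (v : F) * v) * (star (v : F) * v) * (b i : F)) 1)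
    (hvfix : FixedBy T α (π.ker.map K.subtype) (v : F))
    (W : Finset Q) (B : ℕ → Finset Q) (hB1 : ∀ R, 1 ∈ B R) (hBmono : Monotone B)
    (hBstep : ∀ u ∈ W, ∀ R, ∀ q ∈ B R, u * q ∈ B (R + 1))
    (hwt : ∀ η : ℝ, 0 < η → ∃ w : Q → ℝ, w 1 = 1 ∧ (∀ q, 0 ≤ w q) ∧
      (∀ t : ℝ, 0 < t → ∃ C, ∀ R, ∑ q ∈ B R, w q ^ t ≤ C) ∧
      ∀ M δ : ℝ, 0 < M → 0 < δ → ∀ᶠ R in Filter.atTop, ∃ δ', 0 ≤ δ' ∧
        δ' * (B (R + 1)).card * M ≤ δ ∧
        ∀ u ∈ W, ∀ q ∈ B (R + 1),
          |(if u⁻¹ * q ∈ B R then w (u⁻¹ * q) else 0) - (if q ∈ B R then w q else 0)|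
            ≤ (Real.exp η - 1) * (if q ∈ B R then w q else 0) + δ')
    {S : Set F} (hS : S.Countable) (hSstar : ∀ t ∈ S, star t ∈ S) :
    ∃ c M : ℝ, 0 < c ∧ 0 ≤ M ∧ ∀ κ : ℝ, 0 < κ → κ ≤ 1 / 2 → ∀ m : ℕ,
      ∃ u ∈ unitary F, (∀ t ∈ S, Commute u t) ∧
        (∀ g : K, π g = 1 ∨ π g ∈ W → ∀ τ ∈ T, tn τ (α (g : G) u - u) ≤ 100 * M * κ) ∧
        ∀ t ∈ S, ∀ p : ℕ, p ≠ 0 → p ≤ m + 1 → ∀ τ ∈ T, ‖τ (t * u ^ p)‖ ≤
          ‖t‖ * (2 * κ ^ 2 / c + 2 * κ ^ 4 * (M ^ 2 + 1) / c + κ ^ 4) := by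
  classical
  obtain ⟨θ, hθS, hθθ, hθeq, hθnull⟩ := exists_copies hsat D hD hsep hinv S hS
  set y : D := star v * v - v * star v with hy
  have hysa : star y = y := by
    rw [hy, star_sub, star_mul, star_mul, star_star]
  have hyfix : FixedBy T α (π.ker.map K.subtype) (y : F) := by
    refine fixedBy_genAlg hs (X := {(v : F)}) (fun x hx => ?_) ?_
    · rw [Set.mem_singleton_iff] at hx; rw [hx]; exact hvfix
    · have hm : (v : F) ∈ genAlg {(v : F)} := subset_genAlg _ rfl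
      exact sub_mem (mul_mem (star_mem hm) hm) (mul_mem hm (star_mem hm))
  set Cb := ∑ i, ‖(b i : F)‖ ^ 2 with hCb
  have hCb0 : 0 ≤ Cb := Finset.sum_nonneg fun i _ => sq_nonneg _
  set M := ‖(y : F)‖ with hM
  have hM0 : 0 ≤ M := norm_nonneg _
  refine ⟨1 / (Cb + 1), M, by positivity, hM0, fun κ hκ hκ1 m => ?_⟩
  set c := 1 / (Cb + 1) with hc
  have hc0 : 0 < c := by positivity
  -- parameters
  have hη0 : 0 < κ ^ 4 := by positivity
  have hη12 : κ ^ 4 ≤ 1 / 12 := by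
    have := pow_le_pow_left₀ hκ.le hκ1 4
    norm_num at this ⊢; linarith
  obtain ⟨w, hw1, hw0, hwsum, hwdiff⟩ := hwt (κ ^ 4) hη0
  obtain ⟨Ct, hCt⟩ := hwsum (κ ^ 4) hη0
  obtain ⟨ε, k, N, hε0, hεM, hεM3, hk0, hkC, hsN, hκbound, hpow'⟩ :=
    coin_params hM0 hc0 hκ hκ1 Ct m
  obtain ⟨R, δ', hδ', hδcard, hdiff⟩ :=
    (hwdiff (Real.exp (2 * |ε| * (k * M))) (κ ^ 4) (Real.exp_pos _) hη0).exists
  have hexp0 : 0 ≤ Real.exp (κ ^ 4) - 1 := by linarith [Real.one_le_exp hη0.le]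
  have hedge : Real.exp (κ ^ 4) - 1 + δ' * (B (R + 1)).card * Real.exp (2 * |ε| * (k * M)) ≤
      3 * κ ^ 4 := by
    have h1 := exp_le_quad (x := κ ^ 4) (by rw [abs_of_pos hη0]; linarith)
    have : (κ ^ 4) ^ 2 ≤ κ ^ 4 := by nlinarith
    linarith
  have hη4 : 3 * κ ^ 4 ≤ 1 / 4 := by linarith
  -- the blocks
  set a := 1 / (κ * Real.sqrt N) with ha
  have ha0 : 0 < a := by positivity
  set Z : Fin N → F := fun j => blockSum (B R) w ε (coinSteps hπ hinv θ v j) k with hZ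
  have hZsa : ∀ j, IsSelfAdjoint (Z j) := fun j =>
    (IsSelfAdjoint.all _).smul (isSelfAdjoint_sum _ fun l _ => by
      rw [stepAvg, isSelfAdjoint_iff, star_avg]
      exact avg_congr _ _ _ _ _ fun q _ => (coinSteps_selfAdjoint hπ hinv v j l q).star_eq)
  set tot := ((a : ℂ)) • ∑ j, Z j with htot
  have htot_sa : IsSelfAdjoint tot := by
    rw [htot, Complex.coe_smul]
    exact (IsSelfAdjoint.all a).smul (isSelfAdjoint_sum _ fun j _ => hZsa j)
  let : NormedAlgebra ℚ F := NormedAlgebra.restrictScalars ℚ ℂ F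
  refine ⟨NormedSpace.exp (Complex.I • tot), (selfAdjoint.expUnitary ⟨tot, htot_sa⟩).2,
    fun t ht => ?_, fun g hg τ hτ => ?_, fun t ht p hp hpm τ hτ => ?_⟩
  · have hZS : ∀ j, Commute (Z j) t := fun j => by
      refine commute_genAlg hSstar ?_ (blockSum_mem_of_closed (isClosed_genAlg _)
        fun i _ q _ => coinSteps_mem hπ hinv v j i q) (subset_genAlg _ ht)
      rintro x ⟨l, d, rfl⟩ z hz
      exact hθS _ _ _ hz
    exact (((Commute.sum_left _ _ _ fun j _ => hZS j).smul_left _).smul_left _).exp_left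
  · refine (coins_move hθS hθθ hπ hinv hs hD v hθnull hθeq hyfix (hBmono (Nat.le_succ R)) ?_
      (hB1 R) hw0 hw1 hexp0 hδ' ?_ hedge hη4 ha0.le htot htot_sa hτ).trans hκbound
    · intro q hq
      rcases hg with h | h
      · simpa [h] using hBmono (Nat.le_succ R) hq
      · exact hBstep _ h R q hq
    · intro q hq
      rcases hg with h | h
      · have e : movWt (Equiv.mulLeft (π g)) (B R) w q = cutWt (B R) w q := by
          simp [movWt, cutWt, h, Equiv.Perm.one_def]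
        have h0 : 0 ≤ cutWt (B R) w q := by unfold cutWt; split_ifs <;> simp [hw0]
        rw [e, sub_self, abs_zero]
        exact add_nonneg (mul_nonneg hexp0 h0) hδ'
      · simpa [movWt, cutWt] using hdiff _ h q hq
  · have hτ' := hs.isTrace τ hτ
    have hpow : NormedSpace.exp (Complex.I • tot) ^ p =
        NormedSpace.exp (Complex.I • (((p * a : ℝ) : ℂ) • ∑ j, Z j)) := by
      rw [← NormedSpace.exp_nsmul, htot, ← Nat.cast_smul_eq_nsmul ℂ, smul_smul, smul_smul,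
        smul_smul]
      congr 2
      push_cast
      ring
    rw [hpow]
    obtain ⟨hpaR, hpac, hbound⟩ := hpow' p hp hpm
    exact (coins_power hθS hθθ hπ hinv hs hD v b hθnull hv hb (hB1 R) hw0 hw1 hk0 (by positivity)
      hτ (fun j => defect_avg_le (coinSteps_steps hθS hθθ hπ hinv hs hD v hτ j (B R) k) hτ' hw0
        (hB1 R) hw1 hM0 hε0 hεM hεM3 hη0 (by linarith) (hCt R) hk0 hkC) ht hpaR hpac).trans
      (mul_le_mul_of_nonneg_left hbound (norm_nonneg t))

/-- **Coins for a layer of subexponential growth.** -/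
theorem coins_of_growth [Countable G] (hs : Sys T α) (hsat : Saturated T α) {K : Subgroup G}
    {Q : Type} [Group Q] (π : K →* Q) (hπ : Function.Surjective π) (hQ : SubexpGrowth Q)
    (D : StarSubalgebra ℂ F) (hD : IsClosed (D : Set F)) (hsep : IsSeparable (D : Set F))
    (hinv : ∀ g, ∀ d ∈ D, α g d ∈ D) (v : D) {n : ℕ} (b : Fin n → D)
    (hv : Cong T ((v : F) * v) 0)
    (hb : Cong T (∑ i, star (b i : F) * (star (v : F) * v) * (star (v : F) * v) * (b i : F)) 1)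
    (hvfix : FixedBy T α (π.ker.map K.subtype) (v : F)) : Coins T α K := by
  classical
  obtain ⟨W, B, hW, hB1, hBmono, hBstep, hwt⟩ := hQ.exists_weights
  intro S hS
  set S' := S ∪ star '' S with hS'
  have hS'c : S'.Countable := hS.union (hS.image _)
  have hS's : ∀ t ∈ S', star t ∈ S' := by
    rintro t (ht | ⟨t, ht, rfl⟩)
    · exact Or.inr ⟨t, ht, rfl⟩
    · exact Or.inl (by rwa [star_star])
  obtain ⟨c, M, hc, hM, hcoin⟩ := exists_approx_coin hs hsat hπ D hD hsep hinv v b hv hb hvfix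
    W B hB1 hBmono hBstep hwt hS'c hS's
  set κ : ℕ → ℝ := fun m => 1 / ((m : ℝ) + 2) with hκ
  have hκpos : ∀ m, 0 < κ m := fun m => by positivity
  have hκhalf : ∀ m, κ m ≤ 1 / 2 := fun m => one_div_le_one_div_of_le two_pos (by simp)
  choose u hu huS hug hup using fun m => hcoin (κ m) (hκpos m) (hκhalf m) m
  have hκ0 : Tendsto κ atTop (nhds 0) := by
    have h := (tendsto_one_div_add_atTop_nhds_zero_nat (𝕜 := ℝ)).comp (tendsto_add_atTop_nat 1)
    refine h.congr fun m => ?_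
    simp only [hκ, Function.comp_apply]
    push_cast
    ring
  -- almost invariance under the whole of `K`
  set good : Subgroup K :=
    { carrier := {g | ∀ ε : ℝ, 0 < ε → ∀ᶠ m in atTop, ∀ τ ∈ T,
        tn τ (α (g : G) (u m) - u m) ≤ ε}
      one_mem' := fun ε hε => Eventually.of_forall fun m τ hτ => by
        rw [Subgroup.coe_one, hs.act_one, sub_self]
        simp [tn]
        exact hε.le
      mul_mem' := fun {g h} hg hh ε hε => by
        filter_upwards [hg (ε / 2) (half_pos hε), hh (ε / 2) (half_pos hε)] with m h1 h2 τ hτ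
        rw [Subgroup.coe_mul, hs.act_mul,
          show α (g : G) (α (h : G) (u m)) - u m =
            α (g : G) (α (h : G) (u m) - u m) + (α (g : G) (u m) - u m) by rw [map_sub]; abel]
        have a1 := hs.tn_map_le (g : G) h2 hτ
        linarith [(hs.isTrace τ hτ).tn_add_le (α (g : G) (α (h : G) (u m) - u m))
          (α (g : G) (u m) - u m), h1 τ hτ]
      inv_mem' := fun {g} hg ε hε => by
        filter_upwards [hg ε hε] with m h1 τ hτ
        have h2 : ∀ σ ∈ T, tn σ (u m - α (g : G) (u m)) ≤ ε := fun σ hσ => by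
          rw [← (hs.isTrace σ hσ).tn_neg, neg_sub]; exact h1 σ hσ
        have h3 := hs.tn_map_le ((g : G)⁻¹) h2 hτ
        rwa [map_sub, ← hs.act_mul, inv_mul_cancel, hs.act_one, ← Subgroup.coe_inv] at h3 }
    with hgood
  have hsmall : ∀ g : K, π g = 1 ∨ π g ∈ W → g ∈ good := fun g hg ε hε => by
    have h := (hκ0.const_mul (100 * M))
    rw [mul_zero] at h
    filter_upwards [h.eventually_le_const hε] with m hm τ hτ
    exact (hug m g hg τ hτ).trans hm
  have hall : ∀ g : K, g ∈ good := fun g => by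
    have h1 : Subgroup.closure (W : Set Q) ≤ good.map π := (Subgroup.closure_le _).2 fun q hq => by
      obtain ⟨k, rfl⟩ := hπ q
      exact ⟨k, hsmall k (Or.inr hq), rfl⟩
    obtain ⟨k, hk, hkg⟩ := h1 (hW ▸ Subgroup.mem_top (π g))
    have h2 : k⁻¹ * g ∈ good := hsmall _ (Or.inl (by simp [hkg]))
    simpa using good.mul_mem hk h2
  obtain ⟨z, hz, hzS, hzg, hzt⟩ := hsat.diag_unitary K S' hS'c u hu huS
    (fun g hg ε hε => hall ⟨g, hg⟩ ε hε) (fun t ht p hp ε hε => by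
      have h : Tendsto (fun m => ‖t‖ *
          (2 * κ m ^ 2 / c + 2 * κ m ^ 4 * (M ^ 2 + 1) / c + κ m ^ 4)) atTop (nhds 0) := by
        have h1 := (((hκ0.pow 2).const_mul 2).div_const c).add
          ((((hκ0.pow 4).const_mul 2).mul_const (M ^ 2 + 1)).div_const c)
        simpa using (h1.add (hκ0.pow 4)).const_mul ‖t‖
      filter_upwards [h.eventually_le_const hε, eventually_ge_atTop p] with m hm hpm τ hτ
      exact (hup m t ht p hp (by omega) τ hτ).trans hm)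
  refine ⟨z, hz, fun t ht => hzS t (Or.inl ht), hzg, fun t ht p hp τ hτ =>
    ⟨hzt t (Or.inl ht) p hp τ hτ, ?_⟩⟩
  have h := hzt (star t) (Or.inr ⟨t, ht, rfl⟩) p hp τ hτ
  have e : τ (t * star z ^ p) = star (τ (star t * z ^ p)) := by
    rw [← (hs.isTrace τ hτ).map_star, star_mul, star_star, star_pow, (hs.isTrace τ hτ).comm]
  rw [e, h, star_zero]

end

end Vale.Agent.P095.Amenable
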