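import Vale.Agent.P095.Amenable.Shift

/-!
# Almost invariance of Gibbs averages

An automorphism moving site `q` to site `σ q`, up to congruence, turns the average over a ball into
the average for shifted weights, which is close to the original one.
-/

set_option linter.unusedSectionVars false

namespace Vale.Agent.P095.Amenable

noncomputable section

theorem isSelfAdjoint_psum {F Q : Type*} [CStarAlgebra F] {f : ℕ → Q → F} {l : ℕ} {q : Q}
    (h : ∀ i < l, IsSelfAdjoint (f i q)) : IsSelfAdjoint (psum f l q) :=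
  isSelfAdjoint_sum _ fun i hi => h i (Finset.mem_range.1 hi)

theorem avg_weight_congr {F Q : Type*} [CStarAlgebra F] {s : Finset Q} {w w' : Q → ℝ}
    (h : ∀ q ∈ s, w q = w' q) (ε : ℝ) (f : ℕ → Q → F) (l : ℕ) (x : Q → F) :
    avg s w ε f l x = avg s w' ε f l x := by
  have h1 : part s w ε f l = part s w' ε f l := Finset.sum_congr rfl fun q hq => by rw [h q hq]
  have h2 : mom s w ε f l x = mom s w' ε f l x := Finset.sum_congr rfl fun q hq => by rw [h q hq]
  rw [avg, avg, h1, h2]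

variable {G : Type} [Group G] {F : Type*} [CStarAlgebra F] {T : Set (F →ₗ[ℂ] ℂ)}
  {α : G → (F ≃⋆ₐ[ℂ] F)}

theorem avg_invariant (hs : Sys T α) {Q : Type*} [DecidableEq Q] (k : G) (σ : Q ≃ Q)
    {B B' : Finset Q} (hB : B ⊆ B') (hσ : ∀ q ∈ B, σ q ∈ B') {w : Q → ℝ} (hw : ∀ q, 0 ≤ w q)
    {q₀ : Q} (hq₀ : q₀ ∈ B) (h1 : 1 ≤ w q₀) {η δ : ℝ} (hη : 0 ≤ η) (hδ : 0 ≤ δ)
    (hdiff : ∀ q ∈ B', |(if σ.symm q ∈ B then w (σ.symm q) else 0) - (if q ∈ B then w q else 0)| ≤
      η * (if q ∈ B then w q else 0) + δ)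
    {ε : ℝ} {f : ℕ → Q → F} {l : ℕ} (hfs : ∀ i < l, ∀ q ∈ B', IsSelfAdjoint (f i q)) {b : ℝ}
    (hb : ∀ i < l, ∀ q ∈ B', ‖f i q‖ ≤ b) {x : Q → F} {M : ℝ} (hM : ∀ q ∈ B', ‖x q‖ ≤ M)
    (hf : ∀ i < l, ∀ q ∈ B, Cong T (α k (f i q)) (f i (σ q)))
    (hx : ∀ q ∈ B, Cong T (α k (x q)) (x (σ q))) {e : ℝ}
    (he : η + δ * B'.card * Real.exp (2 * |ε| * (l * b)) ≤ e) (he' : e ≤ 1 / 4) :
    ∀ τ ∈ T, tn τ (α k (avg B w ε f l x) - avg B w ε f l x) ≤ 50 * M * Real.sqrt e := by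
  intro τ hτ
  let : PartialOrder F := CStarAlgebra.spectralOrder F
  have : StarOrderedRing F := CStarAlgebra.spectralOrderedRing F
  set φ : F →⋆ₐ[ℂ] F := (α k : F →⋆ₐ[ℂ] F) with hφ
  have hφk : ∀ a, φ a = α k a := fun a => rfl
  set w₁ : Q → ℝ := fun q => if q ∈ B then w q else 0 with hw₁
  set w₂ : Q → ℝ := fun q => if σ.symm q ∈ B then w (σ.symm q) else 0 with hw₂
  have hp : ∀ q ∈ B, IsSelfAdjoint (psum f l q) := fun q hq =>
    isSelfAdjoint_psum fun i hi => hfs i hi q (hB hq)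
  have hpφ : ∀ q ∈ B, IsSelfAdjoint (psum (fun i g => φ (f i g)) l q) := fun q hq =>
    isSelfAdjoint_psum fun i hi => (hfs i hi q (hB hq)).map φ
  have hpσ : ∀ q ∈ B, IsSelfAdjoint (psum (fun i => f i ∘ σ) l q) := fun q hq =>
    isSelfAdjoint_psum fun i hi => hfs i hi (σ q) (hσ q hq)
  have h0 : avg B w ε f l x = avg B' w₁ ε f l x := by
    rw [avg_extend hB (fun q _ hq => if_neg hq) ε f l x]
    exact avg_weight_congr (fun q hq => (if_pos hq).symm) ε f l x
  have hmap : α k (avg B w ε f l x) = avg B w ε (fun i g => φ (f i g)) l (fun g => φ (x g)) :=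
    avg_map φ ε f l x hp (part_isStrictlyPositive (fun q _ => hw q) hq₀
      (zero_lt_one.trans_le h1) ε f l (hp q₀ hq₀))
  have hc : Cong T (α k (avg B w ε f l x)) (avg B w ε (fun i => f i ∘ σ) l (x ∘ σ)) := by
    rw [hmap]
    exact avg_cong hs.isTrace (fun q _ => hw q) hq₀ (zero_lt_one.trans_le h1) ε l hpφ hpσ hf hx
  have h2 : avg B w ε (fun i => f i ∘ σ) l (x ∘ σ) = avg B' w₂ ε f l x := by
    have hsub : B.image σ ⊆ B' := Finset.image_subset_iff.2 hσ
    have hzero : ∀ q ∈ B', q ∉ B.image σ → w₂ q = 0 := fun q _ hq => if_neg fun h =>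
      hq (Finset.mem_image.2 ⟨σ.symm q, h, σ.apply_symm_apply q⟩)
    rw [avg_extend hsub hzero ε f l x, avg_finset_image σ σ.injective.injOn w₂ ε f l x]
    exact avg_weight_congr (fun q hq => ((if_pos (by simpa using hq)).trans (by simp)).symm) ε _ l _
  have hshift : tn τ (avg B' w₂ ε f l x - avg B' w₁ ε f l x) ≤ 50 * M * Real.sqrt e := by
    refine avg_shift (hs.isTrace τ hτ) (fun q _ => ?_) (fun q _ => ?_) (hB hq₀)
      (le_of_le_of_eq h1 (if_pos hq₀).symm) hη hδ hdiff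
      (fun q hq => isSelfAdjoint_psum fun i hi => hfs i hi q hq) (fun q hq => ?_) hM he he'
    · show 0 ≤ if q ∈ B then w q else 0
      split_ifs <;> simp [hw]
    · show 0 ≤ if σ.symm q ∈ B then w (σ.symm q) else 0
      split_ifs <;> simp [hw]
    · refine (norm_sum_le _ _).trans ((Finset.sum_le_sum fun i hi =>
        hb i (Finset.mem_range.1 hi) q hq).trans_eq ?_)
      simp
  rw [show α k (avg B w ε f l x) - avg B w ε f l x =
    (α k (avg B w ε f l x) - avg B w ε (fun i => f i ∘ σ) l (x ∘ σ)) +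
      (avg B' w₂ ε f l x - avg B' w₁ ε f l x) by rw [← h2, ← h0]; abel]
  refine ((hs.isTrace τ hτ).tn_add_le _ _).trans ?_
  rw [hc τ hτ, zero_add]
  exact hshift

end

end Vale.Agent.P095.Amenable
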