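import Vale.Agent.P095.Amenable.Trace

/-!
# The completely positive map given by a column

For a column `a` with `∑ star (a i) * a i = 1`, the map `x ↦ ∑ star (a i) * x i * a i` on families
is contractive, satisfies the Schwarz inequality, and its failure to be multiplicative is
controlled, for a tracial state, by its failure to preserve `x * star x`.
-/

namespace Vale.Agent.P095.Amenable

variable {F : Type*} [CStarAlgebra F] {ι : Type*} [Fintype ι]

/-- The unital completely positive map given by a column. -/
def emap (a x : ι → F) : F := ∑ i, star (a i) * x i * a i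

section Column

variable [PartialOrder F] [StarOrderedRing F]

/-- Cauchy-Schwarz for columns. -/
theorem column_cauchy_schwarz (u v : ι → F) {s : ℝ} (hs : 0 < s)
    (hu : ∑ i, star (u i) * u i ≤ algebraMap ℝ F s) :
    star (∑ i, star (u i) * v i) * (∑ i, star (u i) * v i) ≤ s • ∑ i, star (v i) * v i := by
  set T := ∑ i, star (u i) * v i with hT
  have hT' : star T = ∑ i, star (v i) * u i := by simp [hT, star_sum]
  have h0 : 0 ≤ ∑ i, star (u i * T - s • v i) * (u i * T - s • v i) :=
    Finset.sum_nonneg fun i _ => star_mul_self_nonneg _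
  have e : ∑ i, star (u i * T - s • v i) * (u i * T - s • v i)
      = star T * (∑ i, star (u i) * u i) * T - s • (star T * T) - s • (star T * T)
        + (s * s) • ∑ i, star (v i) * v i := by
    have hi : ∀ i, star (u i * T - s • v i) * (u i * T - s • v i)
        = star T * (star (u i) * u i) * T - s • (star T * (star (u i) * v i))
          - s • (star (v i) * u i * T) + (s * s) • (star (v i) * v i) := fun i => by
      simp only [star_sub, star_mul, star_smul, star_trivial, sub_mul, mul_sub, smul_mul_assoc,
        mul_smul_comm, smul_smul, smul_sub, mul_assoc]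
      abel
    simp only [hi, Finset.sum_add_distrib, Finset.sum_sub_distrib, ← Finset.smul_sum,
      ← Finset.sum_mul, ← Finset.mul_sum]
    rw [← hT', ← hT]
  have h1 : star T * (∑ i, star (u i) * u i) * T ≤ s • (star T * T) :=
    (star_left_conjugate_le_conjugate hu T).trans_eq
      (by simp [Algebra.algebraMap_eq_smul_one])
  have h2 : s • (star T * T) ≤ s • (s • ∑ i, star (v i) * v i) := by
    rw [smul_smul, ← sub_nonneg]
    refine (h0.trans_eq e).trans (le_of_eq_of_le rfl ?_)
    calc _ ≤ s • (star T * T) - s • (star T * T) - s • (star T * T)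
          + (s * s) • ∑ i, star (v i) * v i := by gcongr
      _ = _ := by abel
  have h3 := smul_le_smul_of_nonneg_left h2 (inv_nonneg.2 hs.le)
  rwa [smul_smul, smul_smul, inv_mul_cancel₀ hs.ne', one_smul, one_smul] at h3

theorem column_bound {a x : ι → F} (ha : ∑ i, star (a i) * a i = 1) {M : ℝ}
    (hx : ∀ i, ‖x i‖ ≤ M) :
    ∑ i, star (x i * a i) * (x i * a i) ≤ algebraMap ℝ F (M ^ 2) := by
  have h : ∀ i, star (x i) * x i ≤ algebraMap ℝ F (M ^ 2) := fun i => by
    refine (IsSelfAdjoint.star_mul_self _).le_algebraMap_norm_self.trans (algebraMap_mono F ?_)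
    rw [CStarRing.norm_star_mul_self, ← sq]
    gcongr
    exact hx i
  calc ∑ i, star (x i * a i) * (x i * a i) = ∑ i, star (a i) * (star (x i) * x i) * a i := by
        simp [star_mul, mul_assoc]
    _ ≤ ∑ i, star (a i) * algebraMap ℝ F (M ^ 2) * a i :=
        Finset.sum_le_sum fun i _ => star_left_conjugate_le_conjugate (h i) _
    _ = _ := by
        simp [Algebra.algebraMap_eq_smul_one, ← Finset.smul_sum, ha]

end Column

variable {a : ι → F} (ha : ∑ i, star (a i) * a i = 1)
include ha

theorem emap_schwarz [PartialOrder F] [StarOrderedRing F] (x : ι → F) :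
    star (emap a x) * emap a x ≤ emap a (fun i => star (x i) * x i) := by
  have h := column_cauchy_schwarz a (fun i => x i * a i) one_pos (by simp [ha])
  simpa [emap, mul_assoc] using h

theorem emap_norm_le (x : ι → F) {M : ℝ} (hM : 0 ≤ M) (hx : ∀ i, ‖x i‖ ≤ M) :
    ‖emap a x‖ ≤ M := by
  let : PartialOrder F := CStarAlgebra.spectralOrder F
  have : StarOrderedRing F := CStarAlgebra.spectralOrderedRing F
  have h1 := column_cauchy_schwarz a (fun i => x i * a i) one_pos (by simp [ha])
  rw [one_smul] at h1
  have h2 : ‖star (emap a x) * emap a x‖ ≤ M ^ 2 := by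
    rw [CStarAlgebra.norm_le_iff_le_algebraMap _ (sq_nonneg M) (star_mul_self_nonneg _)]
    refine le_trans ?_ (h1.trans (column_bound ha hx))
    simp [emap, mul_assoc]
  rw [CStarRing.norm_star_mul_self, ← sq] at h2
  exact le_of_pow_le_pow_left₀ two_ne_zero hM h2

theorem emap_mult_defect {τ : F →ₗ[ℂ] ℂ} (hτ : IsTrace τ) (x y : ι → F) {M : ℝ} (hM : 0 ≤ M)
    (hy : ∀ i, ‖y i‖ ≤ M) :
    tn τ (emap a (fun i => x i * y i) - emap a x * emap a y) ≤ M * Real.sqrt
      (τ (emap a (fun i => x i * star (x i)) - emap a x * star (emap a x))).re := by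
  let : PartialOrder F := CStarAlgebra.spectralOrder F
  have : StarOrderedRing F := CStarAlgebra.spectralOrderedRing F
  rcases hM.eq_or_lt with rfl | hM'
  · have hy0 : ∀ i, y i = 0 := fun i => norm_le_zero_iff.1 (hy i)
    simp [emap, hy0, tn]
  set E := emap a x with hE
  set Z : ι → F := fun i => star (x i) * a i - a i * star E with hZ
  set T := ∑ i, star (Z i) * (y i * a i) with hT
  have eT : emap a (fun i => x i * y i) - E * emap a y = T := by
    simp [hT, hZ, emap, sub_mul, Finset.sum_sub_distrib, Finset.mul_sum, mul_assoc]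
  have hE' : star E = ∑ i, star (a i) * star (x i) * a i := by
    simp [hE, emap, star_sum, mul_assoc]
  have eV : emap a (fun i => x i * star (x i)) - E * star E = ∑ i, star (Z i) * Z i := by
    have : ∑ i, star (Z i) * Z i = emap a (fun i => x i * star (x i)) - E * star E
        - E * (∑ i, star (a i) * star (x i) * a i)
        + E * (∑ i, star (a i) * a i) * star E := by
      simp only [hZ, hE, emap, star_sub, star_mul, star_star, sub_mul, mul_sub,
        Finset.sum_sub_distrib, Finset.mul_sum, Finset.sum_mul, mul_assoc]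
      abel
    rw [this, ← hE', ha, mul_one]
    abel
  rw [eT, eV]
  have hcs := column_cauchy_schwarz (fun i => y i * a i) Z (sq_pos_of_pos hM')
    (column_bound ha hy)
  have hTs : ∑ i, star (y i * a i) * Z i = star T := by simp [hT, star_sum]
  rw [hTs, star_star] at hcs
  have h := hτ.mono hcs
  rw [hτ.comm T, ← Complex.coe_smul, map_smul, smul_eq_mul, Complex.re_ofReal_mul] at h
  calc tn τ T ≤ Real.sqrt (M ^ 2 * (τ (∑ i, star (Z i) * Z i)).re) := Real.sqrt_le_sqrt h
    _ = _ := by rw [Real.sqrt_mul (sq_nonneg M), Real.sqrt_sq hM]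

end Vale.Agent.P095.Amenable
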