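import Vale.Agent.P095.Amenable.CoreBasic
import Vale.Agent.P095.Amenable.Fam

/-!
# Gibbs averages as column maps, and mixtures over steps

A Gibbs average is the column map of an explicit column. A mixture `∑ r j * E j * r j` of Gibbs
averages is again a column map, and its defect on squares is the weighted sum of the defects of
the averages up to the overlaps of the weights.
-/

open scoped ComplexOrder

namespace Vale.Agent.P095.Amenable

noncomputable section

variable {F : Type*} [CStarAlgebra F]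

/-- The mixture of `E` with weights `r`. -/
def mix {κ : Type*} [Fintype κ] (r E : κ → F) : F := ∑ j, r j * E j * r j

/-- The column of a Gibbs average. -/
def avgCol {ι : Type*} (s : Finset ι) (w : ι → ℝ) (ε : ℝ) (f : ℕ → ι → F) (l : ℕ) (g : s) : F :=
  Real.sqrt (w g) • (ex (ε / 2) (psum f l g) * isq (part s w ε f l))

section Avg

variable {ι : Type*} {s : Finset ι} {w : ι → ℝ} {ε : ℝ} {f : ℕ → ι → F} {l : ℕ}

theorem emap_avgCol (hw : ∀ g ∈ s, 0 ≤ w g) (x : ι → F) :
    emap (avgCol s w ε f l) (fun g : s => x g) = avg s w ε f l x := by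
  rw [avg, mom, ← Finset.sum_coe_sort s, Finset.mul_sum, Finset.sum_mul]
  refine Finset.sum_congr rfl fun g _ => ?_
  simp only [avgCol, star_smul, star_trivial, star_mul, (ex_selfAdjoint _ _).star_eq,
    (isq_selfAdjoint _).star_eq, smul_mul_assoc, mul_smul_comm, smul_smul,
    Real.mul_self_sqrt (hw g g.2), mul_assoc]

variable [PartialOrder F] [StarOrderedRing F]
variable (hw : ∀ g ∈ s, 0 ≤ w g) (hf : ∀ g ∈ s, IsSelfAdjoint (psum f l g))
  (hS : IsStrictlyPositive (part s w ε f l))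
include hw hf hS

theorem avgCol_sum : ∑ g, star (avgCol s w ε f l g) * avgCol s w ε f l g = 1 := by
  have h := emap_avgCol (ε := ε) (f := f) (l := l) hw fun _ => (1 : F)
  rw [avg_one ε f l hf hS] at h
  simpa [emap] using h

/-- A Gibbs average is a column map. -/
theorem avg_eq_emap : ∃ a : s → F, ∑ g, star (a g) * a g = 1 ∧
    ∀ x : ι → F, avg s w ε f l x = emap a fun g => x g :=
  ⟨avgCol s w ε f l, avgCol_sum hw hf hS, fun x => (emap_avgCol hw x).symm⟩

theorem norm_avg_le {x : ι → F} {M : ℝ} (hM : 0 ≤ M) (hx : ∀ g ∈ s, ‖x g‖ ≤ M) :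
    ‖avg s w ε f l x‖ ≤ M := by
  rw [← emap_avgCol hw x]
  exact emap_norm_le (avgCol_sum hw hf hS) _ hM fun g => hx g g.2

theorem avg_mult_defect {τ : F →ₗ[ℂ] ℂ} (hτ : IsTrace τ) (x y : ι → F) {M : ℝ} (hM : 0 ≤ M)
    (hy : ∀ g ∈ s, ‖y g‖ ≤ M) :
    tn τ (avg s w ε f l (fun g => x g * y g) - avg s w ε f l x * avg s w ε f l y) ≤
      M * Real.sqrt (τ (avg s w ε f l (fun g => x g * star (x g))
        - avg s w ε f l x * star (avg s w ε f l x))).re := by
  simp only [← emap_avgCol hw]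
  exact emap_mult_defect (avgCol_sum hw hf hS) hτ _ _ hM fun g => hy g g.2

end Avg

section General

variable {κ : Type*} [Fintype κ] {r : κ → F} {τ : F →ₗ[ℂ] ℂ}

/-- Squares of a mixture against the mixture of squares. -/
theorem mix_sq_defect_le [DecidableEq κ] (hτ : IsTrace τ) (hr : ∀ j, IsSelfAdjoint (r j))
    (hr1 : ∑ j, r j * r j = 1) (A B : κ → F) {M : ℝ} (hA : ∀ j, ‖A j‖ ≤ M)
    (hrr : ∀ i j, Commute (r i) (r j)) (hrA : ∀ i j, Commute (r j) (A i)) :
    (τ (mix r B) - τ (mix r A * mix r A)).re ≤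
      ∑ j, (τ (r j * r j * (B j - A j * A j))).re
        + 2 * M ^ 2 * ∑ j, ∑ i with i ≠ j, (τ (r j * r j * (r i * r i))).re := by
  have hB : τ (mix r B) = ∑ j, τ (r j * r j * B j) := by
    rw [mix, map_sum]
    exact Finset.sum_congr rfl fun j _ => by rw [hτ.comm (r j * B j), mul_assoc]
  have hterm : ∀ i j, τ (r i * A i * r i * (r j * A j * r j)) =
      τ (r i * r i * (r j * r j) * (A i * A j)) := fun i j => by
    have e1 : r i * A i * r i = A i * (r i * r i) := by rw [(hrA i i).eq, mul_assoc]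
    have e2 : r j * A j * r j = A j * (r j * r j) := by rw [(hrA j j).eq, mul_assoc]
    rw [e1, e2, mul_assoc (A i), ← mul_assoc (r i * r i) (A j),
      ((hrA j i).mul_left (hrA j i)).eq, mul_assoc, ← mul_assoc (A i), hτ.comm]
  have hA2 : τ (mix r A * mix r A) = ∑ j, ∑ i, τ (r j * r j * (r i * r i) * (A j * A i)) := by
    simp only [mix, Finset.sum_mul, Finset.mul_sum, map_sum, hterm]
    rw [Finset.sum_comm]
  have hsplit : ∀ j, τ (r j * r j * B j) =
      τ (r j * r j * (B j - A j * A j)) + ∑ i, τ (r j * r j * (r i * r i) * (A j * A j)) :=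
    fun j => by
      rw [← map_sum, ← map_add, ← Finset.sum_mul, ← Finset.mul_sum, hr1, mul_one]
      congr 1
      rw [mul_sub, sub_add_cancel]
  have e : τ (mix r B) - τ (mix r A * mix r A) = ∑ j, τ (r j * r j * (B j - A j * A j))
      + ∑ j, ∑ i with i ≠ j, τ (r j * r j * (r i * r i) * (A j * A j - A j * A i)) := by
    rw [hB, hA2, Finset.sum_congr rfl fun j _ => hsplit j, Finset.sum_add_distrib, add_sub_assoc,
      ← Finset.sum_sub_distrib]
    congr 1
    refine Finset.sum_congr rfl fun j _ => ?_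
    rw [← Finset.sum_sub_distrib, Finset.sum_filter]
    refine Finset.sum_congr rfl fun i _ => ?_
    by_cases h : i = j
    · simp [h]
    · simp [h, mul_sub]
  rw [e, Complex.add_re, Complex.re_sum, Complex.re_sum, Finset.mul_sum]
  simp only [Complex.re_sum, Finset.mul_sum]
  gcongr with j _ i _
  set q := r i * r j with hq
  have hP : r j * r j * (r i * r i) = star q * q := by
    rw [hq, star_mul, (hr i).star_eq, (hr j).star_eq, mul_assoc, mul_assoc, ← mul_assoc (r i),
      ((hrr j i).mul_right (hrr j i)).eq]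
  rw [hP, mul_assoc]
  have hX : ‖A j * A j - A j * A i‖ ≤ 2 * M ^ 2 := by
    refine (norm_sub_le _ _).trans ?_
    have hM : 0 ≤ M := (norm_nonneg _).trans (hA j)
    have h1 := (norm_mul_le (A j) (A j)).trans (mul_le_mul (hA j) (hA j) (norm_nonneg _) hM)
    have h2 := (norm_mul_le (A j) (A i)).trans (mul_le_mul (hA j) (hA i) (norm_nonneg _) hM)
    linarith
  calc (τ (star q * (q * (A j * A j - A j * A i)))).re
      ≤ tn τ q * tn τ (q * (A j * A j - A j * A i)) := hτ.re_le _ _
    _ ≤ tn τ q * (tn τ q * ‖A j * A j - A j * A i‖) :=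
        mul_le_mul_of_nonneg_left (hτ.tn_mul_le_right _ _) (hτ.tn_nonneg _)
    _ ≤ tn τ q * (tn τ q * (2 * M ^ 2)) := by
        gcongr <;> exact hτ.tn_nonneg _
    _ = 2 * M ^ 2 * (τ (star q * q)).re := by rw [← hτ.tn_sq]; ring

/-- The seminorm of a mixture is dominated by the weighted seminorms. -/
theorem mix_tn_le (hτ : IsTrace τ) (hr : ∀ j, IsSelfAdjoint (r j)) (hr1 : ∑ j, r j * r j = 1)
    (D : κ → F) (hrD : ∀ j, Commute (r j) (D j)) :
    tn τ (mix r D) ^ 2 ≤ ∑ j, (τ (r j * r j * (star (D j) * D j))).re := by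
  let : PartialOrder F := CStarAlgebra.spectralOrder F
  have : StarOrderedRing F := CStarAlgebra.spectralOrderedRing F
  have hu : ∑ j, star (r j) * r j ≤ algebraMap ℝ F 1 := by
    simp [fun j => (hr j).star_eq, hr1]
  have h := hτ.mono (column_cauchy_schwarz r (fun j => r j * D j) one_pos hu)
  rw [one_smul, map_sum, Complex.re_sum] at h
  have e : mix r D = ∑ j, star (r j) * (r j * D j) :=
    Finset.sum_congr rfl fun j _ => by rw [(hr j).star_eq, mul_assoc, ← (hrD j).eq]
  rw [hτ.tn_sq, e]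
  refine le_of_le_of_eq h (Finset.sum_congr rfl fun j _ => ?_)
  · rw [(hrD j).eq, star_mul, (hr j).star_eq, ← mul_assoc, hτ.comm _ (r j), mul_assoc (r j) (star _),
      ← mul_assoc, ← mul_assoc]

end General

section Mixture

variable {ι : Type*} {s : Finset ι} {w : ι → ℝ} {ε : ℝ} {f : ℕ → ι → F}
  {κ : Type*} [Fintype κ] {r : κ → F} {L : κ → ℕ}

/-- The column of a mixture of Gibbs averages. -/
def mixCol (s : Finset ι) (w : ι → ℝ) (ε : ℝ) (f : ℕ → ι → F) (r : κ → F) (L : κ → ℕ)
    (p : κ × s) : F := avgCol s w ε f (L p.1) p.2 * r p.1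

theorem emap_mixCol (hw : ∀ g ∈ s, 0 ≤ w g) (hr : ∀ j, IsSelfAdjoint (r j))
    (x : κ → ι → F) :
    emap (mixCol s w ε f r L) (fun p => x p.1 p.2) =
      mix r fun j => avg s w ε f (L j) (x j) := by
  simp only [mix, ← emap_avgCol hw, emap, mixCol]
  rw [Fintype.sum_prod_type]
  refine Finset.sum_congr rfl fun j _ => ?_
  simp only [Finset.mul_sum, Finset.sum_mul, star_mul, (hr j).star_eq, mul_assoc]

variable [PartialOrder F] [StarOrderedRing F]
variable (hw : ∀ g ∈ s, 0 ≤ w g) (hf : ∀ j, ∀ g ∈ s, IsSelfAdjoint (psum f (L j) g))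
  (hS : ∀ j, IsStrictlyPositive (part s w ε f (L j))) (hr : ∀ j, IsSelfAdjoint (r j))
  (hr1 : ∑ j, r j * r j = 1)
include hw hf hS hr hr1

theorem mixCol_sum : ∑ p, star (mixCol s w ε f r L p) * mixCol s w ε f r L p = 1 := by
  have h := emap_mixCol (ε := ε) (f := f) (L := L) hw hr fun _ _ => (1 : F)
  simp only [avg_one ε f _ (hf _) (hS _), mix, mul_one, hr1] at h
  simpa [emap] using h

/-- A mixture of Gibbs averages is a column map. -/
theorem mix_eq_emap : ∃ a : κ × s → F, ∑ p, star (a p) * a p = 1 ∧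
    ∀ x : κ → ι → F, mix r (fun j => avg s w ε f (L j) (x j)) = emap a fun p => x p.1 p.2 :=
  ⟨mixCol s w ε f r L, mixCol_sum hw hf hS hr hr1, fun x => (emap_mixCol hw hr x).symm⟩

theorem mix_norm_le {x : κ → ι → F} {M : ℝ} (hM : 0 ≤ M) (hx : ∀ j, ∀ g ∈ s, ‖x j g‖ ≤ M) :
    ‖mix r fun j => avg s w ε f (L j) (x j)‖ ≤ M := by
  rw [← emap_mixCol hw hr x]
  exact emap_norm_le (mixCol_sum hw hf hS hr hr1) _ hM fun p => hx p.1 p.2 p.2.2

theorem mix_mult_defect {τ : F →ₗ[ℂ] ℂ} (hτ : IsTrace τ) (x y : κ → ι → F) {M : ℝ} (hM : 0 ≤ M)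
    (hy : ∀ j, ∀ g ∈ s, ‖y j g‖ ≤ M) :
    tn τ (mix r (fun j => avg s w ε f (L j) fun g => x j g * y j g)
        - mix r (fun j => avg s w ε f (L j) (x j)) * mix r (fun j => avg s w ε f (L j) (y j))) ≤
      M * Real.sqrt (τ (mix r (fun j => avg s w ε f (L j) fun g => x j g * star (x j g))
        - mix r (fun j => avg s w ε f (L j) (x j))
          * star (mix r fun j => avg s w ε f (L j) (x j)))).re := by
  simp only [← emap_mixCol hw hr]
  exact emap_mult_defect (mixCol_sum hw hf hS hr hr1) hτ _ _ hM fun p => hy p.1 p.2 p.2.2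

theorem mix_defect_le [DecidableEq κ] {τ : F →ₗ[ℂ] ℂ} (hτ : IsTrace τ) (x : κ → ι → F) {M : ℝ}
    (hM : 0 ≤ M) (hx : ∀ j, ∀ g ∈ s, ‖x j g‖ ≤ M) (hrr : ∀ i j, Commute (r i) (r j))
    (hrA : ∀ i j, Commute (r j) (avg s w ε f (L i) (x i))) :
    (τ (mix r fun j => avg s w ε f (L j) fun g => x j g * x j g)
        - τ (mix r (fun j => avg s w ε f (L j) (x j))
          * mix r fun j => avg s w ε f (L j) (x j))).re ≤
      ∑ j, (τ (r j * r j * (avg s w ε f (L j) (fun g => x j g * x j g)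
          - avg s w ε f (L j) (x j) * avg s w ε f (L j) (x j)))).re
        + 2 * M ^ 2 * ∑ j, ∑ i with i ≠ j, (τ (r j * r j * (r i * r i))).re :=
  mix_sq_defect_le hτ hr hr1 _ _ (fun j => norm_avg_le hw (hf j) (hS j) hM (hx j)) hrr hrA

end Mixture

end

end Vale.Agent.P095.Amenable
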