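import Vale.Agent.P095.Amenable.Layer

/-!
# The orbit sites of an element in a copy
-/

set_option linter.unusedSectionVars false

namespace Vale.Agent.P095.Amenable

noncomputable section

variable {G : Type} [Group G] {F : Type*} [CStarAlgebra F] {T : Set (F →ₗ[ℂ] ℂ)}
  {α : G → (F ≃⋆ₐ[ℂ] F)} {K : Subgroup G} {Q : Type} [Group Q] (π : K →* Q)
  (hπ : Function.Surjective π)

/-- A representative in `K` of an element of the quotient. -/
def sect (q : Q) : G := ((hπ q).choose : K)

theorem sect_mem (q : Q) : sect π hπ q ∈ K := (hπ q).choose.2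

theorem map_sect (q : Q) : π ⟨sect π hπ q, sect_mem π hπ q⟩ = q := (hπ q).choose_spec

variable (α)
variable {D : StarSubalgebra ℂ F} (hinv : ∀ g, ∀ d ∈ D, α g d ∈ D) (θ : D →⋆ₐ[ℂ] F)

/-- The translate at `q` of the copy of `d`. -/
def site (d : D) (q : Q) : F :=
  θ ⟨α (sect π hπ q) (d : F), hinv _ _ d.2⟩

theorem site_mul (d e : D) (q : Q) :
    site α π hπ hinv θ (d * e) q = site α π hπ hinv θ d q * site α π hπ hinv θ e q := by
  unfold site
  rw [← map_mul]
  congr 1
  exact Subtype.ext (map_mul _ _ _)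

theorem site_add (d e : D) (q : Q) :
    site α π hπ hinv θ (d + e) q = site α π hπ hinv θ d q + site α π hπ hinv θ e q := by
  unfold site
  rw [← map_add]
  congr 1
  exact Subtype.ext (map_add _ _ _)

theorem site_sub (d e : D) (q : Q) :
    site α π hπ hinv θ (d - e) q = site α π hπ hinv θ d q - site α π hπ hinv θ e q := by
  unfold site
  rw [← map_sub]
  congr 1
  exact Subtype.ext (map_sub _ _ _)

theorem site_smul (c : ℂ) (d : D) (q : Q) :
    site α π hπ hinv θ (c • d) q = c • site α π hπ hinv θ d q := by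
  unfold site
  rw [← map_smul]
  congr 1
  exact Subtype.ext (map_smul _ _ _)

theorem site_one (q : Q) : site α π hπ hinv θ 1 q = 1 := by
  unfold site
  rw [← map_one θ]
  congr 1
  exact Subtype.ext (map_one _)

theorem site_star (d : D) (q : Q) :
    site α π hπ hinv θ (star d) q = star (site α π hπ hinv θ d q) := by
  unfold site
  rw [← map_star]
  congr 1
  exact Subtype.ext (map_star _ _)

theorem norm_site_le (hD : IsClosed (D : Set F)) (d : D) (q : Q) :
    ‖site α π hπ hinv θ d q‖ ≤ ‖(d : F)‖ := by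
  let := Vale.Agent.P101.subCStar D hD
  refine (NonUnitalStarAlgHom.norm_apply_le θ _).trans ?_
  exact NonUnitalStarAlgHom.norm_apply_le (α (sect π hπ q) : F →⋆ₐ[ℂ] F) (d : F)

theorem cong_site_zero (hs : Sys T α) (hnull : ∀ d : D, Cong T (d : F) 0 → Cong T (θ d) 0)
    {d : D} (hd : Cong T (d : F) 0) (q : Q) : Cong T (site α π hπ hinv θ d q) 0 := by
  refine hnull _ ?_
  show Cong T (α (sect π hπ q) (d : F)) 0
  rw [← map_zero (α (sect π hπ q))]
  exact hs.cong_map _ hd

/-- The quotient translates the sites of an element fixed by the kernel. -/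
theorem map_site (hs : Sys T α) (hnull : ∀ d : D, Cong T (d : F) 0 → Cong T (θ d) 0)
    (heq : ∀ g (d : D) (h : α g (d : F) ∈ D), α g (θ d) = θ ⟨α g (d : F), h⟩)
    {d : D} (hd : FixedBy T α (π.ker.map K.subtype) (d : F)) (k : K) (q : Q) :
    Cong T (α (k : G) (site α π hπ hinv θ d q)) (site α π hπ hinv θ d (π k * q)) := by
  set r := sect π hπ (π k * q)
  set n : G := r⁻¹ * ((k : G) * sect π hπ q) with hn
  have hnmem : n ∈ π.ker.map K.subtype := by
    refine ⟨⟨r, sect_mem π hπ _⟩⁻¹ * (k * ⟨sect π hπ q, sect_mem π hπ q⟩), ?_, rfl⟩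
    simp only [SetLike.mem_coe, MonoidHom.mem_ker, map_mul, map_inv, map_sect, inv_mul_cancel, r]
  have e : α (k : G) (site α π hπ hinv θ d q) = θ ⟨α r (α n (d : F)), hinv _ _ (hinv _ _ d.2)⟩ := by
    unfold site
    rw [heq (k : G) _ (hinv _ _ (hinv _ _ d.2))]
    congr 1
    apply Subtype.ext
    show α (k : G) (α (sect π hπ q) (d : F)) = α r (α n (d : F))
    rw [← hs.act_mul, ← hs.act_mul, hn, mul_inv_cancel_left]
  have hdiff : Cong T (((⟨α r (α n (d : F)), hinv _ _ (hinv _ _ d.2)⟩ : D) -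
      ⟨α r (d : F), hinv _ _ d.2⟩ : D) : F) 0 := fun τ hτ => by
    show tn τ (α r (α n (d : F)) - α r (d : F) - 0) = 0
    rw [sub_zero]
    exact hs.cong_map r (hd n hnmem) τ hτ
  rw [e]
  intro τ hτ
  show tn τ (θ _ - θ _) = 0
  rw [← map_sub]
  simpa using hnull _ hdiff τ hτ

end

end Vale.Agent.P095.Amenable
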