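import Vale.Agent.P095.Amenable.Core
import Vale.Agent.P095.Amenable.Mult
import Vale.Agent.P095.Amenable.AvgAlg
import Vale.Agent.P095.Amenable.Sites
import Vale.Agent.P095.Amenable.Invariance

/-!
# One block of the coin: normalised sums of centred averages

A block is the sum of the Gibbs averages of its steps, divided by the square root of their number.
It is centred against the algebra before the block, its second moment is bounded below by that of
the steps up to the entropy defect, and a shift of the sites moves it little, the increments being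
orthogonal.
-/

set_option linter.unusedSectionVars false

open scoped ComplexOrder
open Vale.Agent.P101 (genAlg isClosed_genAlg subset_genAlg genAlg_le)

namespace Vale.Agent.P095.Amenable

noncomputable section

variable {F : Type*} [CStarAlgebra F] {τ : F →ₗ[ℂ] ℂ}

/-- An inner product of sums of mutually orthogonal families. -/
theorem trace_sum_mul_sum_orth {κ : Type*} (s : Finset κ) (X : F) (A B : κ → F)
    (h : ∀ i ∈ s, ∀ j ∈ s, i ≠ j → τ (X * (A i * B j)) = 0) :
    τ (X * ((∑ i ∈ s, A i) * ∑ j ∈ s, B j)) = ∑ i ∈ s, τ (X * (A i * B i)) := by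
  rw [Finset.sum_mul_sum, Finset.mul_sum, map_sum]
  refine Finset.sum_congr rfl fun i hi => ?_
  rw [Finset.mul_sum, map_sum]
  exact Finset.sum_eq_single i (fun j hj hji => h i hi j hj hji.symm) fun h' => absurd hi h'

/-- The square of the two-seminorm of a sum of orthogonal self-adjoint elements. -/
theorem tn_sum_sq_orth {κ : Type*} (hτ : IsTrace τ) (s : Finset κ) (d : κ → F)
    (hd : ∀ i ∈ s, IsSelfAdjoint (d i))
    (h : ∀ i ∈ s, ∀ j ∈ s, i ≠ j → τ (d i * d j) = 0) :
    tn τ (∑ i ∈ s, d i) ^ 2 = ∑ i ∈ s, tn τ (d i) ^ 2 := by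
  rw [hτ.tn_sq, (isSelfAdjoint_sum s hd).star_eq]
  have := trace_sum_mul_sum_orth s 1 d d fun i hi j hj hij => by
    rw [one_mul]; exact h i hi j hj hij
  simp only [one_mul] at this
  rw [this, Complex.re_sum]
  exact Finset.sum_congr rfl fun i hi => by rw [hτ.tn_sq, (hd i hi).star_eq]

variable [PartialOrder F] [StarOrderedRing F]

section Single

variable {ι : Type*} {s : Finset ι} {w : ι → ℝ} {ε : ℝ} {f : ℕ → ι → F}
  {C : ℕ → StarSubalgebra ℂ F} {b : ℝ} {k : ℕ}

/-- An average against `X` is a combination of the sites against positive elements of the past. -/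
theorem trace_mul_avg_expand (hτ : IsTrace τ) (l : ℕ) (x : ι → F) (X : F) :
    τ (X * avg s w ε f l x) = ∑ g ∈ s, (w g : ℂ) *
      τ (ex (ε / 2) (psum f l g) * (isq (part s w ε f l) * X * isq (part s w ε f l)) *
        ex (ε / 2) (psum f l g) * x g) := by
  set q := isq (part s w ε f l) with hq
  rw [avg, ← hq, mom, Finset.mul_sum, Finset.sum_mul, Finset.mul_sum, map_sum]
  refine Finset.sum_congr rfl fun g _ => ?_
  rw [← Complex.coe_smul, mul_smul_comm, smul_mul_assoc, mul_smul_comm, map_smul, smul_eq_mul]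
  congr 1
  rw [show X * (q * (ex (ε / 2) (psum f l g) * x g * ex (ε / 2) (psum f l g)) * q)
      = (X * q * ex (ε / 2) (psum f l g) * x g) * (ex (ε / 2) (psum f l g) * q) by
    simp only [mul_assoc], hτ.comm]
  congr 1
  simp only [mul_assoc]

/-- A lower bound of the second moment of the sites passes to their average. -/
theorem avg_sq_lower (h : Steps τ s f C b k) (hτ : IsTrace τ) (hw : ∀ g ∈ s, 0 ≤ w g) {g₀ : ι}
    (hg₀ : g₀ ∈ s) (hpos : 0 < w g₀) {c : ℝ} {l : ℕ} (hl : l < k)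
    (hlow : ∀ Y ∈ C l, 0 ≤ Y → ∀ g ∈ s, c * (τ Y).re ≤ (τ (Y * (f l g * f l g))).re)
    {X : F} (hX : X ∈ C l) (hX0 : 0 ≤ X) :
    c * (τ X).re ≤ (τ (X * avg s w ε f l fun g => f l g * f l g)).re := by
  have hsa : ∀ g ∈ s, IsSelfAdjoint (psum f l g) := fun g hg => h.psum_selfAdjoint hl.le hg
  have hS := part_isStrictlyPositive hw hg₀ hpos ε f l (hsa _ hg₀)
  set q := isq (part s w ε f l)
  have hqm : q ∈ C l := isq_mem (h.closed l) (h.part_mem hl.le w ε)
  have h1 := trace_mul_avg_expand (s := s) (w := w) (ε := ε) (f := f) hτ l (fun _ => (1 : F)) X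
  rw [avg_one ε f l hsa hS] at h1
  simp only [mul_one] at h1
  rw [h1, trace_mul_avg_expand hτ l _ X, Complex.re_sum, Complex.re_sum, Finset.mul_sum]
  refine Finset.sum_le_sum fun g hg => ?_
  rw [Complex.re_ofReal_mul, Complex.re_ofReal_mul, mul_left_comm]
  have he : ex (ε / 2) (psum f l g) ∈ C l := ex_mem (h.closed l) _ (h.psum_mem hl.le hg)
  refine mul_le_mul_of_nonneg_left (hlow _ (mul_mem (mul_mem he (mul_mem (mul_mem hqm hX) hqm)) he)
    ?_ g hg) (hw g hg)
  exact (ex_selfAdjoint _ _).conjugate_nonneg ((isq_selfAdjoint _).conjugate_nonneg hX0)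

/-- The average of the increments. -/
def stepAvg (s : Finset ι) (w : ι → ℝ) (ε : ℝ) (f : ℕ → ι → F) (l : ℕ) : F :=
  avg s w ε f l (f l)

/-- The normalised sum over the steps of a block. -/
def blockSum (s : Finset ι) (w : ι → ℝ) (ε : ℝ) (f : ℕ → ι → F) (k : ℕ) : F :=
  (Real.sqrt k)⁻¹ • ∑ l ∈ Finset.range k, stepAvg s w ε f l

variable (h : Steps τ s f C b k) (hw : ∀ g ∈ s, 0 ≤ w g) {g₀ : ι} (hg₀ : g₀ ∈ s)
  (hpos : 0 < w g₀)
include h

theorem stepAvg_selfAdjoint {l : ℕ} (hl : l < k) : IsSelfAdjoint (stepAvg s w ε f l) := by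
  rw [stepAvg, isSelfAdjoint_iff, star_avg]
  exact avg_congr s w ε f l fun g hg => (h.selfAdjoint l hl g hg).star_eq

theorem stepAvg_mem {l : ℕ} (hl : l < k) : stepAvg s w ε f l ∈ C (l + 1) :=
  h.avg_mem hl w ε fun g hg => h.mem l hl g hg

theorem stepAvg_centred (hτ : IsTrace τ) {l : ℕ} (hl : l < k) {X : F} (hX : X ∈ C l) :
    τ (X * stepAvg s w ε f l) = 0 :=
  h.trace_mul_avg hτ hl.le w ε (fun Y hY g hg => h.centred l hl Y hY g hg) hX

/-- Two different steps are orthogonal against the start of the block. -/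
theorem stepAvg_orth (hτ : IsTrace τ) {i j : ℕ} (hi : i < k) (hj : j < k) (hij : i ≠ j) {X : F}
    (hX : X ∈ C 0) (A B : ℕ → F) (hA : ∀ l < k, A l ∈ C (l + 1))
    (hB : ∀ l < k, B l ∈ C (l + 1)) (hAc : ∀ l < k, ∀ Y ∈ C l, τ (Y * A l) = 0)
    (hBc : ∀ l < k, ∀ Y ∈ C l, τ (Y * B l) = 0) : τ (X * (A i * B j)) = 0 := by
  rcases lt_or_gt_of_ne hij with hlt | hgt
  · rw [← mul_assoc]
    exact hBc j hj _ (mul_mem (h.mono (Nat.zero_le _) hX) (h.mono hlt (hA i hi)))
  · rw [← mul_assoc, hτ.comm, ← mul_assoc]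
    exact hAc i hi _ (mul_mem (h.mono hgt (hB j hj)) (h.mono (Nat.zero_le _) hX))

theorem blockSum_selfAdjoint : IsSelfAdjoint (blockSum s w ε f k) :=
  (IsSelfAdjoint.all _).smul (isSelfAdjoint_sum _ fun l hl =>
    stepAvg_selfAdjoint h (Finset.mem_range.1 hl))

theorem blockSum_mem : blockSum s w ε f k ∈ C k := by
  rw [blockSum, ← Complex.coe_smul]
  exact SMulMemClass.smul_mem _ (sum_mem fun l hl =>
    h.mono (Finset.mem_range.1 hl) (stepAvg_mem h (Finset.mem_range.1 hl)))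

theorem blockSum_centred (hτ : IsTrace τ) {X : F} (hX : X ∈ C 0) :
    τ (X * blockSum s w ε f k) = 0 := by
  rw [blockSum, ← Complex.coe_smul, mul_smul_comm, Finset.mul_sum, map_smul, map_sum,
    Finset.sum_eq_zero fun l hl => stepAvg_centred h hτ (Finset.mem_range.1 hl)
      (h.mono (Nat.zero_le _) hX), smul_zero]

include hw hg₀ hpos in
theorem norm_blockSum_le (hb : 0 ≤ b) : ‖blockSum s w ε f k‖ ≤ Real.sqrt k * b := by
  rw [blockSum, norm_smul, Real.norm_eq_abs, abs_of_nonneg (by positivity)]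
  refine (mul_le_mul_of_nonneg_left ((norm_sum_le _ _).trans ((Finset.sum_le_card_nsmul _ _ b
    fun l hl => ?_))) (by positivity)).trans (le_of_eq ?_)
  · have hl' := Finset.mem_range.1 hl
    exact avg_norm_le hw ε (fun g hg => h.psum_selfAdjoint hl'.le hg)
      (part_isStrictlyPositive hw hg₀ hpos ε f l (h.psum_selfAdjoint hl'.le hg₀))
      (h.selfAdjoint l hl') hb (h.norm_le l hl')
  · rw [Finset.card_range, nsmul_eq_mul, ← mul_assoc, ← div_eq_inv_mul, Real.div_sqrt]

include hw hg₀ hpos in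
/-- The second moment of a block. -/
theorem blockSum_lower (hτ : IsTrace τ) (hk : 0 < k) {c : ℝ}
    (hlow : ∀ l < k, ∀ Y ∈ C l, 0 ≤ Y → ∀ g ∈ s, c * (τ Y).re ≤ (τ (Y * (f l g * f l g))).re)
    {X : F} (hX : X ∈ C 0) (hX0 : 0 ≤ X) (hX1 : X ≤ 1) :
    c * (τ X).re - (∑ l ∈ Finset.range k, defect τ s w ε f l) / k ≤
      (τ (X * (blockSum s w ε f k * blockSum s w ε f k))).re := by
  have hstep : ∀ l < k, c * (τ X).re - defect τ s w ε f l ≤
      (τ (X * (stepAvg s w ε f l * stepAvg s w ε f l))).re := by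
    intro l hl
    have hsa : ∀ g ∈ s, IsSelfAdjoint (psum f l g) := fun g hg => h.psum_selfAdjoint hl.le hg
    have hS := part_isStrictlyPositive hw hg₀ hpos ε f l (hsa _ hg₀)
    obtain ⟨a, ha, hae⟩ := avg_eq_emap hw hsa hS
    set E := stepAvg s w ε f l with hE
    set E2 := avg s w ε f l fun g => f l g * f l g with hE2
    have hd : 0 ≤ E2 - E * E := by
      rw [sub_nonneg]
      have h1 := emap_schwarz ha (fun g : s => f l g)
      have e1 : emap a (fun g : s => f l g) = E := (hae (f l)).symm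
      have e2 : emap a (fun g : s => star (f l g) * f l g) = E2 := by
        rw [hE2, hae]
        congr 1
        funext g
        rw [(h.selfAdjoint l hl g g.2).star_eq]
      rwa [e1, e2, (stepAvg_selfAdjoint h hl).star_eq] at h1
    have h1 := avg_sq_lower (ε := ε) h hτ hw hg₀ hpos hl (hlow l hl) (h.mono (Nat.zero_le _) hX) hX0
    have h2 := hτ.mul_le_mul_left hd hX1
    rw [mul_one, hτ.comm, mul_sub, map_sub, map_sub, Complex.sub_re, Complex.sub_re] at h2
    have h3 : defect τ s w ε f l = (τ E2).re - (τ (E * E)).re := rfl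
    linarith
  have e : τ (X * (blockSum s w ε f k * blockSum s w ε f k)) =
      ((1 / (k : ℝ) : ℝ) : ℂ) *
        ∑ l ∈ Finset.range k, τ (X * (stepAvg s w ε f l * stepAvg s w ε f l)) := by
    rw [blockSum, smul_mul_smul_comm, ← mul_inv, Real.mul_self_sqrt (Nat.cast_nonneg k),
      ← Complex.coe_smul, mul_smul_comm, map_smul, smul_eq_mul, one_div]
    congr 1
    refine trace_sum_mul_sum_orth _ X _ _ fun i hi j hj hij => ?_
    exact stepAvg_orth h hτ (Finset.mem_range.1 hi) (Finset.mem_range.1 hj) hij hX _ _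
      (fun l hl => stepAvg_mem h hl) (fun l hl => stepAvg_mem h hl)
      (fun l hl Y hY => stepAvg_centred h hτ hl hY) (fun l hl Y hY => stepAvg_centred h hτ hl hY)
  rw [e, Complex.re_ofReal_mul, Complex.re_sum]
  have hs := Finset.sum_le_sum fun l hl => hstep l (Finset.mem_range.1 hl)
  rw [Finset.sum_sub_distrib, Finset.sum_const, Finset.card_range, nsmul_eq_mul] at hs
  have hk' : (0 : ℝ) < k := by exact_mod_cast hk
  rw [one_div, ← div_eq_inv_mul, le_div_iff₀ hk', sub_mul, div_mul_cancel₀ _ hk'.ne']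
  linarith

end Single

section Shift

variable {Q : Type*} [DecidableEq Q] {B B' : Finset Q} {w : Q → ℝ} {ε : ℝ} {f : ℕ → Q → F}
  {C : ℕ → StarSubalgebra ℂ F} {b : ℝ} {k : ℕ}

/-- The weights cut to `B`. -/
def cutWt (B : Finset Q) (w : Q → ℝ) (q : Q) : ℝ := if q ∈ B then w q else 0

/-- The weights cut to `B` and moved by `σ`. -/
def movWt (σ : Q ≃ Q) (B : Finset Q) (w : Q → ℝ) (q : Q) : ℝ :=
  if σ.symm q ∈ B then w (σ.symm q) else 0

/-- The difference of two block sums with different weights. -/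
def blockDiff (σ : Q ≃ Q) (B B' : Finset Q) (w : Q → ℝ) (ε : ℝ) (f : ℕ → Q → F) (k : ℕ) : F :=
  blockSum B' (movWt σ B w) ε f k - blockSum B' (cutWt B w) ε f k

theorem blockDiff_tn_le (hτ : IsTrace τ) (h : Steps τ B' f C b k) (σ : Q ≃ Q) (hB : B ⊆ B')
    (hw : ∀ q, 0 ≤ w q) {q₀ : Q} (hq₀ : q₀ ∈ B) (h1 : 1 ≤ w q₀) {η δ : ℝ} (hη : 0 ≤ η)
    (hδ : 0 ≤ δ)
    (hdiff : ∀ q ∈ B', |movWt σ B w q - cutWt B w q| ≤ η * cutWt B w q + δ) (hb : 0 ≤ b) {e : ℝ}
    (he : η + δ * B'.card * Real.exp (2 * |ε| * (k * b)) ≤ e) (he' : e ≤ 1 / 4) :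
    tn τ (blockDiff σ B B' w ε f k) ≤ 50 * b * Real.sqrt e := by
  have hcut : ∀ q ∈ B', 0 ≤ cutWt B w q := fun q _ => by
    unfold cutWt; split_ifs <;> simp [hw]
  have hmov : ∀ q ∈ B', 0 ≤ movWt σ B w q := fun q _ => by
    unfold movWt; split_ifs <;> simp [hw]
  have h1' : 1 ≤ cutWt B w q₀ := by rwa [cutWt, if_pos hq₀]
  set d : ℕ → F := fun l => stepAvg B' (movWt σ B w) ε f l - stepAvg B' (cutWt B w) ε f l with hd
  have hdl : ∀ l ∈ Finset.range k, tn τ (d l) ≤ 50 * b * Real.sqrt e := by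
    intro l hl
    have hl' := Finset.mem_range.1 hl
    refine avg_shift hτ hcut hmov (hB hq₀) h1' hη hδ hdiff
      (fun q hq => h.psum_selfAdjoint hl'.le hq) (fun q hq => h.psum_norm_le hl'.le hq)
      (h.norm_le l hl') ?_ he'
    refine le_trans ?_ he
    gcongr
  have hsa : ∀ l ∈ Finset.range k, IsSelfAdjoint (d l) := fun l hl =>
    (stepAvg_selfAdjoint h (Finset.mem_range.1 hl)).sub
      (stepAvg_selfAdjoint h (Finset.mem_range.1 hl))
  have hdm : ∀ l < k, d l ∈ C (l + 1) := fun l hl =>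
    sub_mem (stepAvg_mem h hl) (stepAvg_mem h hl)
  have hdc : ∀ l < k, ∀ Y ∈ C l, τ (Y * d l) = 0 := fun l hl Y hY => by
    rw [hd, mul_sub, map_sub, stepAvg_centred h hτ hl hY, stepAvg_centred h hτ hl hY, sub_zero]
  have hsum := tn_sum_sq_orth hτ (Finset.range k) d hsa fun i hi j hj hij => by
    have := stepAvg_orth h hτ (Finset.mem_range.1 hi) (Finset.mem_range.1 hj) hij (one_mem (C 0))
      d d hdm hdm hdc hdc
    rwa [one_mul] at this
  have hle : tn τ (∑ l ∈ Finset.range k, d l) ^ 2 ≤ (k : ℝ) * (50 * b * Real.sqrt e) ^ 2 := by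
    rw [hsum]
    refine (Finset.sum_le_card_nsmul _ _ _ fun l hl =>
      pow_le_pow_left₀ (hτ.tn_nonneg _) (hdl l hl) 2).trans_eq ?_
    rw [Finset.card_range, nsmul_eq_mul]
  rw [blockDiff, blockSum, blockSum, ← smul_sub, ← Finset.sum_sub_distrib, ← Complex.coe_smul,
    hτ.tn_smul, Complex.norm_real, Real.norm_eq_abs, abs_of_nonneg (by positivity)]
  rcases Nat.eq_zero_or_pos k with rfl | hk
  · simp
    positivity
  have hk' : (0 : ℝ) < Real.sqrt k := Real.sqrt_pos.2 (by exact_mod_cast hk)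
  rw [← div_eq_inv_mul, div_le_iff₀ hk']
  refine (pow_le_pow_iff_left₀ (hτ.tn_nonneg _) (by positivity) two_ne_zero).1 (hle.trans_eq ?_)
  rw [mul_pow _ (Real.sqrt k), Real.sq_sqrt (Nat.cast_nonneg k)]
  ring

variable {G : Type} [Group G] {T : Set (F →ₗ[ℂ] ℂ)} {α : G → (F ≃⋆ₐ[ℂ] F)}

/-- An automorphism moving the sites moves a block by `blockDiff`, up to congruence. -/
theorem cong_map_blockSum (hs : Sys T α) (g : G) (σ : Q ≃ Q) (hB : B ⊆ B')
    (hσ : ∀ q ∈ B, σ q ∈ B') (hw : ∀ q, 0 ≤ w q) {q₀ : Q} (hq₀ : q₀ ∈ B) (hpos : 0 < w q₀)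
    (hfs : ∀ i < k, ∀ q ∈ B', IsSelfAdjoint (f i q))
    (hf : ∀ i < k, ∀ q ∈ B, Cong T (α g (f i q)) (f i (σ q))) :
    Cong T (α g (blockSum B w ε f k) - blockSum B w ε f k) (blockDiff σ B B' w ε f k) := by
  set φ : F →⋆ₐ[ℂ] F := (α g : F →⋆ₐ[ℂ] F)
  have hcut : ∀ l, stepAvg B w ε f l = stepAvg B' (cutWt B w) ε f l := fun l => by
    rw [stepAvg, stepAvg, avg_extend hB (w := cutWt B w) (fun q _ hq => if_neg hq) ε f l (f l)]
    exact avg_weight_congr (fun q hq => (if_pos hq).symm) ε f l _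
  have hmov : ∀ l, avg B w ε (fun i => f i ∘ σ) l (f l ∘ σ) = stepAvg B' (movWt σ B w) ε f l := by
    intro l
    have hsub : B.image σ ⊆ B' := Finset.image_subset_iff.2 hσ
    have hzero : ∀ q ∈ B', q ∉ B.image σ → movWt σ B w q = 0 := fun q _ hq => if_neg fun h =>
      hq (Finset.mem_image.2 ⟨σ.symm q, h, σ.apply_symm_apply q⟩)
    rw [stepAvg, avg_extend hsub hzero ε f l _, avg_finset_image σ σ.injective.injOn _ ε f l _]
    exact avg_weight_congr (fun q hq => by simp [movWt, hq]) ε _ l _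
  have hstep : ∀ l ∈ Finset.range k, Cong T (α g (stepAvg B w ε f l))
      (stepAvg B' (movWt σ B w) ε f l) := by
    intro l hl
    have hl' := Finset.mem_range.1 hl
    have hp : ∀ q ∈ B, IsSelfAdjoint (psum f l q) := fun q hq =>
      isSelfAdjoint_psum fun i hi => hfs i (hi.trans hl') q (hB hq)
    rw [← hmov l, stepAvg]
    rw [show α g (avg B w ε f l (f l)) = φ (avg B w ε f l (f l)) from rfl,
      avg_map φ ε f l (f l) hp (part_isStrictlyPositive (fun q _ => hw q) hq₀ hpos ε f l (hp q₀ hq₀))]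
    exact avg_cong hs.isTrace (fun q _ => hw q) hq₀ hpos ε l
      (fun q hq => isSelfAdjoint_psum fun i hi => (hfs i (hi.trans hl') q (hB hq)).map φ)
      (fun q hq => isSelfAdjoint_psum fun i hi => hfs i (hi.trans hl') (σ q) (hσ q hq))
      (fun i hi q hq => hf i (hi.trans hl') q hq) (hf l hl')
  have e1 : Cong T (α g (blockSum B w ε f k)) (blockSum B' (movWt σ B w) ε f k) := by
    simp only [blockSum, ← Complex.coe_smul, map_smul, map_sum]
    exact Cong.smul hs.isTrace (Cong.sum hs.isTrace _ hstep) _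
  have e2 : blockSum B w ε f k = blockSum B' (cutWt B w) ε f k := by
    simp only [blockSum]
    exact congrArg _ (Finset.sum_congr rfl fun l _ => hcut l)
  intro τ hτ
  rw [blockDiff, e2, show ∀ a c d : F, (a - c) - (d - c) = a - d from fun a c d => by abel, ← e2]
  exact e1 τ hτ

end Shift

end

end Vale.Agent.P095.Amenable
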