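import Vale.Agent.P095.Amenable.Coin

/-!
# Coins from almost invariant blocks

The part of stage one that does not depend on how the blocks are built: many almost invariant
centred blocks with second moment bounded below give coins.
-/

set_option linter.unusedSectionVars false

open TopologicalSpace Filter
open scoped ComplexOrder
open Vale.Agent.P101 (genAlg isClosed_genAlg subset_genAlg genAlg_le)

namespace Vale.Agent.P095.Amenable

noncomputable section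

variable {F : Type*} [CStarAlgebra F] [PartialOrder F] [StarOrderedRing F]
variable {G : Type} [Group G] {T : Set (F →ₗ[ℂ] ℂ)} {α : G → (F ≃⋆ₐ[ℂ] F)} {K : Subgroup G}

/-- An approximate coin from blocks. -/
theorem exists_coin_of_blocks (hs : Sys T α) {S : Set F} {W : Finset G} {c κ : ℝ} (hc : 0 < c)
    (hκ : 0 < κ) (m : ℕ) {R : ℝ} (hR : 0 ≤ R)
    (h : ∀ N : ℕ, ∃ Z : Fin N → F, (∀ j, IsSelfAdjoint (Z j)) ∧ (∀ i j, Commute (Z i) (Z j)) ∧
      (∀ j, ∀ t ∈ S, Commute (Z j) t) ∧ (∀ j, ‖Z j‖ ≤ R) ∧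
      (∀ τ ∈ T, ∀ t ∈ S, ∀ j, ∀ X ∈ genAlg ({t} ∪ Z '' {i | i ≠ j}), τ (X * Z j) = 0 ∧
        (0 ≤ X → X ≤ 1 → c * (τ X).re - κ ^ 4 ≤ (τ (X * (Z j * Z j))).re)) ∧
      ∀ g ∈ W, ∀ τ ∈ T, tn τ (α g (∑ j, Z j) - ∑ j, Z j) ≤ Real.sqrt N * κ ^ 4) :
    ∃ u ∈ unitary F, (∀ t ∈ S, Commute u t) ∧
      (∀ g ∈ W, ∀ τ ∈ T, tn τ (α g u - u) ≤ κ ^ 3) ∧
      ∀ t ∈ S, ∀ p : ℕ, p ≠ 0 → p ≤ m + 1 → ∀ τ ∈ T, ‖τ (t * u ^ p)‖ ≤
        ‖t‖ * (2 * κ ^ 2 / c + 2 * κ ^ 4 / c + κ ^ 4) := by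
  set A := ((m : ℝ) + 1) / κ with hA
  have hA0 : 0 ≤ A := by positivity
  set L := 1 + A * R + A ^ 3 * R ^ 3 / κ ^ 4 + A ^ 2 * c with hL
  have hp1 : 0 ≤ A * R := mul_nonneg hA0 hR
  have hp2 : 0 ≤ A ^ 3 * R ^ 3 / κ ^ 4 := by positivity
  have hp3 : 0 ≤ A ^ 2 * c := by positivity
  obtain ⟨N, hN⟩ : ∃ N : ℕ, L ^ 2 ≤ N := ⟨_, Nat.le_ceil _⟩
  have hNL : L ≤ Real.sqrt N := (Real.le_sqrt (by linarith) (Nat.cast_nonneg N)).2 hN
  have hsN : 0 < Real.sqrt N := lt_of_lt_of_le (by linarith) hNL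
  obtain ⟨Z, hZsa, hZc, hZS, hZR, hZlow, hZinv⟩ := h N
  set a := 1 / (κ * Real.sqrt N) with ha
  have ha0 : 0 < a := by positivity
  set tot := ((a : ℂ)) • ∑ j, Z j with htot
  have htsa : IsSelfAdjoint tot := by
    rw [htot, Complex.coe_smul]
    exact (IsSelfAdjoint.all a).smul (isSelfAdjoint_sum _ fun j _ => hZsa j)
  let : NormedAlgebra ℚ F := NormedAlgebra.restrictScalars ℚ ℂ F
  refine ⟨NormedSpace.exp (Complex.I • tot), (selfAdjoint.expUnitary ⟨tot, htsa⟩).2,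
    fun t ht => ?_, fun g hg τ hτ => ?_, fun t ht p hp hpm τ hτ => ?_⟩
  · exact (((Commute.sum_left _ _ _ fun j _ => hZS j t ht).smul_left _).smul_left _).exp_left
  · have hτ' := hs.isTrace τ hτ
    have hexp := NormedSpace.map_exp (f := (α g : F →⋆ₐ[ℂ] F))
      (Vale.Agent.P101.hom_continuous _) (Complex.I • tot)
    rw [map_smul] at hexp
    show tn τ ((α g : F →⋆ₐ[ℂ] F) (NormedSpace.exp (Complex.I • tot)) - _) ≤ _
    rw [hexp]
    refine (exp_lip hτ' (htsa.map _) htsa).trans ?_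
    show tn τ (α g tot - tot) ≤ _
    rw [htot, map_smul, ← smul_sub, hτ'.tn_smul, Complex.norm_real, Real.norm_eq_abs,
      abs_of_pos ha0]
    refine (mul_le_mul_of_nonneg_left (hZinv g hg τ hτ) ha0.le).trans (le_of_eq ?_)
    rw [ha]
    field_simp
  · have hpow : NormedSpace.exp (Complex.I • tot) ^ p =
        NormedSpace.exp (Complex.I • (((p * a : ℝ) : ℂ) • ∑ j, Z j)) := by
      rw [← NormedSpace.exp_nsmul, htot, ← Nat.cast_smul_eq_nsmul ℂ, smul_smul, smul_smul,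
        smul_smul]
      congr 2
      push_cast
      ring
    rw [hpow]
    have hpm' : (p : ℝ) ≤ m + 1 := by exact_mod_cast hpm
    have hpa : |(p * a : ℝ)| ≤ A / Real.sqrt N := by
      rw [abs_of_nonneg (by positivity), ha, hA, mul_one_div, div_div]
      gcongr
    have hpaR : |(p * a : ℝ)| * R ≤ 1 := by
      refine (mul_le_mul_of_nonneg_right hpa hR).trans ?_
      rw [div_mul_eq_mul_div, div_le_one hsN]
      linarith
    have hpac : (p * a : ℝ) ^ 2 * c ≤ 2 := by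
      have h1 : (p * a : ℝ) ^ 2 ≤ A ^ 2 / Real.sqrt N := by
        rw [← sq_abs]
        refine (pow_le_pow_left₀ (abs_nonneg _) hpa 2).trans ?_
        rw [div_pow]
        gcongr
        exact le_self_pow₀ (by linarith) two_ne_zero
      refine (mul_le_mul_of_nonneg_right h1 hc.le).trans ?_
      rw [div_mul_eq_mul_div, div_le_iff₀ hsN]
      linarith
    have hb := small_power_bound (M := 0) hκ hc hA0 hR (by positivity) hsN hp rfl hpa
      (by linarith) hpac rfl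
    refine (lindeberg (hs.isTrace τ hτ) Z t hZsa hZc hZR hc (by positivity : (0 : ℝ) ≤ κ ^ 4)
      (fun j X hX => (hZlow τ hτ t ht j X hX).1) (fun j X hX => (hZlow τ hτ t ht j X hX).2)
      (p * a) hpaR hpac).trans (mul_le_mul_of_nonneg_left ?_ (norm_nonneg t))
    have h4 : κ ^ 4 / c ≤ 2 * κ ^ 4 / c := by
      gcongr
      have : 0 ≤ κ ^ 4 := by positivity
      linarith
    rw [zero_pow two_ne_zero, zero_add, mul_one, ← ha] at hb
    linarith

/-- **Coins from blocks.** -/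
theorem coins_of_blocks [Countable G] (hs : Sys T α) (hsat : Saturated T α) {c : ℝ} (hc : 0 < c)
    (h : ∀ S : Set F, S.Countable → (∀ t ∈ S, star t ∈ S) → ∀ W : Finset G, (∀ g ∈ W, g ∈ K) →
      ∀ e : ℝ, 0 < e → ∃ R : ℝ, 0 ≤ R ∧ ∀ N : ℕ, ∃ Z : Fin N → F, (∀ j, IsSelfAdjoint (Z j)) ∧
      (∀ i j, Commute (Z i) (Z j)) ∧ (∀ j, ∀ t ∈ S, Commute (Z j) t) ∧ (∀ j, ‖Z j‖ ≤ R) ∧
      (∀ τ ∈ T, ∀ t ∈ S, ∀ j, ∀ X ∈ genAlg ({t} ∪ Z '' {i | i ≠ j}), τ (X * Z j) = 0 ∧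
        (0 ≤ X → X ≤ 1 → c * (τ X).re - e ≤ (τ (X * (Z j * Z j))).re)) ∧
      ∀ g ∈ W, ∀ τ ∈ T, tn τ (α g (∑ j, Z j) - ∑ j, Z j) ≤ Real.sqrt N * e) :
    Coins T α K := by
  classical
  intro S hS
  set S' := S ∪ star '' S with hS'
  have hS'c : S'.Countable := hS.union (hS.image _)
  have hS's : ∀ t ∈ S', star t ∈ S' := by
    rintro t (ht | ⟨t, ht, rfl⟩)
    · exact Or.inr ⟨t, ht, rfl⟩
    · exact Or.inl (by rwa [star_star])
  obtain ⟨e, he⟩ := exists_surjective_nat K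
  set κ : ℕ → ℝ := fun m => 1 / ((m : ℝ) + 2) with hκ
  have hκpos : ∀ m, 0 < κ m := fun m => by positivity
  set W : ℕ → Finset G := fun m => (Finset.range (m + 1)).image fun i => ((e i : K) : G)
  have hW : ∀ m, ∀ g ∈ W m, g ∈ K := fun m g hg => by
    obtain ⟨i, _, rfl⟩ := Finset.mem_image.1 hg
    exact (e i).2
  have happ : ∀ m, ∃ u ∈ unitary F, (∀ t ∈ S', Commute u t) ∧
      (∀ g ∈ W m, ∀ τ ∈ T, tn τ (α g u - u) ≤ κ m ^ 3) ∧
      ∀ t ∈ S', ∀ p : ℕ, p ≠ 0 → p ≤ m + 1 → ∀ τ ∈ T, ‖τ (t * u ^ p)‖ ≤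
        ‖t‖ * (2 * κ m ^ 2 / c + 2 * κ m ^ 4 / c + κ m ^ 4) := fun m => by
    obtain ⟨R, hR, hZ⟩ := h S' hS'c hS's (W m) (hW m) (κ m ^ 4) (pow_pos (hκpos m) 4)
    exact exists_coin_of_blocks hs hc (hκpos m) m hR hZ
  choose u hu huS hug hup using happ
  have hκ0 : Tendsto κ atTop (nhds 0) := by
    have h := (tendsto_one_div_add_atTop_nhds_zero_nat (𝕜 := ℝ)).comp (tendsto_add_atTop_nat 1)
    refine h.congr fun m => ?_
    simp only [hκ, Function.comp_apply]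
    push_cast
    ring
  obtain ⟨z, hz, hzS, hzg, hzt⟩ := hsat.diag_unitary K S' hS'c u hu huS
    (fun g hg ε hε => by
      obtain ⟨i, hi⟩ := he ⟨g, hg⟩
      have h3 : Tendsto (fun m => κ m ^ 3) atTop (nhds 0) := by simpa using hκ0.pow 3
      filter_upwards [h3.eventually_le_const hε, eventually_ge_atTop i] with m hm him τ hτ
      refine (hug m g (Finset.mem_image.2 ⟨i, Finset.mem_range.2 (by omega), ?_⟩) τ hτ).trans hm
      rw [hi])
    (fun t ht p hp ε hε => by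
      have h : Tendsto (fun m => ‖t‖ * (2 * κ m ^ 2 / c + 2 * κ m ^ 4 / c + κ m ^ 4))
          atTop (nhds 0) := by
        simpa using ((((hκ0.pow 2).const_mul 2).div_const c).add
          (((hκ0.pow 4).const_mul 2).div_const c) |>.add (hκ0.pow 4)).const_mul ‖t‖
      filter_upwards [h.eventually_le_const hε, eventually_ge_atTop p] with m hm hpm τ hτ
      exact (hup m t ht p hp (by omega) τ hτ).trans hm)
  refine ⟨z, hz, fun t ht => hzS t (Or.inl ht), hzg, fun t ht p hp τ hτ =>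
    ⟨hzt t (Or.inl ht) p hp τ hτ, ?_⟩⟩
  have h := hzt (star t) (Or.inr ⟨t, ht, rfl⟩) p hp τ hτ
  have e : τ (t * star z ^ p) = star (τ (star t * z ^ p)) := by
    rw [← (hs.isTrace τ hτ).map_star, star_mul, star_star, star_pow, (hs.isTrace τ hτ).comm]
  rw [e, h, star_zero]

end

end Vale.Agent.P095.Amenable
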