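import Vale.Agent.P095.Amenable.Trace

/-!
# Inequalities for a tracial state

Klein's inequality, the superadditivity of `τ ∘ log` under conjugation, Rotfeld's inequality for
powers, the tangent bound of the logarithm, and two bounds in the two-seminorm.
-/

open scoped ComplexOrder
open Filter Topology NormedSpace

namespace Vale.Agent.P095.Amenable

variable {F : Type*} [CStarAlgebra F] {τ : F →ₗ[ℂ] ℂ}

namespace IsTrace

variable (h : IsTrace τ)
include h

theorem re_continuous : Continuous fun x => (τ x).re :=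
  Complex.continuous_re.comp
    (τ.mkContinuous 1 fun x => by simpa using h.norm_le_norm x).continuous

theorem hasDerivAt_re {f : ℝ → F} {f' : F} {t : ℝ} (hf : HasDerivAt f f' t) :
    HasDerivAt (fun s => (τ (f s)).re) (τ f').re t :=
  (Complex.reCLM.comp
    ((τ.mkContinuous 1 fun x => by simpa using h.norm_le_norm x).restrictScalars ℝ)).hasFDerivAt.comp_hasDerivAt
    t hf

theorem hasDerivAt_comp {f : ℝ → F} {f' : F} {t : ℝ} (hf : HasDerivAt f f' t) :
    HasDerivAt (fun s => τ (f s)) (τ f') t :=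
  ((τ.mkContinuous 1 fun x => by simpa using h.norm_le_norm x).restrictScalars
    ℝ).hasFDerivAt.comp_hasDerivAt t hf

omit h in
theorem re_smul (r : ℝ) (x : F) : (τ (r • x)).re = r * (τ x).re := by
  rw [← Complex.coe_smul, map_smul, smul_eq_mul, Complex.re_ofReal_mul]

end IsTrace

/-- Exponentials of multiples of one element commute with it and with each other. -/
theorem exp_real_smul_add (x : F) (s t : ℝ) :
    exp ((s + t) • x) = exp (s • x) * exp (t • x) := by
  let : NormedAlgebra ℚ F := .restrictScalars ℚ ℂ F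
  rw [add_smul]
  exact exp_add_of_commute (((Commute.refl x).smul_left s).smul_right t)

theorem exp_real_smul_mul_neg (x : F) (s : ℝ) : exp (s • x) * exp ((-s) • x) = 1 := by
  rw [← exp_real_smul_add, add_neg_cancel, zero_smul, exp_zero]

/-- Convexity gives the tangent bound for `τ (e^{-p} e^{q})`. -/
theorem IsTrace.exp_mul_exp_ge (h : IsTrace τ) {p q : F} (hp : IsSelfAdjoint p)
    (hq : IsSelfAdjoint q) :
    1 + ((τ q).re - (τ p).re) ≤ (τ (exp (-p) * exp q)).re := by
  let : NormedAlgebra ℚ F := .restrictScalars ℚ ℂ F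
  let : PartialOrder F := CStarAlgebra.spectralOrder F
  have : StarOrderedRing F := CStarAlgebra.spectralOrderedRing F
  set a : ℝ → F := fun t => exp (t • (-p)) with ha
  set b : ℝ → F := fun t => exp (t • q) with hb
  have da : ∀ t, HasDerivAt a (a t * (-p)) t := fun t => hasDerivAt_exp_smul_const (-p) t
  have db : ∀ t, HasDerivAt b (b t * q) t := fun t => hasDerivAt_exp_smul_const q t
  have db' : ∀ t, HasDerivAt b (q * b t) t := fun t => hasDerivAt_exp_smul_const' q t
  set φ : ℝ → ℝ := fun t => (τ (a t * b t)).re with hφ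
  set ψ : ℝ → ℝ := fun t => (τ (a t * (q - p) * b t)).re with hψ
  have dφ : ∀ t, HasDerivAt φ (ψ t) t := fun t => by
    have := h.hasDerivAt_re ((da t).mul (db' t))
    convert this using 2
    congr 1
    noncomm_ring
  have dψ : ∀ t, HasDerivAt ψ ((τ (a t * (q - p) * b t * q)).re -
      (τ (a t * p * (q - p) * b t)).re) t := fun t => by
    have := h.hasDerivAt_re (((da t).mul_const (q - p)).mul (db t))
    refine this.congr_deriv ?_
    rw [← Complex.sub_re, ← map_sub]
    congr 2
    noncomm_ring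
  have hpos : ∀ t, 0 ≤ (τ (a t * (q - p) * b t * q)).re -
      (τ (a t * p * (q - p) * b t)).re := fun t => by
    have hca : Commute p (a t) := (((Commute.refl p).neg_right).smul_right t).exp_right
    have hcb : Commute q (b t) := ((Commute.refl q).smul_right t).exp_right
    have hna : 0 ≤ a t := ((IsSelfAdjoint.all t).smul hp.neg).exp_nonneg
    have hnb : 0 ≤ b t := ((IsSelfAdjoint.all t).smul hq).exp_nonneg
    have hpos := (Complex.nonneg_iff.1 (h.map_mul_nonneg hnb
      (star_left_conjugate_nonneg hna (q - p)))).1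
    refine hpos.trans_eq ?_
    rw [(hq.sub hp).star_eq, ← Complex.sub_re]
    congr 1
    calc τ (b t * ((q - p) * a t * (q - p))) = τ ((q - p) * (a t * (q - p) * b t)) := by
          rw [h.comm (b t)]; simp only [mul_assoc]
      _ = τ (q * (a t * (q - p) * b t)) - τ (p * (a t * (q - p) * b t)) := by
          rw [sub_mul, map_sub]
      _ = _ := by
          rw [h.comm q, ← mul_assoc p, ← mul_assoc p, hca.eq]
  have hmono : Monotone ψ := monotone_of_hasDerivAt_nonneg dψ hpos
  set g : ℝ → ℝ := fun t => φ t - ψ 0 * t with hg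
  have dg : ∀ t, HasDerivAt g (ψ t - ψ 0) t := fun t => by
    simpa using (dφ t).fun_sub ((hasDerivAt_id t).const_mul (ψ 0))
  have hgm : MonotoneOn g (Set.Ici 0) := by
    refine monotoneOn_of_deriv_nonneg (convex_Ici 0)
      (fun t _ => (dg t).continuousAt.continuousWithinAt)
      (fun t _ => (dg t).differentiableAt.differentiableWithinAt) fun t ht => ?_
    rw [(dg t).deriv]
    rw [interior_Ici] at ht
    linarith [hmono (Set.mem_Ioi.1 ht).le]
  have h01 := hgm (Set.self_mem_Ici) (Set.mem_Ici.2 zero_le_one) zero_le_one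
  simp only [hg, hφ, hψ, ha, hb, zero_smul, one_smul, exp_zero, one_mul, mul_one, h.map_one,
    map_sub, Complex.one_re, Complex.sub_re, mul_zero, sub_zero] at h01
  linarith

variable [PartialOrder F] [StarOrderedRing F]

theorem inverse_eq_exp_neg_log {a : F} (ha : IsStrictlyPositive a) :
    Ring.inverse a = exp (-CFC.log a) := by
  let : NormedAlgebra ℚ F := .restrictScalars ℚ ℂ F
  have h1 : a * exp (-CFC.log a) = 1 := by
    conv_lhs => arg 1; rw [← CFC.exp_log a ha]
    rw [← exp_add_of_commute ((Commute.refl _).neg_right), add_neg_cancel, exp_zero]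
  calc Ring.inverse a = Ring.inverse a * (a * exp (-CFC.log a)) := by rw [h1, mul_one]
    _ = exp (-CFC.log a) := by
      rw [← mul_assoc, Ring.inverse_mul_cancel a ha.isUnit, one_mul]

variable (hτ : IsTrace τ)
include hτ

theorem klein {a b : F} (ha : IsStrictlyPositive a) (hb : IsStrictlyPositive b) :
    1 - (τ (Ring.inverse a * b)).re ≤ (τ (CFC.log a)).re - (τ (CFC.log b)).re := by
  have := hτ.exp_mul_exp_ge (IsSelfAdjoint.log (a := a)) (IsSelfAdjoint.log (a := b))
  rw [CFC.exp_log b hb, ← inverse_eq_exp_neg_log ha] at this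
  linarith

theorem log_conj {a x : F} (ha : IsStrictlyPositive a) (hx : IsStrictlyPositive x) :
    (τ (CFC.log a)).re + (τ (CFC.log x)).re ≤
      (τ (CFC.log (CFC.sqrt a * x * CFC.sqrt a))).re := by
  let : NormedAlgebra ℚ F := .restrictScalars ℚ ℂ F
  set q := CFC.log x with hq
  have hqs : IsSelfAdjoint q := IsSelfAdjoint.log
  set i := CFC.sqrt a with hi
  have hiu : IsUnit i := IsStrictlyPositive.isUnit_cfcSqrt a ha
  have hisa : IsSelfAdjoint i := (CFC.sqrt_nonneg a).isSelfAdjoint
  set j := Ring.inverse i with hj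
  have hji : j * i = 1 := Ring.inverse_mul_cancel i hiu
  have hij : i * j = 1 := Ring.mul_inverse_cancel i hiu
  set S : ℝ → F := fun r => i * exp (r • q) * i with hS
  have hSp : ∀ r, IsStrictlyPositive (S r) := fun r =>
    ⟨by
      have h2 := star_left_conjugate_nonneg ((IsSelfAdjoint.all r).smul hqs).exp_nonneg i
      rwa [hisa.star_eq] at h2, (hiu.mul (isUnit_exp _)).mul hiu⟩
  have hSi : ∀ r, Ring.inverse (S r) = j * exp ((-r) • q) * j := fun r => by
    have h1 : S r * (j * exp ((-r) • q) * j) = 1 := by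
      calc i * exp (r • q) * i * (j * exp ((-r) • q) * j)
          = i * exp (r • q) * (i * j) * exp ((-r) • q) * j := by noncomm_ring
        _ = i * (exp (r • q) * exp ((-r) • q)) * j := by rw [hij]; noncomm_ring
        _ = 1 := by rw [exp_real_smul_mul_neg, mul_one, hij]
    calc Ring.inverse (S r) = Ring.inverse (S r) * (S r * (j * exp ((-r) • q) * j)) := by
          rw [h1, mul_one]
      _ = _ := by rw [← mul_assoc, Ring.inverse_mul_cancel _ (hSp r).isUnit, one_mul]
  set f : ℝ → ℝ := fun δ => (τ (exp (δ • q))).re with hf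
  set L : ℝ → ℝ := fun r => (τ (CFC.log (S r))).re with hL
  have hstep : ∀ r δ : ℝ, 1 - f (-δ) ≤ L (r + δ) - L r := fun r δ => by
    refine le_of_eq_of_le ?_ (klein hτ (hSp (r + δ)) (hSp r))
    congr 1
    show (τ (exp ((-δ) • q))).re = _
    congr 1
    rw [hSi]
    calc τ (exp ((-δ) • q))
        = τ (exp ((-(r + δ)) • q) * exp (r • q)) := by rw [← exp_real_smul_add]; congr 3; ring
      _ = τ (exp ((-(r + δ)) • q) * exp (r • q) * (i * j)) := by rw [hij, mul_one]
      _ = τ (j * (exp ((-(r + δ)) • q) * exp (r • q) * i)) := by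
          rw [hτ.comm j, ← mul_assoc]
      _ = τ (j * exp ((-(r + δ)) • q) * (j * i) * exp (r • q) * i) := by
          rw [hji, mul_one]; simp only [mul_assoc]
      _ = _ := by simp only [hS, mul_assoc]
  have hsum : ∀ m : ℕ, ((m : ℝ) + 1) * (1 - f (-(1 / ((m : ℝ) + 1)))) ≤ L 1 - L 0 := fun m => by
    set δ : ℝ := 1 / ((m : ℝ) + 1) with hδ
    have h2 : ∀ n : ℕ, (n : ℝ) * (1 - f (-δ)) ≤ L ((n : ℝ) * δ) - L 0 := fun n => by
      induction n with
      | zero => simp
      | succ n ih =>
        have := hstep ((n : ℝ) * δ) δ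
        push_cast
        rw [show ((n : ℝ) + 1) * δ = (n : ℝ) * δ + δ by ring]
        linarith
    have h3 := h2 (m + 1)
    push_cast at h3
    rwa [show ((m : ℝ) + 1) * δ = 1 by rw [hδ]; field_simp] at h3
  have hder : HasDerivAt f (τ q).re 0 := by
    have := hτ.hasDerivAt_re (hasDerivAt_exp_smul_const q (0 : ℝ))
    simpa using this
  have hlim : Tendsto (fun m : ℕ => ((m : ℝ) + 1) * (1 - f (-(1 / ((m : ℝ) + 1))))) atTop
      (𝓝 (τ q).re) := by
    have h0 : Tendsto (fun m : ℕ => -(1 / ((m : ℝ) + 1))) atTop (𝓝[≠] 0) := by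
      refine tendsto_nhdsWithin_iff.2 ⟨?_, .of_forall fun m => ?_⟩
      · simpa using (tendsto_one_div_add_atTop_nhds_zero_nat (𝕜 := ℝ)).neg
      · simp only [Set.mem_compl_iff, Set.mem_singleton_iff, neg_eq_zero]
        positivity
    refine (hder.tendsto_slope.comp h0).congr fun m => ?_
    simp only [Function.comp_apply, slope, vsub_eq_sub, sub_zero, smul_eq_mul, hf, zero_smul,
      exp_zero, hτ.map_one, Complex.one_re]
    field_simp
    ring
  have h := le_of_tendsto hlim (.of_forall hsum)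
  simp only [hL, hS, zero_smul, one_smul, exp_zero, mul_one] at h
  rw [hq, CFC.exp_log x hx, hi, CFC.sqrt_mul_sqrt_self a ha.nonneg] at h
  linarith

omit hτ in
theorem rpow_mul_rpow_of_pos {a : F} {x y : ℝ} (hx : 0 < x) (hy : 0 < y) :
    a ^ x * a ^ y = a ^ (x + y) := by
  lift x to NNReal using hx.le
  lift y to NNReal using hy.le
  rw [NNReal.coe_pos] at hx hy
  rw [← NNReal.coe_add, ← CFC.nnrpow_eq_rpow hx, ← CFC.nnrpow_eq_rpow hy,
    ← CFC.nnrpow_eq_rpow (add_pos hx hy), CFC.nnrpow_add hx hy]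

/-- Rotfeld's inequality. -/
theorem rotfeld {ι : Type*} [Fintype ι] (a : ι → F) (ha : ∀ i, 0 ≤ a i)
    (hsum : IsStrictlyPositive (∑ i, a i)) {s : ℝ} (hs : 0 < s) (hs1 : s ≤ 1) :
    (τ ((∑ i, a i) ^ s)).re ≤ ∑ i, (τ (a i ^ s)).re := by
  set A := ∑ i, a i with hA
  rcases hs1.eq_or_lt with rfl | hs1
  · rw [CFC.rpow_one A hsum.nonneg, hA, map_sum, Complex.re_sum]
    exact le_of_eq (Finset.sum_congr rfl fun i _ => by rw [CFC.rpow_one _ (ha i)])
  have key : ∀ i, (τ (a i * A ^ (s - 1))).re ≤ (τ (a i ^ s)).re := fun i => by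
    set u := (1 - s) / 2 with hu
    have hu0 : 0 < u := by linarith
    set B := A ^ (-u) with hB
    set c := a i ^ u with hc
    set d := a i ^ (s / 2) with hd
    have hBs : IsSelfAdjoint B := CFC.rpow_nonneg.isSelfAdjoint
    have hcs : IsSelfAdjoint c := CFC.rpow_nonneg.isSelfAdjoint
    have hds : IsSelfAdjoint d := CFC.rpow_nonneg.isSelfAdjoint
    have hle : a i ^ (u + u) ≤ A ^ (u + u) :=
      CFC.rpow_le_rpow ⟨by linarith, by linarith⟩
        (Finset.single_le_sum (fun j _ => ha j) (Finset.mem_univ i))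
    have h1 : star (c * B) * (c * B) ≤ 1 := by
      have h2 := star_left_conjugate_le_conjugate hle B
      rw [hBs.star_eq, ← rpow_mul_rpow_of_pos hu0 hu0] at h2
      refine le_of_eq_of_le ?_ (h2.trans_eq ?_)
      · rw [star_mul, hBs.star_eq, hcs.star_eq, hc]; simp only [mul_assoc]
      · rw [hB, ← CFC.rpow_add hsum.isUnit, ← CFC.rpow_add hsum.isUnit,
          show -u + (u + u) + -u = 0 by ring, CFC.rpow_zero A hsum.nonneg]
    have hn : ‖star (c * B) * (c * B)‖ ≤ 1 :=
      (CStarAlgebra.norm_le_one_iff_of_nonneg _ (star_mul_self_nonneg _)).2 h1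
    rw [CStarRing.norm_star_mul_self, ← CStarRing.norm_self_mul_star] at hn
    have h3 : c * B * star (c * B) ≤ 1 :=
      (CStarAlgebra.norm_le_one_iff_of_nonneg _ (mul_star_self_nonneg _)).1 hn
    have h4 := hτ.mono (star_left_conjugate_le_conjugate h3 d)
    rw [hds.star_eq, mul_one, hd, rpow_mul_rpow_of_pos (by linarith) (by linarith), add_halves,
      ← hd] at h4
    refine le_of_eq_of_le ?_ h4
    congr 1
    have e1 : A ^ (s - 1) = B * B := by
      rw [hB, ← CFC.rpow_add hsum.isUnit]; congr 1; rw [hu]; ring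
    have e2 : a i = c * d * d * c := by
      rw [hc, hd, rpow_mul_rpow_of_pos hu0 (by linarith), rpow_mul_rpow_of_pos (by linarith) (by linarith),
        rpow_mul_rpow_of_pos (by linarith) hu0, show u + s / 2 + s / 2 + u = 1 by rw [hu]; ring,
        CFC.rpow_one _ (ha i)]
    rw [e1, e2, star_mul, hBs.star_eq, hcs.star_eq]
    calc τ (c * d * d * c * (B * B)) = τ (c * d * (d * c * (B * B))) := by simp only [mul_assoc]
      _ = τ (d * c * (B * B) * (c * d)) := hτ.comm _ _
      _ = _ := by simp only [mul_assoc]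
  have e : A ^ s = ∑ i, a i * A ^ (s - 1) := by
    rw [← Finset.sum_mul, ← hA]
    conv_rhs => arg 1; rw [← CFC.rpow_one A hsum.nonneg]
    rw [← CFC.rpow_add hsum.isUnit, add_sub_cancel]
  rw [e, map_sum, Complex.re_sum]
  exact Finset.sum_le_sum fun i _ => key i

/-- The tangent bound of the logarithm. -/
theorem log_le_rpow {a : F} (ha : IsStrictlyPositive a) {s : ℝ} (hs : 0 < s) :
    (τ (CFC.log a)).re ≤ Real.log (τ (a ^ s)).re / s := by
  rcases subsingleton_or_nontrivial F with hF | hF
  · have := hτ.map_one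
    rw [Subsingleton.elim (1 : F) 0, map_zero] at this
    exact absurd this zero_ne_one
  set c := (τ (a ^ s)).re with hc
  have hpos : ∀ t ∈ spectrum ℝ a, 0 < t := fun t ht => ha.spectrum_pos ht
  have hcf : ContinuousOn (fun t : ℝ => t ^ s) (spectrum ℝ a) :=
    (Real.continuous_rpow_const hs.le).continuousOn
  have hlog : ContinuousOn Real.log (spectrum ℝ a) :=
    Real.continuousOn_log.mono fun t ht => (hpos t ht).ne'
  have hrp : a ^ s = cfc (fun t : ℝ => t ^ s) a := CFC.rpow_eq_cfc_real ha.nonneg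
  have hc0 : 0 < c := by
    obtain ⟨t₀, ht₀, hmin⟩ := (ContinuousFunctionalCalculus.isCompact_spectrum a).exists_isMinOn
      (ContinuousFunctionalCalculus.spectrum_nonempty a ha.isSelfAdjoint) hcf
    have h1 : algebraMap ℝ F (t₀ ^ s) ≤ a ^ s := by
      rw [hrp]
      exact algebraMap_le_cfc _ _ _ (fun t ht => hmin ht) hcf ha.isSelfAdjoint
    have h2 := hτ.mono h1
    rw [hτ.map_algebraMap, Complex.ofReal_re, ← hc] at h2
    exact (Real.rpow_pos_of_pos (hpos t₀ ht₀) s).trans_le h2
  set k := Real.log c - 1 with hk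
  have h1 : CFC.log a ≤ cfc (fun t => c⁻¹ / s * t ^ s + k / s) a := by
    rw [CFC.log]
    refine cfc_mono (fun t ht => ?_) hlog ((continuousOn_const.mul hcf).add continuousOn_const)
    have h2 := Real.log_le_sub_one_of_pos (div_pos (Real.rpow_pos_of_pos (hpos t ht) s) hc0)
    rw [Real.log_div (Real.rpow_pos_of_pos (hpos t ht) s).ne' hc0.ne',
      Real.log_rpow (hpos t ht)] at h2
    rw [show c⁻¹ / s * t ^ s + k / s = (t ^ s / c + k) / s by rw [div_eq_mul_inv (t ^ s)]; ring,
      le_div_iff₀ hs]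
    linarith
  refine (hτ.mono h1).trans (le_of_eq ?_)
  rw [cfc_add a (fun t : ℝ => c⁻¹ / s * t ^ s) (fun _ => k / s) (continuousOn_const.mul hcf)
      continuousOn_const,
    cfc_const_mul (c⁻¹ / s) (fun t : ℝ => t ^ s) a hcf, cfc_const (k / s) a ha.isSelfAdjoint,
    map_add, Complex.add_re, IsTrace.re_smul (τ := τ), ← hrp, hτ.map_algebraMap, Complex.ofReal_re, ← hc, hk]
  field_simp
  ring

/-- Nearby positive invertibles have nearby square roots in the two-seminorm. -/
theorem sqrt_ratio {a b : F} (ha : IsStrictlyPositive a) (hb : IsStrictlyPositive b) {e : ℝ}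
    (he : 0 ≤ e) (he1 : e ≤ 1 / 2) (h1 : (1 - e) • a ≤ b) (h2 : b ≤ (1 + e) • a) :
    tn τ (CFC.sqrt b * Ring.inverse (CFC.sqrt a) - 1) ≤ 3 * Real.sqrt e := by
  have hsa : IsStrictlyPositive (CFC.sqrt a) := IsStrictlyPositive.sqrt a ha
  set i := CFC.sqrt a with hi
  set r := CFC.sqrt b with hr
  set j := Ring.inverse i with hj
  have hj0 : 0 ≤ j := hsa.ringInverse.nonneg
  have hjs : IsSelfAdjoint j := hj0.isSelfAdjoint
  have hrs : IsSelfAdjoint r := (CFC.sqrt_nonneg b).isSelfAdjoint
  have hji : j * i = 1 := Ring.inverse_mul_cancel i hsa.isUnit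
  have hij : i * j = 1 := Ring.mul_inverse_cancel i hsa.isUnit
  have u : (τ (star (r * j) * (r * j))).re ≤ 1 + e := by
    have h3 := hτ.mono (star_left_conjugate_le_conjugate h2 j)
    rw [mul_smul_comm, smul_mul_assoc, IsTrace.re_smul (τ := τ)] at h3
    have e1 : star j * a * j = 1 := by
      rw [hjs.star_eq, ← CFC.sqrt_mul_sqrt_self a ha.nonneg, ← hi, ← mul_assoc j, hji, one_mul, hij]
    have e2 : star (r * j) * (r * j) = star j * b * j := by
      rw [star_mul, hrs.star_eq, mul_assoc, ← mul_assoc r r j, hr,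
        CFC.sqrt_mul_sqrt_self b hb.nonneg, ← mul_assoc]
    rw [e1, hτ.map_one, Complex.one_re, mul_one] at h3
    rwa [e2]
  have l : Real.sqrt (1 - e) ≤ (τ (r * j)).re := by
    have h0 : 0 ≤ Real.sqrt (1 - e) := Real.sqrt_nonneg _
    have h3 : Real.sqrt (1 - e) • i ≤ r := by
      refine le_of_eq_of_le (CFC.sqrt_unique ?_ (smul_nonneg h0 hsa.nonneg)).symm
        (CFC.sqrt_le_sqrt _ _ h1)
      rw [smul_mul_smul_comm, Real.mul_self_sqrt (by linarith), hi,
        CFC.sqrt_mul_sqrt_self a ha.nonneg]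
    have h4 := hτ.mul_le_mul_left hj0 h3
    rw [mul_smul_comm, IsTrace.re_smul (τ := τ), hji, hτ.map_one, Complex.one_re, mul_one] at h4
    rwa [hτ.comm r j]
  have hl : 1 - e ≤ Real.sqrt (1 - e) := Real.le_sqrt_of_sq_le (by nlinarith)
  have hst : (τ (star (r * j))).re = (τ (r * j)).re := by rw [hτ.map_star]; simp
  refine Real.sqrt_le_iff.2 ⟨by positivity, ?_⟩
  rw [mul_pow, Real.sq_sqrt he]
  simp only [star_sub, star_one, mul_sub, sub_mul, mul_one, one_mul, map_sub, Complex.sub_re,
    hτ.map_one, Complex.one_re, hst]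
  linarith

omit [PartialOrder F] [StarOrderedRing F] in
/-- The imaginary exponential is Lipschitz in the two-seminorm. -/
theorem exp_lip {a b : F} (ha : IsSelfAdjoint a) (hb : IsSelfAdjoint b) :
    tn τ (exp (Complex.I • a) - exp (Complex.I • b)) ≤ tn τ (a - b) := by
  let : NormedAlgebra ℚ F := .restrictScalars ℚ ℂ F
  let : PartialOrder F := CStarAlgebra.spectralOrder F
  have : StarOrderedRing F := CStarAlgebra.spectralOrderedRing F
  set A := Complex.I • a with hA
  set B := Complex.I • b with hB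
  have hstA : star A = -A := by
    rw [hA, star_smul, ha.star_eq, Complex.star_def, Complex.conj_I, neg_smul]
  have hstB : star B = -B := by
    rw [hB, star_smul, hb.star_eq, Complex.star_def, Complex.conj_I, neg_smul]
  have hnorm : ∀ (x : F) (t : ℝ), star x = -x → ‖exp (t • x)‖ ≤ 1 := fun x t hx => by
    have h1 : star (exp (t • x)) = exp ((-t) • x) := by
      rw [star_exp, star_smul, hx, star_trivial, smul_neg, neg_smul]
    have h2 := CStarRing.norm_star_mul_self (x := exp (t • x))
    rw [h1, ← exp_real_smul_add, neg_add_cancel, zero_smul, exp_zero] at h2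
    rcases subsingleton_or_nontrivial F with hF | hF
    · rw [Subsingleton.elim (exp (t • x)) 0, norm_zero]; exact zero_le_one
    · rw [CStarRing.norm_one] at h2
      nlinarith [norm_nonneg (exp (t • x))]
  set φ : ℝ → F := fun t => exp (t • A) * exp (t • (-B)) with hφ
  have dφ : ∀ t, HasDerivAt φ (exp (t • A) * (A - B) * exp (t • (-B))) t := fun t => by
    have := (hasDerivAt_exp_smul_const A t).mul (hasDerivAt_exp_smul_const' (-B) t)
    refine this.congr_deriv ?_
    noncomm_ring
  set y := φ 1 - 1 with hy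
  have hstB' : star (-B) = -(-B) := by rw [star_neg, hstB]
  have hAB : tn τ (A - B) = tn τ (a - b) := by
    rw [hA, hB, ← smul_sub, hτ.tn_smul, Complex.norm_I, one_mul]
  have hbd : ∀ t, ‖τ (star y * (exp (t • A) * (A - B) * exp (t • (-B))))‖ ≤
      tn τ y * tn τ (a - b) := fun t => by
    refine (hτ.norm_le _ _).trans (mul_le_mul_of_nonneg_left ?_ (hτ.tn_nonneg _))
    refine (hτ.tn_mul_le_right _ _).trans ((mul_le_of_le_one_right (hτ.tn_nonneg _)
      (hnorm _ t hstB')).trans ?_)
    exact ((hτ.tn_mul_le_left _ _).trans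
      (mul_le_of_le_one_left (hτ.tn_nonneg _) (hnorm _ t hstA))).trans hAB.le
  have hmv := norm_image_sub_le_of_norm_deriv_le_segment_01' (f := fun t => τ (star y * φ t))
    (fun t _ => (hτ.hasDerivAt_comp ((dφ t).const_mul (star y))).hasDerivWithinAt)
    fun t _ => hbd t
  simp only [← map_sub, ← mul_sub] at hmv
  rw [show φ 0 = 1 by simp [hφ], ← hy] at hmv
  have hy2 : tn τ y ≤ tn τ (a - b) := by
    have h1 : tn τ y ^ 2 ≤ tn τ y * tn τ (a - b) := by
      rw [hτ.tn_sq]; exact (Complex.re_le_norm _).trans hmv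
    rcases (hτ.tn_nonneg y).eq_or_lt with h0 | h0
    · rw [← h0]; exact hτ.tn_nonneg _
    · exact le_of_mul_le_mul_left (by rwa [← sq]) h0
  have e : exp A - exp B = y * exp ((1 : ℝ) • B) := by
    rw [hy, hφ, sub_mul, mul_assoc, smul_neg, ← neg_smul, ← exp_real_smul_add, neg_add_cancel, zero_smul,
      exp_zero, mul_one, one_mul, one_smul, one_smul]
  rw [e]
  exact ((hτ.tn_mul_le_right _ _).trans (mul_le_of_le_one_right (hτ.tn_nonneg _)
    (hnorm B 1 hstB))).trans hy2

end Vale.Agent.P095.Amenable
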