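import Vale.Agent.P095.Amenable.Filtration
import Vale.Agent.P095.Amenable.TraceIneq

/-!
# The entropy bound for the defects of Gibbs averages
-/

set_option linter.unusedSectionVars false

open scoped ComplexOrder

namespace Vale.Agent.P095.Amenable

noncomputable section

theorem exp_sub_bound {x : ℝ} (hx : |x| ≤ 1) :
    |Real.exp x - (1 + x + x ^ 2 / 2)| ≤ |x| ^ 3 := by
  have h := Real.exp_bound hx (n := 3) (by norm_num)
  norm_num [Finset.sum_range_succ, Nat.factorial] at h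
  nlinarith [pow_nonneg (abs_nonneg x) 3]

theorem exp_le_quad {x : ℝ} (hx : |x| ≤ 1) : Real.exp x ≤ 1 + x + x ^ 2 := by
  have h := (abs_le.1 (Real.abs_exp_sub_one_sub_id_le hx)).2
  linarith

theorem log_ge_quad {u : ℝ} (hu : |u| ≤ 1 / 2) :
    u - u ^ 2 / 2 - 2 * |u| ^ 3 ≤ Real.log (1 + u) := by
  have h := Real.abs_log_sub_add_sum_range_le (x := -u) (by rw [abs_neg]; linarith) 2
  norm_num [Finset.sum_range_succ] at h
  have hd : |u| ^ 3 / (1 - |u|) ≤ 2 * |u| ^ 3 := by
    rw [div_le_iff₀ (by linarith)]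
    nlinarith [pow_nonneg (abs_nonneg u) 3]
  have := (abs_le.1 h).1
  nlinarith

variable {F : Type*} [CStarAlgebra F] [PartialOrder F] [StarOrderedRing F]

/-- A self-adjoint element of norm at most one has exponential within `‖a‖^3` of the quadratic
Taylor polynomial. -/
theorem norm_ex_sub_le {a : F} (ha : IsSelfAdjoint a) {ε r : ℝ} (hr : |ε| * ‖a‖ ≤ r)
    (hr1 : r ≤ 1) :
    ‖ex ε a - (1 + ε • a + (ε ^ 2 / 2) • (a * a))‖ ≤ r ^ 3 := by
  rcases subsingleton_or_nontrivial F with hs | hs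
  · rw [Subsingleton.elim (ex ε a - _) 0, norm_zero]
    exact pow_nonneg ((mul_nonneg (abs_nonneg ε) (norm_nonneg a)).trans hr) 3
  have e : 1 + ε • a + (ε ^ 2 / 2) • (a * a)
      = cfc (fun t : ℝ => 1 + ε * t + (ε * t) ^ 2 / 2) a := by
    rw [show (fun t : ℝ => 1 + ε * t + (ε * t) ^ 2 / 2)
        = fun t => (1 + ε * t) + (ε ^ 2 / 2) * (t * t) by funext t; ring,
      cfc_add (a := a) (fun t : ℝ => 1 + ε * t) (fun t => (ε ^ 2 / 2) * (t * t)),
      cfc_const_add 1 (fun t : ℝ => ε * t) a, cfc_const_mul_id ε a,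
      cfc_const_mul (ε ^ 2 / 2) (fun t : ℝ => t * t) a,
      cfc_mul (fun t : ℝ => t) (fun t => t) a, cfc_id' ℝ a, map_one]
  have h0 : 0 ≤ r := (mul_nonneg (abs_nonneg ε) (norm_nonneg a)).trans hr
  rw [ex, e, ← cfc_sub _ _ a (by fun_prop) (by fun_prop)]
  refine norm_cfc_le (pow_nonneg h0 3) fun t ht => ?_
  have h1 : |ε * t| ≤ r := by
    rw [abs_mul]
    exact (mul_le_mul_of_nonneg_left (spectrum.norm_le_norm_of_mem ht) (abs_nonneg ε)).trans hr
  rw [Real.norm_eq_abs]
  exact (exp_sub_bound (h1.trans hr1)).trans (pow_le_pow_left₀ (abs_nonneg _) h1 3)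

variable {τ : F →ₗ[ℂ] ℂ}

/-- Lower bound for the trace of a logarithm near one. -/
theorem trace_log_ge (hτ : IsTrace τ) {u : F} (hu : IsSelfAdjoint u) (hn : ‖u‖ ≤ 1 / 2) :
    (τ u).re - (τ (u * u)).re / 2 - 2 * ‖u‖ ^ 3 ≤ (τ (CFC.log (1 + u))).re := by
  rcases subsingleton_or_nontrivial F with hs | hs
  · simp [Subsingleton.elim u 0]
  have hsp : ∀ t ∈ spectrum ℝ u, |t| ≤ ‖u‖ := fun t ht => spectrum.norm_le_norm_of_mem ht
  have hpos : ∀ t ∈ spectrum ℝ u, 0 < 1 + t := fun t ht => by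
    have := abs_le.1 ((hsp t ht).trans hn); linarith
  have hlog : ContinuousOn (fun t : ℝ => Real.log (1 + t)) (spectrum ℝ u) :=
    ContinuousOn.log (by fun_prop) fun t ht => (hpos t ht).ne'
  have e1 : CFC.log (1 + u) = cfc (fun t : ℝ => Real.log (1 + t)) u := by
    have e : (1 : F) + u = cfc (fun t : ℝ => 1 + t) u := by
      rw [cfc_const_add 1 (fun t : ℝ => t) u, cfc_id' ℝ u, map_one]
    rw [CFC.log, e, ← cfc_comp' Real.log (fun t : ℝ => 1 + t) u (ContinuousOn.log continuousOn_id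
      fun x hx => by
        obtain ⟨t, ht, rfl⟩ := hx
        exact (hpos t ht).ne')]
  have e2 : cfc (fun t : ℝ => (t - t ^ 2 / 2) - 2 * ‖u‖ ^ 3) u
      = u - (1 / 2 : ℝ) • (u * u) - algebraMap ℝ F (2 * ‖u‖ ^ 3) := by
    rw [show (fun t : ℝ => (t - t ^ 2 / 2) - 2 * ‖u‖ ^ 3)
        = fun t => (t - (1 / 2) * (t * t)) - 2 * ‖u‖ ^ 3 by funext t; ring,
      cfc_sub (fun t : ℝ => t - (1 / 2) * (t * t)) (fun _ => 2 * ‖u‖ ^ 3) u,
      cfc_sub (fun t : ℝ => t) (fun t => (1 / 2) * (t * t)) u,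
      cfc_const_mul (1 / 2 : ℝ) (fun t : ℝ => t * t) u, cfc_mul (fun t : ℝ => t) (fun t => t) u,
      cfc_id' ℝ u, cfc_const (2 * ‖u‖ ^ 3) u]
  have hle : cfc (fun t : ℝ => (t - t ^ 2 / 2) - 2 * ‖u‖ ^ 3) u ≤ CFC.log (1 + u) := by
    rw [e1]
    refine cfc_mono (fun t ht => ?_) (by fun_prop) hlog
    have h1 := log_ge_quad ((hsp t ht).trans hn)
    have h2 : |t| ^ 3 ≤ ‖u‖ ^ 3 := pow_le_pow_left₀ (abs_nonneg _) (hsp t ht) 3
    linarith
  have := hτ.mono hle
  rw [e2, map_sub, map_sub, Complex.sub_re, Complex.sub_re, hτ.map_algebraMap, Complex.ofReal_re,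
    ← Complex.coe_smul, map_smul, smul_eq_mul, Complex.re_ofReal_mul] at this
  linarith

variable {ι : Type*} {s : Finset ι} {f : ℕ → ι → F} {C : ℕ → StarSubalgebra ℂ F} {b : ℝ}
  {k : ℕ} {w : ι → ℝ}

theorem avg_norm_le {l : ℕ} (hw : ∀ g ∈ s, 0 ≤ w g) (ε : ℝ)
    (hf : ∀ g ∈ s, IsSelfAdjoint (psum f l g)) (hS : IsStrictlyPositive (part s w ε f l))
    {x : ι → F} (hx : ∀ g ∈ s, IsSelfAdjoint (x g)) {M : ℝ} (hM : 0 ≤ M)
    (hn : ∀ g ∈ s, ‖x g‖ ≤ M) : ‖avg s w ε f l x‖ ≤ M := by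
  rcases subsingleton_or_nontrivial F with hsub | hsub
  · rw [Subsingleton.elim (avg s w ε f l x) 0, norm_zero]; exact hM
  have hc : ∀ c : ℝ, avg s w ε f l (fun _ => algebraMap ℝ F c) = algebraMap ℝ F c := fun c => by
    have : (fun _ : ι => algebraMap ℝ F c) = c • fun _ : ι => (1 : F) := by
      funext g; simp [Algebra.algebraMap_eq_smul_one]
    rw [this, avg_smul_real, avg_one ε f l hf hS, Algebra.algebraMap_eq_smul_one]
  have hsa : IsSelfAdjoint (avg s w ε f l x) := by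
    rw [isSelfAdjoint_iff, star_avg]
    exact avg_congr s w ε f l fun g hg => (hx g hg).star_eq
  have h1 := avg_le_avg hw ε f l (x := x) (y := fun _ => algebraMap ℝ F M) fun g hg =>
    (hx g hg).le_algebraMap_norm_self.trans (algebraMap_mono F (hn g hg))
  have h2 := avg_le_avg hw ε f l (x := fun _ => algebraMap ℝ F (-M)) (y := x) fun g hg => by
    refine le_trans ?_ (hx g hg).neg_algebraMap_norm_le_self
    rw [map_neg, neg_le_neg_iff]
    exact algebraMap_mono F (hn g hg)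
  rw [hc] at h1 h2
  rw [map_neg] at h2
  rw [← cfc_id ℝ (avg s w ε f l x) hsa]
  refine norm_cfc_le hM fun t ht => ?_
  rw [Real.norm_eq_abs, id, abs_le]
  rw [← map_neg] at h2
  exact ⟨(algebraMap_le_iff_le_spectrum hsa).1 h2 t ht,
    (le_algebraMap_iff_spectrum_le hsa).1 h1 t ht⟩

/-- One step of the entropy. -/
theorem log_part_succ (h : Steps τ s f C b k) (hτ : IsTrace τ) (hw : ∀ g ∈ s, 0 ≤ w g) {g₀ : ι}
    (hg₀ : g₀ ∈ s) (hpos : 0 < w g₀) {ε : ℝ} {l : ℕ} (hl : l < k) (hε : |ε| * b ≤ 1 / 8) :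
    (τ (CFC.log (part s w ε f l))).re + ε ^ 2 / 2 * defect τ s w ε f l - 50 * (|ε| * b) ^ 3 ≤
      (τ (CFC.log (part s w ε f (l + 1)))).re := by
  set S := part s w ε f l with hSdef
  have hsa : ∀ g ∈ s, IsSelfAdjoint (psum f l g) := fun g hg => h.psum_selfAdjoint hl.le hg
  have hS : IsStrictlyPositive S := part_isStrictlyPositive hw hg₀ hpos ε f l (hsa _ hg₀)
  set r := |ε| * b with hr
  have hb : 0 ≤ b := (norm_nonneg _).trans (h.norm_le l hl g₀ hg₀)
  have hr0 : 0 ≤ r := mul_nonneg (abs_nonneg _) hb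
  have hfn : ∀ g ∈ s, |ε| * ‖f l g‖ ≤ r := fun g hg =>
    mul_le_mul_of_nonneg_left (h.norm_le l hl g hg) (abs_nonneg _)
  set R : ι → F := fun g => ex ε (f l g) - (1 + ε • f l g + (ε ^ 2 / 2) • (f l g * f l g)) with hR
  have hRsa : ∀ g ∈ s, IsSelfAdjoint (R g) := fun g hg => by
    have := h.selfAdjoint l hl g hg
    refine (ex_selfAdjoint _ _).sub (((IsSelfAdjoint.one F).add ((IsSelfAdjoint.all ε).smul this)).add
      ((IsSelfAdjoint.all _).smul ?_))
    exact this.commute_iff this |>.1 (Commute.refl _)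
  have hRn : ∀ g ∈ s, ‖R g‖ ≤ r ^ 3 := fun g hg =>
    norm_ex_sub_le (h.selfAdjoint l hl g hg) (hfn g hg) (by linarith)
  set E := avg s w ε f l (f l) with hE
  set E2 := avg s w ε f l (fun g => f l g * f l g) with hE2
  set ER := avg s w ε f l R with hER
  set u : F := ε • E + (ε ^ 2 / 2) • E2 + ER with hu
  have hX : avg s w ε f l (fun g => ex ε (f l g)) = 1 + u := by
    have e : (fun g => ex ε (f l g))
        = (fun _ => (1 : F)) + (ε • f l + ((ε ^ 2 / 2) • (fun g => f l g * f l g) + R)) := by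
      funext g; simp [hR]; abel
    rw [e, avg_add, avg_add, avg_add, avg_one ε f l hsa hS, avg_smul_real, avg_smul_real, hu]
    abel
  have nE : ‖E‖ ≤ b := avg_norm_le hw ε hsa hS (h.selfAdjoint l hl) hb (h.norm_le l hl)
  have nE2 : ‖E2‖ ≤ b * b := avg_norm_le hw ε hsa hS (fun g hg => by
      have := h.selfAdjoint l hl g hg
      exact this.commute_iff this |>.1 (Commute.refl _)) (mul_nonneg hb hb) (fun g hg =>
    (norm_mul_le _ _).trans (mul_le_mul (h.norm_le l hl g hg) (h.norm_le l hl g hg)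
      (norm_nonneg _) hb))
  have nER : ‖ER‖ ≤ r ^ 3 := avg_norm_le hw ε hsa hS hRsa (by positivity) hRn
  have saE : IsSelfAdjoint E := by
    rw [hE, isSelfAdjoint_iff, star_avg]
    exact avg_congr s w ε f l fun g hg => (h.selfAdjoint l hl g hg).star_eq
  have hrest : ‖(ε ^ 2 / 2) • E2 + ER‖ ≤ r ^ 2 := by
    refine (norm_add_le _ _).trans ?_
    rw [norm_smul, Real.norm_eq_abs, abs_of_nonneg (by positivity : (0 : ℝ) ≤ ε ^ 2 / 2)]
    have e3 : r ^ 3 ≤ r ^ 2 / 2 := by nlinarith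
    have e4 : ε ^ 2 / 2 * ‖E2‖ ≤ r ^ 2 / 2 := by
      rw [hr, mul_pow, sq_abs]; nlinarith [sq_nonneg ε]
    linarith
  have hlin : ‖ε • E‖ ≤ r := by
    rw [norm_smul, Real.norm_eq_abs]; exact mul_le_mul_of_nonneg_left nE (abs_nonneg _)
  have hun : ‖u‖ ≤ 2 * r := by
    rw [hu, add_assoc]
    exact (norm_add_le _ _).trans (by nlinarith)
  have husa : IsSelfAdjoint u := by
    have h1 : IsSelfAdjoint (avg s w ε f l (fun g => ex ε (f l g))) := by
      rw [isSelfAdjoint_iff, star_avg]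
      exact avg_congr s w ε f l fun g _ => (ex_selfAdjoint _ _).star_eq
    rw [hX] at h1
    simpa using h1.sub (IsSelfAdjoint.one F)
  -- the conjugation identity
  have hXpos : IsStrictlyPositive (1 + u) := by
    have h1 : algebraMap ℝ F (1 - 2 * r) ≤ 1 + u := by
      have := husa.neg_algebraMap_norm_le_self
      have e1 : algebraMap ℝ F (1 - 2 * r) ≤ algebraMap ℝ F (1 - ‖u‖) :=
        algebraMap_mono F (by linarith)
      refine e1.trans ?_
      rw [map_sub, map_one, sub_eq_add_neg]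
      exact add_le_add le_rfl this
    exact (isStrictlyPositive_one.smul (show (0 : ℝ) < 1 - 2 * r by linarith)).of_le
      (by rwa [← Algebra.algebraMap_eq_smul_one])
  have hconj : CFC.sqrt S * (1 + u) * CFC.sqrt S = part s w ε f (l + 1) := by
    have hq : CFC.sqrt S * isq S = 1 ∧ isq S * CFC.sqrt S = 1 := by
      rw [CFC.sqrt_eq_real_sqrt S, isq, cfcₙ_eq_cfc]
      have hsp : ∀ t ∈ spectrum ℝ S, Real.sqrt t ≠ 0 := fun t ht =>
        (Real.sqrt_pos.2 (hS.spectrum_pos ht)).ne'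
      have hc : ContinuousOn (fun t : ℝ => (Real.sqrt t)⁻¹) (spectrum ℝ S) :=
        Real.continuous_sqrt.continuousOn.inv₀ hsp
      constructor
      · rw [← cfc_mul _ _ S (by fun_prop) hc,
          cfc_congr (g := fun _ => (1 : ℝ)) fun t ht => mul_inv_cancel₀ (hsp t ht),
          cfc_const_one ℝ S]
      · rw [← cfc_mul _ _ S hc (by fun_prop),
          cfc_congr (g := fun _ => (1 : ℝ)) fun t ht => inv_mul_cancel₀ (hsp t ht),
          cfc_const_one ℝ S]
    rw [← hX, avg, ← hSdef, h.part_succ hl w ε]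
    rw [show CFC.sqrt S * (isq S * mom s w ε f l (fun g => ex ε (f l g)) * isq S) * CFC.sqrt S
        = (CFC.sqrt S * isq S) * mom s w ε f l (fun g => ex ε (f l g)) * (isq S * CFC.sqrt S) by
      simp only [mul_assoc]]
    rw [hq.1, hq.2, one_mul, mul_one]
  have hlog := log_conj hτ hS hXpos
  rw [hconj] at hlog
  have hge := trace_log_ge hτ husa (by linarith)
  -- traces of the pieces
  have tE : τ E = 0 := by
    have := h.trace_mul_avg hτ hl.le w ε (fun X hX g hg => h.centred l hl X hX g hg)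
      (X := 1) (one_mem _)
    rwa [one_mul] at this
  have tu : (τ u).re = ε ^ 2 / 2 * (τ E2).re + (τ ER).re := by
    rw [hu, map_add, map_add, ← Complex.coe_smul, ← Complex.coe_smul, map_smul, map_smul, tE,
      smul_eq_mul, smul_eq_mul, mul_zero, zero_add, Complex.add_re, Complex.re_ofReal_mul]
  have tR : |(τ ER).re| ≤ r ^ 3 :=
    (Complex.abs_re_le_norm _).trans ((hτ.norm_le_norm _).trans nER)
  have tuu : (τ (u * u)).re ≤ ε ^ 2 * (τ (E * E)).re + 3 * r ^ 3 := by
    have e : u * u = (ε ^ 2) • (E * E) + ((ε • E) * ((ε ^ 2 / 2) • E2 + ER)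
        + ((ε ^ 2 / 2) • E2 + ER) * u) := by
      have key : ∀ a c : F, (a + c) * (a + c) = a * a + (a * c + c * (a + c)) := fun a c => by
        noncomm_ring
      rw [show (ε ^ 2) • (E * E) = (ε • E) * (ε • E) by rw [smul_mul_smul_comm, sq],
        show u = ε • E + ((ε ^ 2 / 2) • E2 + ER) from add_assoc _ _ _]
      exact key _ _
    rw [e, map_add, Complex.add_re, ← Complex.coe_smul, map_smul, smul_eq_mul,
      Complex.re_ofReal_mul]
    have e2 := ((Complex.re_le_norm _).trans (hτ.norm_le_norm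
      ((ε • E) * ((ε ^ 2 / 2) • E2 + ER) + ((ε ^ 2 / 2) • E2 + ER) * u))).trans
      ((norm_add_le _ _).trans (add_le_add ((norm_mul_le _ _).trans
        (mul_le_mul hlin hrest (norm_nonneg _) hr0)) ((norm_mul_le _ _).trans
        (mul_le_mul hrest hun (norm_nonneg _) (sq_nonneg r)))))
    linarith
  have hu3 : ‖u‖ ^ 3 ≤ 8 * r ^ 3 := by
    calc ‖u‖ ^ 3 ≤ (2 * r) ^ 3 := pow_le_pow_left₀ (norm_nonneg _) hun 3
      _ = 8 * r ^ 3 := by ring
  have hd : defect τ s w ε f l = (τ E2).re - (τ (E * E)).re := rfl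
  rw [hd]
  have := abs_le.1 tR
  nlinarith

theorem trace_part_rpow_le (h : Steps τ s f C b k) (hτ : IsTrace τ) (hw : ∀ g ∈ s, 0 ≤ w g)
    {g₀ : ι} (hg₀ : g₀ ∈ s) (hpos : 0 < w g₀) (ε : ℝ) {t : ℝ} (ht : 0 < t) (ht1 : t ≤ 1)
    (hε : |t * ε| * b ≤ 1) :
    (τ (part s w ε f k ^ t)).re ≤ (1 + (t * ε) ^ 2 * b ^ 2) ^ k * ∑ g ∈ s, w g ^ t := by
  set c := t * ε with hc
  have step : ∀ l, l ≤ k → ∀ g ∈ s, (τ (ex c (psum f l g))).re ≤ (1 + c ^ 2 * b ^ 2) ^ l := by
    intro l
    induction l with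
    | zero => intro _ g _; rw [ex_zero c (by simp [psum]), hτ.map_one]; simp
    | succ l ih =>
      intro hl g hg
      have hb : 0 ≤ b := (norm_nonneg _).trans (h.norm_le l hl g hg)
      have hfs := h.selfAdjoint l hl g hg
      have hps := h.psum_selfAdjoint (Nat.le_of_succ_le hl) hg
      have hcomm := h.commute l hl _ (h.psum_mem (Nat.le_of_succ_le hl) hg) g hg
      rw [psum, Finset.sum_range_succ, ← psum, ex_add_of_commute c hps hfs hcomm]
      rcases subsingleton_or_nontrivial F with hs | hs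
      · rw [Subsingleton.elim (ex c (psum f l g) * ex c (f l g)) (1 : F), hτ.map_one]
        simp only [Complex.one_re]
        exact one_le_pow₀ (by nlinarith [sq_nonneg (c * b)])
      have hle : ex c (f l g) ≤ algebraMap ℝ F (1 + c ^ 2 * b ^ 2) + c • f l g := by
        have e : algebraMap ℝ F (1 + c ^ 2 * b ^ 2) + c • f l g
            = cfc (fun x : ℝ => (1 + c ^ 2 * b ^ 2) + c * x) (f l g) := by
          rw [cfc_const_add (1 + c ^ 2 * b ^ 2) (fun x : ℝ => c * x) (f l g),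
            cfc_const_mul_id c (f l g)]
        rw [e, ex]
        refine cfc_mono (fun x hx => ?_) (by fun_prop) (by fun_prop)
        have h1 : |x| ≤ b := (spectrum.norm_le_norm_of_mem hx).trans (h.norm_le l hl g hg)
        have h2 : |c * x| ≤ 1 := by
          rw [abs_mul]; exact (mul_le_mul_of_nonneg_left h1 (abs_nonneg c)).trans hε
        have h3 := exp_le_quad h2
        have h4 : (c * x) ^ 2 ≤ c ^ 2 * b ^ 2 := by
          rw [← sq_abs (c * x), abs_mul, mul_pow, sq_abs]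
          exact mul_le_mul_of_nonneg_left (pow_le_pow_left₀ (abs_nonneg x) h1 2) (sq_nonneg c)
        linarith
      have hmem := ex_mem (h.closed l) c (h.psum_mem (Nat.le_of_succ_le hl) hg)
      have e1 := hτ.mul_le_mul_left (ex_nonneg c (psum f l g)) hle
      rw [mul_add, map_add, mul_smul_comm, ← Complex.coe_smul, map_smul,
        h.centred l hl _ hmem g hg, smul_zero, add_zero, Algebra.algebraMap_eq_smul_one,
        mul_smul_comm, mul_one, ← Complex.coe_smul, map_smul, smul_eq_mul,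
        Complex.re_ofReal_mul] at e1
      refine e1.trans ?_
      rw [pow_succ' (1 + c ^ 2 * b ^ 2) l]
      exact mul_le_mul_of_nonneg_left (ih (Nat.le_of_succ_le hl) g hg) (by positivity)
  have hsum : IsStrictlyPositive (∑ g : s, w g • ex ε (psum f k g)) := by
    rw [Finset.sum_coe_sort s fun g => w g • ex ε (psum f k g)]
    exact part_isStrictlyPositive hw hg₀ hpos ε f k (h.psum_selfAdjoint le_rfl hg₀)
  have hr := rotfeld hτ (fun g : s => w g • ex ε (psum f k g))
    (fun g => smul_nonneg (hw g g.2) (ex_nonneg _ _)) hsum ht ht1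
  rw [Finset.sum_coe_sort s fun g => w g • ex ε (psum f k g),
    Finset.sum_coe_sort s fun g => (τ ((w g • ex ε (psum f k g)) ^ t)).re] at hr
  refine hr.trans ?_
  rw [Finset.mul_sum]
  refine Finset.sum_le_sum fun g hg => ?_
  have hps := h.psum_selfAdjoint le_rfl hg
  have e : (w g • ex ε (psum f k g)) ^ t = (w g ^ t) • ex c (psum f k g) := by
    rcases subsingleton_or_nontrivial F with hs | hs
    · exact Subsingleton.elim _ _
    rw [ex, ← cfc_const_mul (w g) (fun x : ℝ => Real.exp (ε * x)) (psum f k g),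
      CFC.rpow_eq_cfc_real (cfc_nonneg fun x _ => mul_nonneg (hw g hg) (Real.exp_nonneg _)),
      ← cfc_comp' (fun y : ℝ => y ^ t) (fun x : ℝ => w g * Real.exp (ε * x)) (psum f k g)
        (Real.continuous_rpow_const ht.le).continuousOn,
      ex, ← cfc_const_mul (w g ^ t) (fun x : ℝ => Real.exp (c * x)) (psum f k g)]
    refine cfc_congr fun x _ => ?_
    show (w g * Real.exp (ε * x)) ^ t = w g ^ t * Real.exp (c * x)
    rw [Real.mul_rpow (hw g hg) (Real.exp_nonneg _), ← Real.exp_mul, hc]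
    ring_nf
  rw [e, ← Complex.coe_smul, map_smul, smul_eq_mul, Complex.re_ofReal_mul, mul_comm]
  exact mul_le_mul_of_nonneg_right (step k le_rfl g hg) (Real.rpow_nonneg (hw g hg) _)

/-- **The entropy bound.** -/
theorem sum_defect_le (h : Steps τ s f C b k) (hτ : IsTrace τ) (hw : ∀ g ∈ s, 0 ≤ w g)
    {g₀ : ι} (hg₀ : g₀ ∈ s) (hone : 1 ≤ w g₀) {ε : ℝ} (hε0 : ε ≠ 0) (hb : 0 ≤ b)
    (hε : |ε| * b ≤ 1 / 8) {t : ℝ} (ht : 0 < t) (ht1 : t ≤ 1) :
    ∑ l ∈ Finset.range k, defect τ s w ε f l ≤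
      2 * Real.log (∑ g ∈ s, w g ^ t) / (t * ε ^ 2) + 2 * k * (t * b ^ 2)
        + 100 * k * (|ε| * b ^ 3) := by
  have hpos : 0 < w g₀ := by linarith
  have hgeo : ∀ n, n ≤ k → (τ (CFC.log (part s w ε f 0))).re
      + ε ^ 2 / 2 * ∑ l ∈ Finset.range n, defect τ s w ε f l - n * (50 * (|ε| * b) ^ 3) ≤
      (τ (CFC.log (part s w ε f n))).re := by
    intro n
    induction n with
    | zero => intro _; simp
    | succ n ih =>
      intro hn
      have h1 := ih (Nat.le_of_succ_le hn)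
      have h2 := log_part_succ h hτ hw hg₀ hpos hn hε
      rw [Finset.sum_range_succ]
      push_cast
      linarith
  have h0 : 0 ≤ (τ (CFC.log (part s w ε f 0))).re := by
    have e : part s w ε f 0 = algebraMap ℝ F (∑ g ∈ s, w g) := by
      rw [part, Algebra.algebraMap_eq_smul_one, Finset.sum_smul]
      exact Finset.sum_congr rfl fun g _ => by rw [ex_zero ε (by simp [psum])]
    rcases subsingleton_or_nontrivial F with hs | hs
    · simp [Subsingleton.elim (CFC.log (part s w ε f 0)) 0]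
    rw [e, CFC.log_algebraMap, hτ.map_algebraMap, Complex.ofReal_re]
    exact Real.log_nonneg (hone.trans (Finset.single_le_sum hw hg₀))
  have htε : |t * ε| * b ≤ 1 := by
    rw [abs_mul, abs_of_pos ht, mul_assoc]
    have := mul_nonneg (abs_nonneg ε) hb
    nlinarith
  have hup := trace_part_rpow_le h hτ hw hg₀ hpos ε ht ht1 htε
  have hS := part_isStrictlyPositive hw hg₀ hpos ε f k (h.psum_selfAdjoint le_rfl hg₀)
  have hlog := log_le_rpow hτ hS ht
  set W := ∑ g ∈ s, w g ^ t with hW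
  have hW1 : 1 ≤ W := (Real.one_le_rpow hone ht.le).trans
    (Finset.single_le_sum (f := fun g => w g ^ t) (fun g hg => Real.rpow_nonneg (hw g hg) _) hg₀)
  have hub : Real.log (τ (part s w ε f k ^ t)).re ≤
      k * ((t * ε) ^ 2 * b ^ 2) + Real.log W := by
    rcases le_or_gt (τ (part s w ε f k ^ t)).re 0 with hneg | hp
    · have h2 : Real.log (τ (part s w ε f k ^ t)).re ≤ 0 := by
        have h3 : (τ (part s w ε f k ^ t)).re = 0 := le_antisymm hneg
          (Complex.nonneg_iff.1 (hτ.map_nonneg CFC.rpow_nonneg)).1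
        simp [h3]
      have := Real.log_nonneg hW1
      have : (0 : ℝ) ≤ k * ((t * ε) ^ 2 * b ^ 2) := by positivity
      linarith
    · refine (Real.log_le_log hp hup).trans ?_
      rw [Real.log_mul (by positivity) (by positivity), Real.log_pow]
      have := Real.log_le_sub_one_of_pos (show 0 < 1 + (t * ε) ^ 2 * b ^ 2 by positivity)
      have hk : (0 : ℝ) ≤ k := by positivity
      nlinarith
  have h1 := hgeo k le_rfl
  have h4 := hlog.trans (div_le_div_of_nonneg_right hub ht.le)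
  have h5 : (ε ^ 2 / 2) * ∑ l ∈ Finset.range k, defect τ s w ε f l ≤
      (k * ((t * ε) ^ 2 * b ^ 2) + Real.log W) / t + k * (50 * (|ε| * b) ^ 3) := by linarith
  have he2 : 0 < ε ^ 2 := lt_of_le_of_ne (sq_nonneg _) (Ne.symm (pow_ne_zero 2 hε0))
  rw [← mul_le_mul_iff_of_pos_left (show 0 < ε ^ 2 / 2 by positivity)]
  refine h5.trans (le_of_eq ?_)
  have habs : |ε| ^ 2 = ε ^ 2 := sq_abs ε
  field_simp
  rw [show |ε| ^ 3 = ε ^ 2 * |ε| by rw [← habs]; ring]
  ring

end

end Vale.Agent.P095.Amenable
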