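import Vale.Agent.P095.Amenable.Defs

/-!
# Gibbs averages: definitions and algebra

For commuting increments `f l g` (step `l`, site `g`) the weights of a step are
`w g * exp (ε * (f 0 g + ... + f (l-1) g))`, and the average of a family `x` is normalised by the
inverse square root of their sum.
-/

set_option linter.unusedSectionVars false

open scoped ComplexOrder
open Vale.Agent.P101 (genAlg)

namespace Vale.Agent.P095.Amenable

noncomputable section

variable {F : Type*} [CStarAlgebra F]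

/-- The exponential `exp (c * a)` by functional calculus. -/
def ex (c : ℝ) (a : F) : F := cfc (fun t : ℝ => Real.exp (c * t)) a

theorem ex_selfAdjoint (c : ℝ) (a : F) : IsSelfAdjoint (ex c a) := cfc_predicate _ a

theorem ex_mem {C : StarSubalgebra ℂ F} (hC : IsClosed (C : Set F)) (c : ℝ) {a : F}
    (ha : a ∈ C) : ex c a ∈ C := by
  have : IsClosed (C : Set F) := hC
  exact cfc_mem (hs := hC) _ ha

theorem ex_zero {a : F} (c : ℝ) (ha : a = 0) : ex c a = 1 := by
  subst ha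
  simp [ex]

theorem ex_mul_ex (c d : ℝ) {a : F} (ha : IsSelfAdjoint a) :
    ex c a * ex d a = ex (c + d) a := by
  rw [ex, ex, ex, ← cfc_mul _ _ a (by fun_prop) (by fun_prop)]
  exact cfc_congr fun t _ => by rw [← Real.exp_add, add_mul]

theorem ex_half (c : ℝ) {a : F} (ha : IsSelfAdjoint a) :
    ex (c / 2) a * ex (c / 2) a = ex c a := by rw [ex_mul_ex _ _ ha, add_halves]

theorem ex_eq_exp (c : ℝ) {a : F} (ha : IsSelfAdjoint a) :
    ex c a = NormedSpace.exp (c • a) := by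
  rw [← CFC.real_exp_eq_normedSpace_exp ((IsSelfAdjoint.all c).smul ha),
    ← cfc_comp_smul c Real.exp a]
  rfl

theorem ex_add_of_commute (c : ℝ) {a b : F} (ha : IsSelfAdjoint a) (hb : IsSelfAdjoint b)
    (h : Commute a b) : ex c (a + b) = ex c a * ex c b := by
  let +nondep : NormedAlgebra ℚ F := .restrictScalars ℚ ℝ F
  rw [ex_eq_exp c (ha.add hb), ex_eq_exp c ha, ex_eq_exp c hb, smul_add,
    NormedSpace.exp_add_of_commute ((h.smul_left c).smul_right c)]

theorem ex_add_sandwich (c : ℝ) {a b : F} (ha : IsSelfAdjoint a) (hb : IsSelfAdjoint b)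
    (h : Commute a b) : ex c (a + b) = ex (c / 2) a * ex c b * ex (c / 2) a := by
  have hc : Commute (ex (c / 2) a) (ex c b) := ((h.cfc_real _).symm.cfc_real _).symm
  rw [hc.eq, mul_assoc, ex_half c ha, ex_add_of_commute c ha hb h]
  exact ((h.cfc_real _).symm.cfc_real _).eq.symm

theorem ex_map {E : Type*} [CStarAlgebra E] (φ : F →⋆ₐ[ℂ] E) (c : ℝ) {a : F}
    (ha : IsSelfAdjoint a) : φ (ex c a) = ex c (φ a) :=
  StarAlgHomClass.map_cfc (S := ℂ) φ _ a (by fun_prop)
    (AddMonoidHomClass.continuous_of_bound φ 1 fun x => by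
      rw [one_mul]; exact NonUnitalStarAlgHom.norm_apply_le φ x) ha (ha.map φ)

variable {ι : Type*}

/-- The sum of the increments before step `l`. -/
def psum (f : ℕ → ι → F) (l : ℕ) (g : ι) : F := ∑ i ∈ Finset.range l, f i g

/-- The partition sum at step `l`. -/
def part (s : Finset ι) (w : ι → ℝ) (ε : ℝ) (f : ℕ → ι → F) (l : ℕ) : F :=
  ∑ g ∈ s, w g • ex ε (psum f l g)

/-- The unnormalised average of `x` at step `l`. -/
def mom (s : Finset ι) (w : ι → ℝ) (ε : ℝ) (f : ℕ → ι → F) (l : ℕ) (x : ι → F) : F :=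
  ∑ g ∈ s, w g • (ex (ε / 2) (psum f l g) * x g * ex (ε / 2) (psum f l g))

/-- The inverse square root. -/
def isq (a : F) : F := cfc (fun t : ℝ => (Real.sqrt t)⁻¹) a

/-- The Gibbs average of `x` at step `l`. -/
def avg (s : Finset ι) (w : ι → ℝ) (ε : ℝ) (f : ℕ → ι → F) (l : ℕ) (x : ι → F) : F :=
  isq (part s w ε f l) * mom s w ε f l x * isq (part s w ε f l)

/-- The defect of the increment of step `l`. -/
def defect (τ : F →ₗ[ℂ] ℂ) (s : Finset ι) (w : ι → ℝ) (ε : ℝ) (f : ℕ → ι → F) (l : ℕ) : ℝ :=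
  (τ (avg s w ε f l fun g => f l g * f l g)).re -
    (τ (avg s w ε f l (f l) * avg s w ε f l (f l))).re

theorem isq_selfAdjoint (a : F) : IsSelfAdjoint (isq a) := cfc_predicate _ a

theorem isq_mem {C : StarSubalgebra ℂ F} (hC : IsClosed (C : Set F)) {a : F} (ha : a ∈ C) :
    isq a ∈ C := cfc_mem (hs := hC) _ ha

theorem part_eq_mom (s : Finset ι) (w : ι → ℝ) (ε : ℝ) (f : ℕ → ι → F) (l : ℕ)
    (hf : ∀ g ∈ s, IsSelfAdjoint (psum f l g)) :
    part s w ε f l = mom s w ε f l fun _ => 1 :=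
  Finset.sum_congr rfl fun g hg => by rw [mul_one, ex_half ε (hf g hg)]

theorem mom_add (s : Finset ι) (w : ι → ℝ) (ε : ℝ) (f : ℕ → ι → F) (l : ℕ) (x y : ι → F) :
    mom s w ε f l (x + y) = mom s w ε f l x + mom s w ε f l y := by
  simp [mom, mul_add, add_mul, smul_add, Finset.sum_add_distrib]

theorem mom_smul (s : Finset ι) (w : ι → ℝ) (ε : ℝ) (f : ℕ → ι → F) (l : ℕ) (c : ℂ)
    (x : ι → F) : mom s w ε f l (c • x) = c • mom s w ε f l x := by
  simp [mom, Finset.smul_sum, smul_comm c]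

theorem avg_add (s : Finset ι) (w : ι → ℝ) (ε : ℝ) (f : ℕ → ι → F) (l : ℕ) (x y : ι → F) :
    avg s w ε f l (x + y) = avg s w ε f l x + avg s w ε f l y := by
  simp [avg, mom_add, mul_add, add_mul]

theorem avg_smul (s : Finset ι) (w : ι → ℝ) (ε : ℝ) (f : ℕ → ι → F) (l : ℕ) (c : ℂ)
    (x : ι → F) : avg s w ε f l (c • x) = c • avg s w ε f l x := by
  simp [avg, mom_smul]

theorem avg_smul_real (s : Finset ι) (w : ι → ℝ) (ε : ℝ) (f : ℕ → ι → F) (l : ℕ) (c : ℝ)
    (x : ι → F) : avg s w ε f l (c • x) = c • avg s w ε f l x := by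
  rw [show c • x = (c : ℂ) • x from (Complex.coe_smul c x).symm, avg_smul, Complex.coe_smul]

theorem star_avg (s : Finset ι) (w : ι → ℝ) (ε : ℝ) (f : ℕ → ι → F) (l : ℕ) (x : ι → F) :
    star (avg s w ε f l x) = avg s w ε f l fun g => star (x g) := by
  simp only [avg, mom, star_mul, star_sum, (isq_selfAdjoint _).star_eq, star_smul, star_trivial,
    (ex_selfAdjoint _ _).star_eq, mul_assoc]

theorem avg_congr (s : Finset ι) (w : ι → ℝ) (ε : ℝ) (f : ℕ → ι → F) (l : ℕ) {x y : ι → F}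
    (h : ∀ g ∈ s, x g = y g) : avg s w ε f l x = avg s w ε f l y := by
  simp only [avg, mom]
  rw [Finset.sum_congr rfl fun g hg => by rw [h g hg]]

section Order

variable [PartialOrder F] [StarOrderedRing F]

theorem ex_nonneg (c : ℝ) (a : F) : 0 ≤ ex c a := cfc_nonneg fun t _ => Real.exp_nonneg _

theorem ex_isStrictlyPositive (c : ℝ) {a : F} (ha : IsSelfAdjoint a) :
    IsStrictlyPositive (ex c a) := by
  refine IsStrictlyPositive.iff_of_unital.2 ⟨ex_nonneg c a, ?_⟩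
  exact (isUnit_cfc_iff _ a (by fun_prop) ha).2 fun t _ => (Real.exp_pos _).ne'

theorem part_nonneg {s : Finset ι} {w : ι → ℝ} (hw : ∀ g ∈ s, 0 ≤ w g) (ε : ℝ)
    (f : ℕ → ι → F) (l : ℕ) : 0 ≤ part s w ε f l :=
  Finset.sum_nonneg fun g hg => smul_nonneg (hw g hg) (ex_nonneg _ _)

theorem part_isStrictlyPositive {s : Finset ι} {w : ι → ℝ} (hw : ∀ g ∈ s, 0 ≤ w g) {g₀ : ι}
    (hg₀ : g₀ ∈ s) (hpos : 0 < w g₀) (ε : ℝ) (f : ℕ → ι → F) (l : ℕ)
    (hf : IsSelfAdjoint (psum f l g₀)) : IsStrictlyPositive (part s w ε f l) := by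
  classical
  have h1 : IsStrictlyPositive (w g₀ • ex ε (psum f l g₀)) :=
    (ex_isStrictlyPositive ε hf).smul hpos
  refine h1.of_le ?_
  exact Finset.single_le_sum (f := fun g => w g • ex ε (psum f l g))
    (fun g hg => smul_nonneg (hw g hg) (ex_nonneg _ _)) hg₀

theorem isq_mul_self_mul_isq {a : F} (ha : IsStrictlyPositive a) : isq a * a * isq a = 1 := by
  have hsp : ∀ t ∈ spectrum ℝ a, 0 < t := fun t ht => ha.spectrum_pos ht
  have hc : ContinuousOn (fun t : ℝ => (Real.sqrt t)⁻¹) (spectrum ℝ a) :=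
    Real.continuous_sqrt.continuousOn.inv₀ fun t ht => (Real.sqrt_pos.2 (hsp t ht)).ne'
  have hsa : IsSelfAdjoint a := ha.isSelfAdjoint
  calc isq a * a * isq a
      = cfc (fun t : ℝ => (Real.sqrt t)⁻¹) a * cfc (id : ℝ → ℝ) a *
          cfc (fun t : ℝ => (Real.sqrt t)⁻¹) a := by rw [cfc_id ℝ a]; rfl
    _ = cfc (fun t : ℝ => (Real.sqrt t)⁻¹ * t * (Real.sqrt t)⁻¹) a := by
      rw [← cfc_mul _ _ a hc continuousOn_id]
      rw [← cfc_mul (fun x : ℝ => (Real.sqrt x)⁻¹ * id x) _ a (hc.mul continuousOn_id) hc]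
      rfl
    _ = cfc (fun _ : ℝ => (1 : ℝ)) a := cfc_congr fun t ht => by
      have := hsp t ht
      field_simp
      rw [Real.sq_sqrt this.le]
    _ = 1 := cfc_const_one ℝ a

theorem avg_one {s : Finset ι} {w : ι → ℝ} (ε : ℝ) (f : ℕ → ι → F) (l : ℕ)
    (hf : ∀ g ∈ s, IsSelfAdjoint (psum f l g)) (hS : IsStrictlyPositive (part s w ε f l)) :
    avg s w ε f l (fun _ => 1) = 1 := by
  rw [avg, ← part_eq_mom s w ε f l hf, isq_mul_self_mul_isq hS]

theorem avg_le_avg {s : Finset ι} {w : ι → ℝ} (hw : ∀ g ∈ s, 0 ≤ w g) (ε : ℝ)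
    (f : ℕ → ι → F) (l : ℕ) {x y : ι → F} (h : ∀ g ∈ s, x g ≤ y g) :
    avg s w ε f l x ≤ avg s w ε f l y := by
  refine (isq_selfAdjoint _).conjugate_le_conjugate (Finset.sum_le_sum fun g hg => ?_)
  exact smul_le_smul_of_nonneg_left ((ex_selfAdjoint _ _).conjugate_le_conjugate (h g hg)) (hw g hg)

end Order

end

end Vale.Agent.P095.Amenable
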