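import Vale.Agent.P095.Amenable.Central

/-!
# Diagonal sequences in the central sequence algebra

A family `X` of bounded sequences is evaluated along `n ↦ (p n, q n)`. For suitable `p, q` the norm
and the limit traces of the resulting class are controlled by those of the classes of the family.
Two choices are used: (id, i) for copies and (L, id) for limits which keep the index.
-/

set_option linter.unusedSectionVars false
set_option synthInstance.maxHeartbeats 100000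

open Filter Topology TopologicalSpace
open Vale.Agent.P101 (CentralSeq Ultrapower BddSeq qmk qmk_eq_iff constSeq)
open scoped ComplexOrder

namespace Vale.Agent.P095.Amenable

noncomputable section

variable {A : Type} [CStarAlgebra A] [Nontrivial A] {ω : Ultrafilter ℕ}

/-- The largest absolute value of a tracial state at `a`. -/
def tb (a : A) : ℝ := ⨆ σ : {σ : A →ₗ[ℂ] ℂ // IsTrace σ}, ‖σ.1 a‖

lemma tb_nonneg (a : A) : 0 ≤ tb a := Real.iSup_nonneg fun _ => norm_nonneg _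

lemma norm_le_tb {σ : A →ₗ[ℂ] ℂ} (hσ : IsTrace σ) (a : A) : ‖σ a‖ ≤ tb a :=
  le_ciSup (f := fun σ : {σ : A →ₗ[ℂ] ℂ // IsTrace σ} => ‖σ.1 a‖)
    ⟨‖a‖, by rintro _ ⟨σ, rfl⟩; exact σ.2.norm_le_norm a⟩ ⟨σ, hσ⟩

lemma tb_le_norm (a : A) : tb a ≤ ‖a‖ :=
  Real.iSup_le (fun σ => σ.2.norm_le_norm a) (norm_nonneg a)

lemma exists_lt_of_lt_tb {a : A} {c : ℝ} (hc : 0 ≤ c) (h : c < tb a) :
    ∃ σ : A →ₗ[ℂ] ℂ, IsTrace σ ∧ c < ‖σ a‖ := by
  rcases isEmpty_or_nonempty {σ : A →ₗ[ℂ] ℂ // IsTrace σ} with hE | hN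
  · rw [tb, Real.iSup_of_isEmpty] at h; linarith
  · obtain ⟨σ, hσ⟩ := exists_lt_of_lt_ciSup h
    exact ⟨σ.1, σ.2, hσ⟩

lemma exists_tbl (ω : Ultrafilter ℕ) (x : BddSeq A) :
    ∃ L : ℝ, Tendsto (fun n => tb (x n)) ω (𝓝 L) := by
  obtain ⟨L, -, hL⟩ := (isCompact_Icc (a := 0) (b := ‖x‖)).ultrafilter_le_nhds
    (ω.map fun n => tb (x n)) (by
      rw [le_principal_iff]
      exact show ∀ᶠ n in (ω : Filter ℕ), tb (x n) ∈ Set.Icc 0 ‖x‖ from Eventually.of_forall
        fun n => ⟨tb_nonneg _, (tb_le_norm _).trans (x.norm_apply_le n)⟩)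
  exact ⟨L, hL⟩

/-- The limit along `ω` of the largest trace value of a sequence. -/
def tbl (ω : Ultrafilter ℕ) (x : BddSeq A) : ℝ := (exists_tbl ω x).choose

lemma tendsto_tbl (x : BddSeq A) : Tendsto (fun n => tb (x n)) ω (𝓝 (tbl ω x)) :=
  (exists_tbl ω x).choose_spec

/-- A bound on all limit traces bounds the limit of the largest trace values. -/
lemma tbl_le {x : BddSeq A} {z : CentralSeq A ω} (hx : qmk ω x = (z : Ultrapower A ω)) {c : ℝ}
    (hc : 0 ≤ c) (h : ∀ τ ∈ limTraces A ω, ‖τ z‖ ≤ c) : tbl ω x ≤ c := by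
  classical
  by_contra hlt
  obtain ⟨d, hcd, hd⟩ := exists_between (not_le.1 hlt)
  have hev : ∀ᶠ n in (ω : Filter ℕ), ∃ σ : A →ₗ[ℂ] ℂ, IsTrace σ ∧ d < ‖σ (x n)‖ :=
    ((tendsto_tbl x).eventually (lt_mem_nhds hd)).mono fun n hn =>
      exists_lt_of_lt_tb (hc.trans hcd.le) hn
  obtain ⟨n₀, σ₀, hσ₀, -⟩ := hev.exists
  let σ : ℕ → (A →ₗ[ℂ] ℂ) := fun n =>
    if hn : ∃ σ : A →ₗ[ℂ] ℂ, IsTrace σ ∧ d < ‖σ (x n)‖ then hn.choose else σ₀
  have hσ : ∀ n, IsTrace (σ n) := fun n => by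
    simp only [σ]
    split_ifs with hn
    · exact hn.choose_spec.1
    · exact hσ₀
  obtain ⟨τ, hτ⟩ := exists_limTrace (ω := ω) hσ
  have h2 : d ≤ ‖τ z‖ := ge_of_tendsto ((hτ z x hx).norm) (hev.mono fun n hn => by
    simp only [σ, dif_pos hn]
    exact hn.choose_spec.2.le)
  exact absurd (h τ ⟨σ, hσ, hτ⟩) (not_le.2 (hcd.trans_le h2))

/-- A countable set of families is controlled along `n ↦ (p n, q n)`. -/
def Good (ω : Ultrafilter ℕ) (p q : ℕ → ℕ) (K : Set (ℕ → BddSeq A)) : Prop :=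
  Tendsto p ω atTop ∧ ∀ X ∈ K, ∀ ε : ℝ, 0 < ε → ∀ᶠ n in (ω : Filter ℕ),
    ‖X (p n) (q n)‖ ≤ ‖qmk ω (X (p n))‖ + ε ∧ tb (X (p n) (q n)) ≤ tbl ω (X (p n)) + ε

/-- The coordinates at which the first `n` families are within `1 / (n + 1)` of their limits. -/
def admissible (ω : Ultrafilter ℕ) (e : ℕ → ℕ → BddSeq A) (n : ℕ) : Set ℕ :=
  {i | ∀ k ∈ Finset.range n, ‖e k n i‖ ≤ ‖qmk ω (e k n)‖ + 1 / ((n : ℝ) + 1) ∧
    tb (e k n i) ≤ tbl ω (e k n) + 1 / ((n : ℝ) + 1)}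

lemma admissible_mem (e : ℕ → ℕ → BddSeq A) (n : ℕ) :
    ∀ᶠ i in (ω : Filter ℕ), i ∈ admissible ω e n := by
  have hε : (0 : ℝ) < 1 / ((n : ℝ) + 1) := by positivity
  simp only [admissible, Set.mem_ofPred_eq, Finset.eventually_all]
  exact fun k _ => (Vale.Agent.P101.eventually_norm_le _ hε).and
    ((tendsto_tbl _).eventually_le_const (lt_add_of_pos_right _ hε))

lemma good_of_admissible {p q : ℕ → ℕ} {K : Set (ℕ → BddSeq A)} {e : ℕ → ℕ → BddSeq A}
    (he : K ⊆ Set.range e) (hp : Tendsto p ω atTop)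
    (h : ∀ᶠ n in (ω : Filter ℕ), q n ∈ admissible ω e (p n)) : Good ω p q K := by
  refine ⟨hp, fun X hX ε hε => ?_⟩
  obtain ⟨k, rfl⟩ := he hX
  have hsmall : ∀ᶠ m : ℕ in atTop, k < m ∧ 1 / ((m : ℝ) + 1) ≤ ε :=
    (eventually_gt_atTop k).and ((tendsto_one_div_add_atTop_nhds_zero_nat (𝕜 := ℝ)).eventually_le_const hε)
  filter_upwards [h, hp.eventually hsmall] with n hn hk
  obtain ⟨a, b⟩ := hn k (Finset.mem_range.2 hk.1)
  exact ⟨a.trans (by linarith [hk.2]), b.trans (by linarith [hk.2])⟩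

lemma exists_range_cover {K : Set (ℕ → BddSeq A)} (hK : K.Countable) :
    ∃ e : ℕ → ℕ → BddSeq A, K ⊆ Set.range e := by
  obtain ⟨e, he⟩ := (hK.insert fun _ => 0).exists_eq_range (Set.insert_nonempty _ _)
  exact ⟨e, he ▸ Set.subset_insert _ _⟩

/-- Re-indexing. -/
theorem exists_good_reindex (hω : (ω : Filter ℕ) ≤ cofinite) {K : Set (ℕ → BddSeq A)}
    (hK : K.Countable) : ∃ i : ℕ → ℕ, Good ω id i K := by
  obtain ⟨e, he⟩ := exists_range_cover hK
  choose i hi using fun n => (admissible_mem (ω := ω) e n).exists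
  exact ⟨i, good_of_admissible he (tendsto_id.mono_left (Nat.cofinite_eq_atTop ▸ hω))
    (Eventually.of_forall hi)⟩

/-- Keeping the index. -/
theorem exists_good_diag (hω : (ω : Filter ℕ) ≤ cofinite) {K : Set (ℕ → BddSeq A)}
    (hK : K.Countable) : ∃ L : ℕ → ℕ, Good ω L id K := by
  classical
  obtain ⟨e, he⟩ := exists_range_cover hK
  have hle : (ω : Filter ℕ) ≤ atTop := Nat.cofinite_eq_atTop ▸ hω
  set L : ℕ → ℕ := fun n => Nat.findGreatest (fun m => n ∈ admissible ω e m) n with hL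
  have h0 : ∀ n, n ∈ admissible ω e 0 := fun n k hk => absurd hk (by simp)
  refine ⟨L, good_of_admissible he (tendsto_atTop.2 fun M => ?_) (Eventually.of_forall fun n =>
    Nat.findGreatest_spec (P := fun m => n ∈ admissible ω e m) (Nat.zero_le n) (h0 n))⟩
  filter_upwards [admissible_mem (ω := ω) e M, hle (eventually_ge_atTop M)] with n hn hn'
  exact Nat.le_findGreatest hn' hn

/-- `z` is the class of the family `X` evaluated along (p, q). -/
def Rep (ω : Ultrafilter ℕ) (p q : ℕ → ℕ) (z : Ultrapower A ω) (X : ℕ → BddSeq A) : Prop :=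
  ∃ u : BddSeq A, qmk ω u = z ∧ ∀ n, u n = X (p n) (q n)

namespace Rep

variable {p q : ℕ → ℕ} {z w : Ultrapower A ω} {X Y : ℕ → BddSeq A}

theorem one : Rep ω p q (1 : Ultrapower A ω) fun _ => 1 := ⟨1, map_one _, fun _ => rfl⟩

theorem add (h : Rep ω p q z X) (h' : Rep ω p q w Y) : Rep ω p q (z + w) fun m => X m + Y m := by
  obtain ⟨u, hu, hun⟩ := h
  obtain ⟨v, hv, hvn⟩ := h'
  exact ⟨u + v, by rw [map_add, hu, hv],
    fun n => show u n + v n = X (p n) (q n) + Y (p n) (q n) by rw [hun, hvn]⟩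

theorem sub (h : Rep ω p q z X) (h' : Rep ω p q w Y) : Rep ω p q (z - w) fun m => X m - Y m := by
  obtain ⟨u, hu, hun⟩ := h
  obtain ⟨v, hv, hvn⟩ := h'
  exact ⟨u - v, by rw [map_sub, hu, hv],
    fun n => show u n - v n = X (p n) (q n) - Y (p n) (q n) by rw [hun, hvn]⟩

theorem mul (h : Rep ω p q z X) (h' : Rep ω p q w Y) : Rep ω p q (z * w) fun m => X m * Y m := by
  obtain ⟨u, hu, hun⟩ := h
  obtain ⟨v, hv, hvn⟩ := h'
  exact ⟨u * v, by rw [map_mul, hu, hv],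
    fun n => show u n * v n = X (p n) (q n) * Y (p n) (q n) by rw [hun, hvn]⟩

theorem star (h : Rep ω p q z X) : Rep ω p q (star z) fun m => star (X m) := by
  obtain ⟨u, hu, hun⟩ := h
  exact ⟨Star.star u, by rw [← Vale.Agent.P101.star_qmk, hu],
    fun n => show Star.star (u n) = Star.star (X (p n) (q n)) by rw [hun]⟩

theorem smul (c : ℂ) (h : Rep ω p q z X) : Rep ω p q (c • z) fun m => c • X m := by
  obtain ⟨u, hu, hun⟩ := h
  exact ⟨c • u, show qmk ω (c • u) = c • z by rw [← hu]; rfl,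
    fun n => show c • u n = c • X (p n) (q n) by rw [hun]⟩

theorem pow (h : Rep ω p q z X) : ∀ k : ℕ, Rep ω p q (z ^ k) fun m => X m ^ k
  | 0 => by simpa using Rep.one
  | k + 1 => by simpa [pow_succ] using (Rep.pow h k).mul h

/-- A family bounded uniformly has a class. -/
theorem exists_of_bound (p q : ℕ → ℕ) {X : ℕ → BddSeq A} {C : ℝ}
    (h : ∀ m n, ‖X m n‖ ≤ C) : ∃ z : Ultrapower A ω, Rep ω p q z X :=
  ⟨_, BddSeq.mk (fun n => X (p n) (q n)) C (fun _ => h _ _), rfl, fun _ => rfl⟩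

theorem norm_le {K : Set (ℕ → BddSeq A)} (hG : Good ω p q K) (hX : X ∈ K) (h : Rep ω p q z X)
    {c : ℝ} (hc : ∀ ε : ℝ, 0 < ε → ∀ᶠ m in atTop, ‖qmk ω (X m)‖ ≤ c + ε) : ‖z‖ ≤ c := by
  obtain ⟨u, rfl, hun⟩ := h
  refine le_of_forall_pos_le_add fun ε hε => le_of_tendsto (Vale.Agent.P101.tendsto_norm_qmk ω u) ?_
  filter_upwards [hG.2 X hX (ε / 2) (half_pos hε), hG.1.eventually (hc (ε / 2) (half_pos hε))]
    with n h1 h2
  rw [hun]
  linarith [h1.1]

theorem eq_of_qmk {K : Set (ℕ → BddSeq A)} (hG : Good ω p q K)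
    (hX : (fun m => X m - Y m) ∈ K) (h : Rep ω p q z X) (h' : Rep ω p q w Y)
    (e : ∀ m, qmk ω (X m) = qmk ω (Y m)) : z = w :=
  sub_eq_zero.1 (norm_le_zero_iff.1 ((h.sub h').norm_le hG hX fun ε hε =>
    Eventually.of_forall fun m => by rw [map_sub, e, sub_self, norm_zero]; linarith))

theorem trace_le {K : Set (ℕ → BddSeq A)} (hG : Good ω p q K) (hX : X ∈ K) {z : CentralSeq A ω}
    (h : Rep ω p q (z : Ultrapower A ω) X) (v : ℕ → CentralSeq A ω)
    (hv : ∀ m, qmk ω (X m) = (v m : Ultrapower A ω)) {c : ℝ} (hc0 : 0 ≤ c)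
    (hc : ∀ ε : ℝ, 0 < ε → ∀ᶠ m in atTop, ∀ τ ∈ limTraces A ω, ‖τ (v m)‖ ≤ c + ε) :
    ∀ τ ∈ limTraces A ω, ‖τ z‖ ≤ c := by
  rintro τ ⟨σ, hσ, hτ⟩
  obtain ⟨u, hu, hun⟩ := h
  refine le_of_forall_pos_le_add fun ε hε => le_of_tendsto (hτ z u hu).norm ?_
  filter_upwards [hG.2 X hX (ε / 2) (half_pos hε), hG.1.eventually (hc (ε / 2) (half_pos hε))]
    with n h1 h2
  refine (norm_le_tb (hσ n) _).trans ?_
  rw [hun]
  linarith [h1.2, tbl_le (hv (p n)) (by positivity) h2]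

end Rep

lemma exists_rep_bound (z : CentralSeq A ω) :
    ∃ x : BddSeq A, qmk ω x = (z : Ultrapower A ω) ∧ ∀ n, ‖x n‖ ≤ ‖z‖ + 1 := by
  obtain ⟨x, hx⟩ := exists_rep z
  refine ⟨BddSeq.mk (fun n => if ‖x n‖ ≤ ‖z‖ + 1 then x n else 0) ‖x‖ fun n => ?_, ?_, fun n => ?_⟩
  · split_ifs
    · exact x.norm_apply_le n
    · simp
  · rw [← hx, qmk_eq_iff]
    refine tendsto_const_nhds.congr' ?_
    have h1 : ‖qmk ω x‖ = ‖z‖ := by rw [hx]; rfl
    filter_upwards [(Vale.Agent.P101.tendsto_norm_qmk ω x).eventually_le_const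
      (lt_add_of_pos_right _ one_pos)] with n hn
    rw [h1] at hn
    rw [BddSeq.mk_apply, if_pos hn]
    simp
  · show ‖if ‖x n‖ ≤ ‖z‖ + 1 then x n else 0‖ ≤ ‖z‖ + 1
    split_ifs with h
    · exact h
    · simp only [norm_zero]; positivity

/-- A class commuting with a dense set of constants is central. -/
theorem mem_central_of_dense {z : Ultrapower A ω} {s : Set A} (hs : Dense s)
    (h : ∀ a ∈ s, Commute z (qmk ω (constSeq a))) :
    z ∈ StarSubalgebra.centralizer ℂ (Set.range fun a : A => qmk ω (constSeq a)) := by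
  have hcc : Continuous fun a : A => qmk ω (constSeq a) :=
    (LipschitzWith.of_dist_le_mul (K := 1) fun a b => by
      rw [NNReal.coe_one, one_mul, dist_eq_norm, dist_eq_norm, ← map_sub]
      exact le_of_tendsto (Vale.Agent.P101.tendsto_norm_qmk ω _)
        (Eventually.of_forall fun _ => le_rfl)).continuous
  have hall : ∀ a, z * qmk ω (constSeq a) = qmk ω (constSeq a) * z := fun a =>
    hs.induction (P := fun a => z * qmk ω (constSeq a) = qmk ω (constSeq a) * z)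
      (fun x hx => (h x hx).eq)
      (isClosed_eq (continuous_const.mul hcc) (hcc.mul continuous_const)) a
  rw [StarSubalgebra.mem_centralizer_iff]
  rintro _ ⟨a, rfl⟩
  refine ⟨(hall a).symm, ?_⟩
  rw [Vale.Agent.P101.star_qmk]
  exact (hall (star a)).symm

end

end Vale.Agent.P095.Amenable
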