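import Mathlib
import Vale.Agent.P095.Amenable.Trace

/-!
# Transfer of scalar kernel inequalities to traces

For self-adjoint `a`, `b` and a positive weight `X` commuting with `a` the form
`(φ, ψ) ↦ τ(X φ(a) x ψ(b) x*)` is positive on products of nonnegative functions, so every inequality
`∑ φᵢ(s) ψᵢ(t) ≥ 0` on the spectra passes to it.
-/

open scoped ComplexOrder
open Filter Topology Set

namespace Vale.Agent.P095.Amenable

noncomputable section

variable {F : Type*} [CStarAlgebra F] [PartialOrder F] [StarOrderedRing F] {τ : F →ₗ[ℂ] ℂ}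

omit [PartialOrder F] [StarOrderedRing F] in
theorem IsTrace.re_continuous' (hτ : IsTrace τ) : Continuous fun x => (τ x).re :=
  Complex.continuous_re.comp
    (τ.mkContinuous 1 fun x => by simpa using hτ.norm_le_norm x).continuous

/-- The affine map from the unit interval onto the interval from `l` to `u`. -/
def toUnit (l u t : ℝ) : unitInterval := Set.projIcc (0 : ℝ) 1 zero_le_one ((t - l) / (u - l))

/-- The affine map back. -/
def ofUnit (l u : ℝ) (s : unitInterval) : ℝ := l + (u - l) * (s : ℝ)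

theorem ofUnit_mem {l u : ℝ} (hlu : l ≤ u) (s : unitInterval) : ofUnit l u s ∈ Icc l u := by
  have h0 : 0 ≤ (s : ℝ) := s.2.1
  have h1 : (s : ℝ) ≤ 1 := s.2.2
  constructor <;> simp only [ofUnit] <;> nlinarith

theorem ofUnit_toUnit {l u t : ℝ} (ht : t ∈ Icc l u) : ofUnit l u (toUnit l u t) = t := by
  rcases eq_or_lt_of_le (ht.1.trans ht.2) with h | h
  · subst h
    have : t = l := le_antisymm ht.2 ht.1
    simp [ofUnit, this]
  · have hm : (t - l) / (u - l) ∈ Icc (0 : ℝ) 1 := by
      constructor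
      · exact div_nonneg (by linarith [ht.1]) (by linarith)
      · rw [div_le_one (by linarith)]; linarith [ht.2]
    simp only [ofUnit, toUnit, Set.projIcc_of_mem _ hm]
    field_simp [show u - l ≠ 0 by linarith]
    ring

theorem continuous_toUnit (l u : ℝ) : Continuous (toUnit l u) :=
  continuous_projIcc.comp (by fun_prop)

/-- The Bernstein basis on the interval from `l` to `u`. -/
def bbasis (l u : ℝ) (n : ℕ) (k : Fin (n + 1)) : ℝ → ℝ := fun t => bernstein n k (toUnit l u t)

/-- The nodes. -/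
def node (l u : ℝ) (n : ℕ) (k : Fin (n + 1)) : ℝ := ofUnit l u (⟨(k : ℝ) / n, by
  simp [div_nonneg, div_le_one_of_le₀, k.is_le]⟩)

theorem continuous_bbasis (l u : ℝ) (n : ℕ) (k : Fin (n + 1)) : Continuous (bbasis l u n k) :=
  (map_continuous _).comp (continuous_toUnit l u)

omit [PartialOrder F] [StarOrderedRing F] in
/-- The Bernstein approximants of a function applied to a self-adjoint element. -/
theorem tendsto_cfc_bbasis {a : F} (_ha : IsSelfAdjoint a) {l u : ℝ} (hlu : l ≤ u)
    (hspec : spectrum ℝ a ⊆ Icc l u) {φ : ℝ → ℝ} (hφ : ContinuousOn φ (Icc l u)) :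
    Tendsto (fun n : ℕ => ∑ k : Fin (n + 1), φ (node l u n k) • cfc (bbasis l u n k) a) atTop
      (𝓝 (cfc φ a)) := by
  let Φ : C(unitInterval, ℝ) := ⟨fun s => φ (ofUnit l u s),
    hφ.comp_continuous (by unfold ofUnit; fun_prop) (ofUnit_mem hlu)⟩
  have hlim := tendsto_iff_norm_sub_tendsto_zero.1 (bernsteinApproximation_uniform Φ)
  refine tendsto_iff_norm_sub_tendsto_zero.2 (squeeze_zero (fun n => norm_nonneg _) (fun n => ?_) hlim)
  have e : ∑ k : Fin (n + 1), φ (node l u n k) • cfc (bbasis l u n k) a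
      = cfc (fun t => bernsteinApproximation n Φ (toUnit l u t)) a := by
    have hfun : (fun t => bernsteinApproximation n Φ (toUnit l u t))
        = ∑ k : Fin (n + 1), fun t => φ (node l u n k) * bbasis l u n k t := by
      funext t
      rw [Finset.sum_apply, bernsteinApproximation.apply]
      refine Finset.sum_congr rfl fun k _ => ?_
      simp [bbasis, node, Φ, smul_eq_mul, mul_comm, bernstein.z]
    rw [hfun, cfc_sum (fun k => fun t => φ (node l u n k) * bbasis l u n k t) a Finset.univ
      (fun k _ => (continuous_const.mul (continuous_bbasis l u n k)).continuousOn)]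
    exact Finset.sum_congr rfl fun k _ =>
      (cfc_const_mul _ _ a (continuous_bbasis l u n k).continuousOn).symm
  rw [e, ← cfc_sub (fun t => bernsteinApproximation n Φ (toUnit l u t)) φ a
    (((map_continuous _).comp (continuous_toUnit l u)).continuousOn) (hφ.mono hspec)]
  refine norm_cfc_le (norm_nonneg _) fun t ht => ?_
  have hΦ : Φ (toUnit l u t) = φ t := congrArg φ (ofUnit_toUnit (hspec ht))
  rw [← hΦ]
  exact (bernsteinApproximation n Φ - Φ).norm_coe_le_norm _

/-- **Transfer of kernel inequalities.** -/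
theorem IsTrace.kernel_nonneg (hτ : IsTrace τ) {κ : Type*} (s : Finset κ) {X a b : F} (hX : 0 ≤ X)
    (hXa : Commute X a) (x : F)
    (ha : IsSelfAdjoint a) (hb : IsSelfAdjoint b) {l u l' u' : ℝ} (hlu : l ≤ u) (hlu' : l' ≤ u')
    (hsa : spectrum ℝ a ⊆ Icc l u) (hsb : spectrum ℝ b ⊆ Icc l' u')
    (φ ψ : κ → ℝ → ℝ) (hφ : ∀ i ∈ s, ContinuousOn (φ i) (Icc l u))
    (hψ : ∀ i ∈ s, ContinuousOn (ψ i) (Icc l' u'))
    (h : ∀ p ∈ Icc l u, ∀ q ∈ Icc l' u', 0 ≤ ∑ i ∈ s, φ i p * ψ i q) :
    0 ≤ ∑ i ∈ s, (τ (X * (cfc (φ i) a * x * cfc (ψ i) b * star x))).re := by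
  have hlim : Tendsto (fun n : ℕ => ∑ i ∈ s,
      (τ (X * ((∑ k : Fin (n + 1), φ i (node l u n k) • cfc (bbasis l u n k) a) * x *
        (∑ m : Fin (n + 1), ψ i (node l' u' n m) • cfc (bbasis l' u' n m) b) * star x))).re) atTop
      (𝓝 (∑ i ∈ s, (τ (X * (cfc (φ i) a * x * cfc (ψ i) b * star x))).re)) :=
    tendsto_finsetSum _ fun i hi => (hτ.re_continuous'.tendsto _).comp
      (((((tendsto_cfc_bbasis ha hlu hsa (hφ i hi)).mul_const x).mul
        (tendsto_cfc_bbasis hb hlu' hsb (hψ i hi))).mul_const (star x)).const_mul X)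
  refine ge_of_tendsto' hlim fun n => ?_
  set w : Fin (n + 1) → Fin (n + 1) → ℝ := fun k m =>
    (τ (X * (cfc (bbasis l u n k) a * x * cfc (bbasis l' u' n m) b * star x))).re with hw
  have hwn : ∀ k m, 0 ≤ w k m := fun k m => by
    have h1 : 0 ≤ X * cfc (bbasis l u n k) a :=
      (hXa.symm.cfc_real _).symm.mul_nonneg hX (cfc_nonneg fun t _ => bernstein_nonneg)
    have h2 : 0 ≤ x * cfc (bbasis l' u' n m) b * star x :=
      star_right_conjugate_nonneg (cfc_nonneg fun t _ => bernstein_nonneg) x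
    have := (Complex.nonneg_iff.1 (hτ.map_mul_nonneg h1 h2)).1
    simpa only [hw, mul_assoc] using this
  have e : ∀ i, (τ (X * ((∑ k : Fin (n + 1), φ i (node l u n k) • cfc (bbasis l u n k) a) * x *
        (∑ m : Fin (n + 1), ψ i (node l' u' n m) • cfc (bbasis l' u' n m) b) * star x))).re
      = ∑ k, ∑ m, φ i (node l u n k) * ψ i (node l' u' n m) * w k m := by
    intro i
    simp only [Finset.sum_mul, Finset.mul_sum, smul_mul_assoc, mul_smul_comm, map_sum,
      ← Complex.coe_smul, map_smul, smul_eq_mul, Complex.re_sum, Complex.re_ofReal_mul, hw]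
    rw [Finset.sum_comm]
    exact Finset.sum_congr rfl fun k _ => Finset.sum_congr rfl fun m _ => by ring
  simp only [e]
  rw [Finset.sum_comm]
  refine Finset.sum_nonneg fun k _ => ?_
  rw [Finset.sum_comm]
  refine Finset.sum_nonneg fun m _ => ?_
  rw [← Finset.sum_mul]
  exact mul_nonneg (h _ (ofUnit_mem hlu _) _ (ofUnit_mem hlu' _)) (hwn k m)

end

end Vale.Agent.P095.Amenable
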