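import Vale.Agent.P095.Amenable.CoreBasic
import Vale.Agent.P095.Amenable.TraceIneq

/-!
# Gibbs averages: reindexing, transport and change of weights

Changing every weight by a small relative amount, up to a small absolute error, moves the average
only slightly in the two-seminorm of every trace.
-/

set_option linter.unusedSectionVars false

open scoped ComplexOrder

namespace Vale.Agent.P095.Amenable

noncomputable section

variable {F : Type*} [CStarAlgebra F] {ι κ : Type*}

theorem avg_finset_image [DecidableEq κ] (e : ι → κ) {s : Finset ι} (he : Set.InjOn e s)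
    (w : κ → ℝ) (ε : ℝ) (f : ℕ → κ → F) (l : ℕ) (x : κ → F) :
    avg (s.image e) w ε f l x = avg s (w ∘ e) ε (fun i => f i ∘ e) l (x ∘ e) := by
  simp only [avg, part, mom, Finset.sum_image he]
  rfl

theorem avg_extend {s s' : Finset ι} (hss : s ⊆ s') {w : ι → ℝ}
    (hw : ∀ g ∈ s', g ∉ s → w g = 0) (ε : ℝ) (f : ℕ → ι → F) (l : ℕ) (x : ι → F) :
    avg s' w ε f l x = avg s w ε f l x := by
  have h1 : part s' w ε f l = part s w ε f l :=
    (Finset.sum_subset hss fun g hg hg' => by rw [hw g hg hg', zero_smul]).symm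
  have h2 : mom s' w ε f l x = mom s w ε f l x :=
    (Finset.sum_subset hss fun g hg hg' => by rw [hw g hg hg', zero_smul]).symm
  rw [avg, avg, h1, h2]

theorem psum_map (φ : F →⋆ₐ[ℂ] F) (f : ℕ → ι → F) (l : ℕ) (g : ι) :
    psum (fun i g => φ (f i g)) l g = φ (psum f l g) := (map_sum φ _ _).symm

theorem map_smul_real (φ : F →⋆ₐ[ℂ] F) (r : ℝ) (a : F) : φ (r • a) = r • φ a := by
  rw [← Complex.coe_smul r a, map_smul, Complex.coe_smul]

section Order

variable [PartialOrder F] [StarOrderedRing F]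

/-- A strictly positive element has spectrum bounded away from zero. -/
theorem exists_spectrum_ge {a : F} (ha : IsStrictlyPositive a) :
    ∃ δ : ℝ, 0 < δ ∧ ∀ t ∈ spectrum ℝ a, δ ≤ t := by
  rcases (spectrum ℝ a).eq_empty_or_nonempty with h | h
  · exact ⟨1, one_pos, by simp [h]⟩
  obtain ⟨t₀, ht₀, hmin⟩ := (spectrum.isCompact a).exists_isMinOn h (continuousOn_id' _)
  exact ⟨t₀, ha.spectrum_pos ht₀, fun t ht => hmin ht⟩

theorem continuousOn_isq {a : F} (ha : IsStrictlyPositive a) :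
    ContinuousOn (fun t : ℝ => (Real.sqrt t)⁻¹) (spectrum ℝ a) :=
  Real.continuous_sqrt.continuousOn.inv₀ fun _ ht => (Real.sqrt_pos.2 (ha.spectrum_pos ht)).ne'

theorem avg_map (φ : F →⋆ₐ[ℂ] F) {s : Finset ι} {w : ι → ℝ} (ε : ℝ) (f : ℕ → ι → F) (l : ℕ)
    (x : ι → F) (hf : ∀ g ∈ s, IsSelfAdjoint (psum f l g))
    (hS : IsStrictlyPositive (part s w ε f l)) :
    φ (avg s w ε f l x) = avg s w ε (fun i g => φ (f i g)) l (fun g => φ (x g)) := by
  have hex : ∀ c, ∀ g ∈ s, φ (ex c (psum f l g)) = ex c (psum (fun i g => φ (f i g)) l g) :=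
    fun c g hg => by rw [psum_map, ex_map φ c (hf g hg)]
  have hpart : φ (part s w ε f l) = part s w ε (fun i g => φ (f i g)) l := by
    simp only [part, map_sum]
    exact Finset.sum_congr rfl fun g hg => by rw [map_smul_real, hex ε g hg]
  have hmom : φ (mom s w ε f l x) = mom s w ε (fun i g => φ (f i g)) l (fun g => φ (x g)) := by
    simp only [mom, map_sum]
    exact Finset.sum_congr rfl fun g hg => by
      rw [map_smul_real, map_mul, map_mul, hex (ε / 2) g hg]
  have hφ : Continuous φ := AddMonoidHomClass.continuous_of_bound φ 1 fun x => by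
    rw [one_mul]; exact NonUnitalStarAlgHom.norm_apply_le φ x
  have hisq : φ (isq (part s w ε f l)) = isq (part s w ε (fun i g => φ (f i g)) l) := by
    rw [isq, isq, ← hpart]
    exact StarAlgHomClass.map_cfc (S := ℂ) φ _ _ (continuousOn_isq hS) hφ hS.isSelfAdjoint
      (hS.isSelfAdjoint.map φ)
  rw [avg, avg, map_mul, map_mul, hisq, hmom]

theorem cong_smul_real {T : Set (F →ₗ[ℂ] ℂ)} (hT : ∀ τ ∈ T, IsTrace τ) {a b : F}
    (h : Cong T a b) (r : ℝ) : Cong T (r • a) (r • b) := by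
  rw [← Complex.coe_smul r a, ← Complex.coe_smul r b]
  exact Cong.smul hT h _

theorem avg_cong {T : Set (F →ₗ[ℂ] ℂ)} (hT : ∀ τ ∈ T, IsTrace τ) {s : Finset ι} {w : ι → ℝ}
    (hw : ∀ g ∈ s, 0 ≤ w g) {g₀ : ι} (hg₀ : g₀ ∈ s) (hpos : 0 < w g₀) (ε : ℝ)
    {f f' : ℕ → ι → F} (l : ℕ) {x y : ι → F} (hf : ∀ g ∈ s, IsSelfAdjoint (psum f l g))
    (hf' : ∀ g ∈ s, IsSelfAdjoint (psum f' l g))
    (hfg : ∀ i < l, ∀ g ∈ s, Cong T (f i g) (f' i g)) (hxy : ∀ g ∈ s, Cong T (x g) (y g)) :
    Cong T (avg s w ε f l x) (avg s w ε f' l y) := by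
  have hex : ∀ c, ∀ g ∈ s, Cong T (ex c (psum f l g)) (ex c (psum f' l g)) := fun c g hg =>
    Cong.cfc hT (Cong.sum hT _ fun i hi => hfg i (Finset.mem_range.1 hi) g hg) (hf g hg) (hf' g hg)
      (R := max ‖psum f l g‖ ‖psum f' l g‖) (le_max_left _ _) (le_max_right _ _) _ (by fun_prop)
  have hpart : Cong T (part s w ε f l) (part s w ε f' l) :=
    Cong.sum hT _ fun g hg => cong_smul_real hT (hex ε g hg) _
  have hmom : Cong T (mom s w ε f l x) (mom s w ε f' l y) := Cong.sum hT _ fun g hg =>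
    cong_smul_real hT (Cong.mul hT (Cong.mul hT (hex (ε / 2) g hg) (hxy g hg)) (hex (ε / 2) g hg)) _
  have hS := part_isStrictlyPositive hw hg₀ hpos ε f l (hf g₀ hg₀)
  have hS' := part_isStrictlyPositive hw hg₀ hpos ε f' l (hf' g₀ hg₀)
  have hisq : Cong T (isq (part s w ε f l)) (isq (part s w ε f' l)) := by
    obtain ⟨δ, hδ, hsp⟩ := exists_spectrum_ge hS
    obtain ⟨δ', hδ', hsp'⟩ := exists_spectrum_ge hS'
    set k : ℝ → ℝ := fun t => (Real.sqrt (max t (min δ δ')))⁻¹ with hk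
    have hkc : Continuous k := (by fun_prop : Continuous fun t : ℝ =>
      Real.sqrt (max t (min δ δ'))).inv₀ fun t =>
        (Real.sqrt_pos.2 (lt_max_of_lt_right (lt_min hδ hδ'))).ne'
    have e1 : isq (part s w ε f l) = _root_.cfc k (part s w ε f l) := cfc_congr fun t ht => by
      simp only [hk, max_eq_left ((min_le_left _ _).trans (hsp t ht))]
    have e2 : isq (part s w ε f' l) = _root_.cfc k (part s w ε f' l) := cfc_congr fun t ht => by
      simp only [hk, max_eq_left ((min_le_right _ _).trans (hsp' t ht))]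
    rw [e1, e2]
    exact Cong.cfc hT hpart hS.isSelfAdjoint hS'.isSelfAdjoint
      (R := max ‖part s w ε f l‖ ‖part s w ε f' l‖) (le_max_left _ _) (le_max_right _ _) k
      hkc.continuousOn
  exact Cong.mul hT (Cong.mul hT hisq hmom) hisq

theorem norm_le_of_between {y : F} (hy : IsSelfAdjoint y) {r : ℝ} (hr : 0 ≤ r)
    (h1 : y ≤ algebraMap ℝ F r) (h2 : -y ≤ algebraMap ℝ F r) : ‖y‖ ≤ r := by
  rw [← cfc_id ℝ y]
  refine norm_cfc_le hr fun t ht => ?_
  have u := (le_algebraMap_iff_spectrum_le (a := y)).1 h1 t ht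
  have l := (le_algebraMap_iff_spectrum_le (a := -y)).1 h2 (-t)
    (by rw [← spectrum.neg_eq]; exact Set.neg_mem_neg.2 ht)
  rw [Real.norm_eq_abs, id_eq, abs_le]
  exact ⟨by linarith, u⟩

/-- A real combination of conjugates of bounded elements is bounded by that of the moduli. -/
theorem norm_sum_conj_le_two_mul {s : Finset ι} (c : ι → ℝ) (A x : ι → F) {r M : ℝ} (hr : 0 ≤ r)
    (hM : 0 ≤ M) (h : ∑ g ∈ s, |c g| • (star (A g) * A g) ≤ algebraMap ℝ F r)
    (hx : ∀ g ∈ s, ‖x g‖ ≤ M) :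
    ‖∑ g ∈ s, c g • (star (A g) * x g * A g)‖ ≤ 2 * M * r := by
  have key : ∀ y : ι → F, (∀ g ∈ s, IsSelfAdjoint (y g)) → (∀ g ∈ s, ‖y g‖ ≤ M) →
      ‖∑ g ∈ s, c g • (star (A g) * y g * A g)‖ ≤ M * r := by
    intro y hy hyM
    have hb : ∀ d : ι → ℝ, (∀ g, |d g| = |c g|) →
        ∑ g ∈ s, d g • (star (A g) * y g * A g) ≤ algebraMap ℝ F (M * r) := fun d hd => by
      calc ∑ g ∈ s, d g • (star (A g) * y g * A g)
          ≤ ∑ g ∈ s, M • (|c g| • (star (A g) * A g)) := Finset.sum_le_sum fun g hg => ?_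
        _ ≤ M • algebraMap ℝ F r := by
          rw [← Finset.smul_sum]; exact smul_le_smul_of_nonneg_left h hM
        _ = algebraMap ℝ F (M * r) := by rw [Algebra.smul_def, map_mul]
      have hz : d g • y g ≤ algebraMap ℝ F (M * |c g|) := by
        refine (((IsSelfAdjoint.all (d g)).smul (hy g hg)).le_algebraMap_norm_self).trans
          (algebraMap_mono F ?_)
        rw [norm_smul, Real.norm_eq_abs, hd, mul_comm]
        exact mul_le_mul_of_nonneg_right (hyM g hg) (abs_nonneg _)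
      refine le_of_le_of_eq (le_of_eq_of_le ?_ (star_left_conjugate_le_conjugate hz (A g))) ?_
      · rw [mul_smul_comm, smul_mul_assoc]
      · rw [Algebra.algebraMap_eq_smul_one, mul_smul_comm, mul_one, smul_mul_assoc, smul_smul]
    refine norm_le_of_between (isSelfAdjoint_sum _ fun g hg =>
      (IsSelfAdjoint.all (c g)).smul ((hy g hg).conjugate' (A g))) (mul_nonneg hM hr)
      (hb c fun g => rfl) ?_
    rw [← Finset.sum_neg_distrib]
    simp only [← neg_smul]
    exact hb (fun g => -c g) fun g => abs_neg _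
  have e : ∑ g ∈ s, c g • (star (A g) * x g * A g) =
      (∑ g ∈ s, c g • (star (A g) * (realPart (x g) : F) * A g)) +
        Complex.I • ∑ g ∈ s, c g • (star (A g) * (imaginaryPart (x g) : F) * A g) := by
    rw [Finset.smul_sum, ← Finset.sum_add_distrib]
    refine Finset.sum_congr rfl fun g _ => ?_
    conv_lhs => rw [← realPart_add_I_smul_imaginaryPart (x g)]
    simp only [mul_add, add_mul, smul_add, mul_smul_comm, smul_mul_assoc, smul_comm (c g) Complex.I]
  rw [e]
  refine (norm_add_le _ _).trans ?_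
  rw [norm_smul, Complex.norm_I, one_mul]
  have k1 := key (fun g => (realPart (x g) : F)) (fun g _ => (realPart (x g)).2) fun g hg =>
    (realPart.norm_le (x g)).trans (hx g hg)
  have k2 := key (fun g => (imaginaryPart (x g) : F)) (fun g _ => (imaginaryPart (x g)).2) fun g hg =>
    (imaginaryPart.norm_le (x g)).trans (hx g hg)
  linarith

theorem isq_eq_inverse_sqrt {a : F} (ha : IsStrictlyPositive a) :
    isq a = Ring.inverse (CFC.sqrt a) := by
  have hsa : IsSelfAdjoint a := ha.isSelfAdjoint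
  have hsp := fun t (ht : t ∈ spectrum ℝ a) => ha.spectrum_pos ht
  have hs : CFC.sqrt a = cfc Real.sqrt a := by
    refine CFC.sqrt_unique ?_ (cfc_nonneg fun t _ => Real.sqrt_nonneg t)
    rw [← cfc_mul _ _ a, cfc_congr fun t ht => Real.mul_self_sqrt (hsp t ht).le, cfc_id' ℝ a]
  have h1 : isq a * CFC.sqrt a = 1 := by
    rw [hs, isq, ← cfc_mul _ _ a (continuousOn_isq ha),
      cfc_congr fun t ht => inv_mul_cancel₀ (Real.sqrt_pos.2 (hsp t ht)).ne', cfc_const_one ℝ a]
  have h2 : CFC.sqrt a * isq a = 1 := by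
    rw [hs, isq, ← cfc_mul _ _ a (by fun_prop) (continuousOn_isq ha),
      cfc_congr fun t ht => mul_inv_cancel₀ (Real.sqrt_pos.2 (hsp t ht)).ne', cfc_const_one ℝ a]
  exact (Ring.inverse_unit (⟨CFC.sqrt a, isq a, h2, h1⟩ : Fˣ)).symm

theorem ex_le_exp {c B : ℝ} {a : F} (ha : IsSelfAdjoint a) (hB : ‖a‖ ≤ B) :
    ex c a ≤ algebraMap ℝ F (Real.exp (|c| * B)) ∧
      algebraMap ℝ F (Real.exp (-(|c| * B))) ≤ ex c a := by
  rcases subsingleton_or_nontrivial F with hF | hF
  · exact ⟨le_of_eq (Subsingleton.elim _ _), le_of_eq (Subsingleton.elim _ _)⟩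
  have h : ∀ t ∈ spectrum ℝ a, |c * t| ≤ |c| * B := fun t ht => by
    rw [abs_mul]
    exact mul_le_mul_of_nonneg_left ((spectrum.norm_le_norm_of_mem ht).trans hB) (abs_nonneg _)
  exact ⟨cfc_le_algebraMap _ _ a fun t ht => Real.exp_le_exp.2 ((le_abs_self _).trans (h t ht)),
    algebraMap_le_cfc _ _ a fun t ht => Real.exp_le_exp.2 (abs_le.1 (h t ht)).1⟩

theorem sum_part_eq (s : Finset ι) (c : ι → ℝ) (ε : ℝ) (f : ℕ → ι → F) (l : ℕ) (R : F)
    (hR : IsSelfAdjoint R) (hf : ∀ g ∈ s, IsSelfAdjoint (psum f l g)) :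
    ∑ g ∈ s, c g • (star (ex (ε / 2) (psum f l g) * R) * (ex (ε / 2) (psum f l g) * R)) =
      R * part s c ε f l * R := by
  simp only [part, Finset.mul_sum, Finset.sum_mul, mul_smul_comm, smul_mul_assoc]
  refine Finset.sum_congr rfl fun g hg => ?_
  rw [← ex_half ε (hf g hg)]
  simp only [star_mul, (ex_selfAdjoint _ _).star_eq, hR.star_eq, mul_assoc]

theorem avg_shift {τ : F →ₗ[ℂ] ℂ} (hτ : IsTrace τ) {s : Finset ι} {w w' : ι → ℝ}
    (hw : ∀ g ∈ s, 0 ≤ w g) (hw' : ∀ g ∈ s, 0 ≤ w' g) {g₀ : ι} (hg₀ : g₀ ∈ s) (h1 : 1 ≤ w g₀)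
    {η δ : ℝ} (hη : 0 ≤ η) (hδ : 0 ≤ δ) (hdiff : ∀ g ∈ s, |w' g - w g| ≤ η * w g + δ) {ε : ℝ}
    {f : ℕ → ι → F} {l : ℕ} (hf : ∀ g ∈ s, IsSelfAdjoint (psum f l g)) {B : ℝ}
    (hB : ∀ g ∈ s, ‖psum f l g‖ ≤ B) {x : ι → F} {M : ℝ} (hx : ∀ g ∈ s, ‖x g‖ ≤ M) {e : ℝ}
    (he : η + δ * s.card * Real.exp (2 * |ε| * B) ≤ e) (he' : e ≤ 1 / 4) :
    tn τ (avg s w' ε f l x - avg s w ε f l x) ≤ 50 * M * Real.sqrt e := by
  have hM : 0 ≤ M := (norm_nonneg _).trans (hx g₀ hg₀)
  have he0 : 0 ≤ e := le_trans (by positivity) he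
  set S := part s w ε f l with hSd
  set T' := part s w' ε f l with hTd
  have hS : IsStrictlyPositive S :=
    part_isStrictlyPositive hw hg₀ (zero_lt_one.trans_le h1) ε f l (hf g₀ hg₀)
  -- the moduli of the differences
  set D := part s (fun g => |w' g - w g|) ε f l with hDd
  have hlow : algebraMap ℝ F (Real.exp (-(|ε| * B))) ≤ S := by
    refine ((ex_le_exp (hf g₀ hg₀) (hB g₀ hg₀)).2).trans (le_trans ?_ (Finset.single_le_sum
      (f := fun g => w g • ex ε (psum f l g))
      (fun g hg => smul_nonneg (hw g hg) (ex_nonneg _ _)) hg₀))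
    conv_lhs => rw [← one_smul ℝ (ex ε (psum f l g₀))]
    exact smul_le_smul_of_nonneg_right h1 (ex_nonneg _ _)
  have hD : D ≤ e • S := by
    have hsum : ∑ g ∈ s, ex ε (psum f l g) ≤ (s.card * Real.exp (2 * |ε| * B)) • S := by
      calc ∑ g ∈ s, ex ε (psum f l g) ≤ ∑ g ∈ s, algebraMap ℝ F (Real.exp (|ε| * B)) :=
            Finset.sum_le_sum fun g hg => (ex_le_exp (hf g hg) (hB g hg)).1
        _ = (s.card * Real.exp (2 * |ε| * B)) • algebraMap ℝ F (Real.exp (-(|ε| * B))) := by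
            rw [Finset.sum_const, ← map_nsmul, nsmul_eq_mul, Algebra.smul_def, ← map_mul,
              mul_assoc (s.card : ℝ), ← Real.exp_add]
            congr 3; ring
        _ ≤ _ := smul_le_smul_of_nonneg_left hlow (by positivity)
    calc D ≤ ∑ g ∈ s, (η * w g + δ) • ex ε (psum f l g) :=
          Finset.sum_le_sum fun g hg => smul_le_smul_of_nonneg_right (hdiff g hg) (ex_nonneg _ _)
      _ = η • S + δ • ∑ g ∈ s, ex ε (psum f l g) := by
          simp only [hSd, part, add_smul, Finset.sum_add_distrib, Finset.smul_sum, smul_smul]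
      _ ≤ η • S + δ • ((s.card * Real.exp (2 * |ε| * B)) • S) :=
          add_le_add le_rfl (smul_le_smul_of_nonneg_left hsum hδ)
      _ ≤ e • S := by
          rw [smul_smul, ← add_smul]
          exact smul_le_smul_of_nonneg_right (by rw [← mul_assoc]; exact he) hS.nonneg
  have hTS : T' - S = part s (fun g => w' g - w g) ε f l := by
    simp only [hSd, hTd, part, sub_smul, Finset.sum_sub_distrib]
  have hle1 : T' - S ≤ D := by
    rw [hTS]
    exact Finset.sum_le_sum fun g _ => smul_le_smul_of_nonneg_right (le_abs_self _) (ex_nonneg _ _)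
  have hle2 : S - T' ≤ D := by
    rw [← neg_sub, hTS, part, ← Finset.sum_neg_distrib]
    refine Finset.sum_le_sum fun g _ => ?_
    rw [← neg_smul]
    exact smul_le_smul_of_nonneg_right (neg_le_abs _) (ex_nonneg _ _)
  have hA : (1 - e) • S ≤ T' := by
    have := hle2.trans hD
    rw [sub_smul, one_smul]
    exact sub_le_comm.1 this
  have hB' : T' ≤ (1 + e) • S := by
    have := hle1.trans hD
    rw [add_smul, one_smul]
    exact sub_le_iff_le_add'.1 this
  have hT' : IsStrictlyPositive T' := (hS.smul (by linarith : (0:ℝ) < 1 - e)).of_le hA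
  -- S between multiples of T'
  have hA' : (1 - 2 * e) • T' ≤ S := by
    refine (smul_le_smul_of_nonneg_left hB' (by linarith)).trans ?_
    rw [smul_smul]
    conv_rhs => rw [← one_smul ℝ S]
    exact smul_le_smul_of_nonneg_right (by nlinarith) hS.nonneg
  have hB'' : S ≤ (1 + 2 * e) • T' := by
    refine le_trans ?_ (smul_le_smul_of_nonneg_left hA (by linarith : (0:ℝ) ≤ 1 + 2 * e))
    rw [smul_smul]
    conv_lhs => rw [← one_smul ℝ S]
    exact smul_le_smul_of_nonneg_right (by nlinarith) hS.nonneg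
  set R := isq S with hRd
  set R' := isq T' with hR'd
  have hR : IsSelfAdjoint R := isq_selfAdjoint _
  have hR' : IsSelfAdjoint R' := isq_selfAdjoint _
  set U := CFC.sqrt S * R' with hU
  have hsqS : IsSelfAdjoint (CFC.sqrt S) := .of_nonneg (CFC.sqrt_nonneg S)
  have hUs : star U = R' * CFC.sqrt S := by rw [hU, star_mul, hsqS.star_eq, hR'.star_eq]
  have htU : tn τ (U - 1) ≤ 3 * Real.sqrt (2 * e) := by
    rw [hU, hR'd, isq_eq_inverse_sqrt hT']
    exact sqrt_ratio hτ hT' hS (by linarith) (by linarith) hA' hB''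
  have htUs : tn τ (star U - 1) ≤ 3 * Real.sqrt (2 * e) := by
    rwa [show star U - 1 = star (U - 1) by rw [star_sub, star_one], hτ.tn_star]
  have hnU : ‖U‖ ≤ 2 := by
    have h0 : star U * U ≤ algebraMap ℝ F (1 + 2 * e) := by
      have := hR'.conjugate_le_conjugate hB''
      rw [mul_smul_comm, smul_mul_assoc, hR'd, isq_mul_self_mul_isq hT', ← hR'd,
        ← Algebra.algebraMap_eq_smul_one] at this
      rwa [hUs, hU, mul_assoc, ← mul_assoc (CFC.sqrt S), CFC.sqrt_mul_sqrt_self S hS.nonneg,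
        ← mul_assoc]
    have h2 := (CStarAlgebra.norm_le_iff_le_algebraMap (star U * U) (by linarith)
      (star_mul_self_nonneg U)).2 h0
    rw [CStarRing.norm_star_mul_self] at h2
    nlinarith [norm_nonneg U]
  -- the middle term
  set X := R * mom s w' ε f l x * R with hX
  set E : ι → F := fun g => ex (ε / 2) (psum f l g) * R with hE
  have hmid : ∀ c : ι → ℝ,
      R * mom s c ε f l x * R = ∑ g ∈ s, c g • (star (E g) * x g * E g) := fun c => by
    simp only [mom, hE, Finset.mul_sum, Finset.sum_mul, mul_smul_comm, smul_mul_assoc, star_mul,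
      (ex_selfAdjoint _ _).star_eq, hR.star_eq, mul_assoc]
  have hRSR : R * S * R = 1 := isq_mul_self_mul_isq hS
  have hbd : ∀ (c : ι → ℝ) (r : ℝ), part s (fun g => |c g|) ε f l ≤ r • S →
      ∑ g ∈ s, |c g| • (star (E g) * E g) ≤ algebraMap ℝ F r := fun c r hc => by
    rw [show ∑ g ∈ s, |c g| • (star (E g) * E g) = R * part s (fun g => |c g|) ε f l * R from
      sum_part_eq s _ ε f l R hR hf]
    refine (hR.conjugate_le_conjugate hc).trans (le_of_eq ?_)
    rw [mul_smul_comm, smul_mul_assoc, hRSR, Algebra.algebraMap_eq_smul_one]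
  have hXn : ‖X‖ ≤ 2 * M * (1 + e) := by
    rw [hX, hmid]
    refine norm_sum_conj_le_two_mul _ _ _ (by linarith) hM (hbd w' _ (le_of_eq_of_le ?_ hB')) hx
    exact Finset.sum_congr rfl fun g hg => by simp only [abs_of_nonneg (hw' g hg)]
  have hdX : ‖X - avg s w ε f l x‖ ≤ 2 * M * e := by
    have e1 : X - avg s w ε f l x = ∑ g ∈ s, (w' g - w g) • (star (E g) * x g * E g) := by
      rw [hX, avg, ← hRd, hmid, hmid]
      simp only [sub_smul, Finset.sum_sub_distrib]
    rw [e1]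
    exact norm_sum_conj_le_two_mul _ _ _ he0 hM (hbd _ _ hD) hx
  have hsqR : CFC.sqrt S * R = 1 := by
    rw [hRd, isq_eq_inverse_sqrt hS]
    exact Ring.mul_inverse_cancel _ ((CFC.isUnit_sqrt_iff S hS.nonneg).2 hS.isUnit)
  have hRsq : R * CFC.sqrt S = 1 := by
    rw [hRd, isq_eq_inverse_sqrt hS]
    exact Ring.inverse_mul_cancel _ ((CFC.isUnit_sqrt_iff S hS.nonneg).2 hS.isUnit)
  have hdec : avg s w' ε f l x = star U * X * U := by
    rw [avg, ← hTd, ← hR'd, hUs, hU, hX]
    calc R' * mom s w' ε f l x * R'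
        = R' * ((CFC.sqrt S * R) * mom s w' ε f l x * (R * CFC.sqrt S)) * R' := by
          rw [hsqR, hRsq, one_mul, mul_one]
      _ = _ := by simp only [mul_assoc]
  rw [hdec, show star U * X * U - avg s w ε f l x =
      (star U - 1) * (X * U) + (X * (U - 1) + (X - avg s w ε f l x)) by noncomm_ring]
  refine (hτ.tn_add_le _ _).trans ((add_le_add ((hτ.tn_mul_le_right _ _).trans
    (mul_le_mul htUs ((norm_mul_le _ _).trans (mul_le_mul hXn hnU (norm_nonneg _) (by positivity)))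
      (norm_nonneg _) (by positivity))) ((hτ.tn_add_le _ _).trans (add_le_add
    ((hτ.tn_mul_le_left _ _).trans (mul_le_mul hXn htU (hτ.tn_nonneg _) (by positivity)))
    ((hτ.tn_le_norm _).trans hdX)))).trans ?_)
  have hs2 : Real.sqrt (2 * e) ≤ 3 / 2 * Real.sqrt e := by
    rw [Real.sqrt_mul (by norm_num)]
    exact mul_le_mul_of_nonneg_right (Real.sqrt_le_iff.2 ⟨by norm_num, by norm_num⟩)
      (Real.sqrt_nonneg _)
  have hse : e ≤ Real.sqrt e / 2 := by
    have h2 := Real.mul_self_sqrt he0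
    nlinarith [Real.sqrt_nonneg e, Real.sqrt_le_iff.2 (⟨by norm_num, by linarith⟩ : (0:ℝ) ≤ 1/2 ∧ e ≤ (1/2)^2)]
  nlinarith [mul_le_mul_of_nonneg_left hs2 hM, mul_le_mul_of_nonneg_left hse hM,
    Real.sqrt_nonneg (2 * e), mul_nonneg hM (Real.sqrt_nonneg e), mul_nonneg hM he0,
    mul_le_mul_of_nonneg_left he' (mul_nonneg hM (Real.sqrt_nonneg (2 * e)))]

end Order

end

end Vale.Agent.P095.Amenable
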