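import Vale.Agent.P095.Amenable.FolnerDefs
import Vale.Agent.P095.Amenable.Kernel
import Vale.Agent.P095.Amenable.Shift
import Vale.Agent.P095.Amenable.Core

/-!
# The entropy bound for product densities over a finite set

For the densities `pr ε f` and every positive weight commuting with the filtration, the averages
`xq` miss the second moments of the increments by little in total: the entropy
`τ (X * S * log S)` of the total density grows at most by the squares of the averages and at least by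
the second moments.
-/

set_option linter.unusedSectionVars false

open scoped ComplexOrder
open Set Filter Topology

namespace Vale.Agent.P095.Amenable

noncomputable section

variable {F : Type*} [CStarAlgebra F] [PartialOrder F] [StarOrderedRing F] {τ : F →ₗ[ℂ] ℂ}

theorem log_scalar_gap {p q : ℝ} (hp : 0 < p) (hq : 0 < q) :
    (p - q) * (Real.log p - Real.log q) ≤ (p - q) ^ 2 * ((Real.sqrt p)⁻¹ * (Real.sqrt q)⁻¹) := by
  have ha := Real.sqrt_pos.2 hp
  have hb := Real.sqrt_pos.2 hq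
  have ea : Real.sqrt p ^ 2 = p := Real.sq_sqrt hp.le
  have eb : Real.sqrt q ^ 2 = q := Real.sq_sqrt hq.le
  set v := (Real.log p - Real.log q) / 2 with hv
  have hsinh : Real.sinh v = (p - q) * ((Real.sqrt p)⁻¹ * (Real.sqrt q)⁻¹) / 2 := by
    have e1 : Real.exp v = Real.sqrt p / Real.sqrt q := by
      rw [hv, show (Real.log p - Real.log q) / 2 = Real.log (Real.sqrt p) - Real.log (Real.sqrt q) by
        rw [Real.log_sqrt hp.le, Real.log_sqrt hq.le]; ring, Real.exp_sub, Real.exp_log ha,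
        Real.exp_log hb]
    rw [Real.sinh_eq, Real.exp_neg, e1]
    field_simp
    rw [ea, eb]
  rcases le_total q p with h | h
  · have h0 : 0 ≤ v := by rw [hv]; linarith [Real.log_le_log hq h]
    have := Real.self_le_sinh_iff.2 h0
    rw [hsinh, hv] at this
    nlinarith
  · have h0 : v ≤ 0 := by rw [hv]; linarith [Real.log_le_log hp h]
    have := Real.sinh_le_self_iff.2 h0
    rw [hsinh, hv] at this
    nlinarith

theorem mul_log_ge_quad {u : ℝ} (hu : |u| ≤ 1 / 2) :
    u + u ^ 2 / 2 - 4 * |u| ^ 3 ≤ (1 + u) * Real.log (1 + u) := by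
  have h := log_ge_quad hu
  have h1 : 0 ≤ 1 + u := by linarith [(abs_le.1 hu).1]
  have h2 : u ^ 3 ≤ |u| ^ 3 := by rw [← abs_pow]; exact le_abs_self _
  have h3 : -(u * |u| ^ 3) ≥ -(1 / 2 * |u| ^ 3) :=
    neg_le_neg (mul_le_mul_of_nonneg_right (abs_le.1 hu).2 (by positivity))
  nlinarith [mul_le_mul_of_nonneg_left h h1]

theorem exists_spectrum_Icc {a : F} (ha : IsStrictlyPositive a) :
    ∃ l u : ℝ, 0 < l ∧ l ≤ u ∧ spectrum ℝ a ⊆ Icc l u := by
  obtain ⟨l, hl, h⟩ := exists_spectrum_ge ha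
  obtain ⟨u, hu⟩ := (spectrum.isCompact (𝕜 := ℝ) a).bddAbove
  exact ⟨l, max u l, hl, le_max_right _ _, fun t ht => ⟨h t ht, (hu ht).trans (le_max_left _ _)⟩⟩

theorem re_mul_smul (X a : F) (r : ℝ) : (τ (X * (r • a))).re = r * (τ (X * a)).re := by
  rw [mul_smul_comm, ← Complex.coe_smul, map_smul, smul_eq_mul, Complex.re_ofReal_mul]

section Weighted

variable (hτ : IsTrace τ) {X a b : F} (hX : 0 ≤ X) (hXa : Commute X a)
  (ha : IsStrictlyPositive a) (hb : IsStrictlyPositive b)
include hτ hX hXa ha hb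

theorem weighted_klein :
    (τ (X * cfc (fun t => t * Real.log t) a)).re - (τ (X * cfc (fun t => t * Real.log t) b)).re ≤
      (τ (X * ((a - b) * (CFC.log a + 1)))).re := by
  obtain ⟨l, u, hl, hlu, hsa⟩ := exists_spectrum_Icc ha
  obtain ⟨l', u', hl', hlu', hsb⟩ := exists_spectrum_Icc hb
  have hne : ∀ t ∈ Icc l u, t ≠ 0 := fun t ht => (hl.trans_le ht.1).ne'
  have hne' : ∀ t ∈ Icc l' u', t ≠ 0 := fun t ht => (hl'.trans_le ht.1).ne'
  have key := hτ.kernel_nonneg (Finset.univ : Finset (Fin 4)) hX hXa 1 ha.isSelfAdjoint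
    hb.isSelfAdjoint hlu hlu' hsa hsb
    ![fun p => p, fun p => -Real.log p, fun _ => 1, fun _ => -1]
    ![fun _ => 1, fun q => q, fun q => q * Real.log q, fun q => q]
    (fun i _ => by fin_cases i <;> simp <;> fun_prop (disch := assumption))
    (fun i _ => by fin_cases i <;> simp <;> fun_prop (disch := assumption))
    (fun p hp q hq => by
      simp only [Fin.sum_univ_four]
      simp
      have hp0 := hl.trans_le hp.1
      have hq0 := hl'.trans_le hq.1
      have := mul_le_mul_of_nonneg_left (Real.log_le_sub_one_of_pos (div_pos hp0 hq0)) hq0.le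
      rw [Real.log_div hp0.ne' hq0.ne', mul_sub, mul_sub, mul_div_cancel₀ _ hq0.ne'] at this
      linarith)
  simp only [Fin.sum_univ_four] at key
  simp only [Matrix.cons_val_zero, Matrix.cons_val_one, Matrix.cons_val] at key
  rw [cfc_id' ℝ a, cfc_id' ℝ b, cfc_const_one ℝ a, cfc_const_one ℝ b, cfc_neg, cfc_neg,
    cfc_const_one ℝ a] at key
  have ea : cfc (fun t => t * Real.log t) a = a * CFC.log a := by
    rw [cfc_mul (fun t : ℝ => t) Real.log a continuousOn_id
      (Real.continuousOn_log.mono fun t ht => hne t (hsa ht)), cfc_id' ℝ a, CFC.log]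
  rw [CFC.log] at ea ⊢
  simp only [star_one, mul_one, one_mul, neg_mul, mul_neg, map_neg, Complex.neg_re] at key
  rw [ea]
  have ec : τ (X * (cfc Real.log a * b)) = τ (X * (b * cfc Real.log a)) := by
    rw [← mul_assoc, ← ((hXa.symm.cfc_real _).eq), mul_assoc, hτ.comm, mul_assoc]
  rw [ec] at key
  simp only [mul_add, mul_one, sub_mul, mul_sub, map_add, map_sub, Complex.add_re, Complex.sub_re]
  linarith

theorem log_diff_kernel :
    2 * (τ (X * (isq a * (a * (isq b * b))))).re + (τ (X * (a * CFC.log a))).re +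
        (τ (X * (b * CFC.log b))).re ≤
      (τ (X * (a * (isq a * (a * isq b))))).re + (τ (X * (isq a * (b * (isq b * b))))).re +
        (τ (X * (a * CFC.log b))).re + (τ (X * (CFC.log a * b))).re := by
  obtain ⟨l, u, hl, hlu, hsa⟩ := exists_spectrum_Icc ha
  obtain ⟨l', u', hl', hlu', hsb⟩ := exists_spectrum_Icc hb
  have hne : ∀ t ∈ Icc l u, t ≠ 0 := fun t ht => (hl.trans_le ht.1).ne'
  have hne' : ∀ t ∈ Icc l' u', t ≠ 0 := fun t ht => (hl'.trans_le ht.1).ne'
  have hsq : ∀ t ∈ Icc l u, Real.sqrt t ≠ 0 := fun t ht => (Real.sqrt_pos.2 (hl.trans_le ht.1)).ne'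
  have hsq' : ∀ t ∈ Icc l' u', Real.sqrt t ≠ 0 :=
    fun t ht => (Real.sqrt_pos.2 (hl'.trans_le ht.1)).ne'
  set i : ℝ → ℝ := fun t => (Real.sqrt t)⁻¹ with hi
  have key := hτ.kernel_nonneg (Finset.univ : Finset (Fin 7)) hX hXa 1 ha.isSelfAdjoint
    hb.isSelfAdjoint hlu hlu' hsa hsb
    ![fun p => p * i p * p, fun p => -2 * (i p * p), fun p => i p, fun p => -(p * Real.log p),
      fun p => p, fun p => Real.log p, fun _ => -1]
    ![fun q => i q, fun q => i q * q, fun q => q * i q * q, fun _ => 1, fun q => Real.log q,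
      fun q => q, fun q => q * Real.log q]
    (fun j _ => by fin_cases j <;> simp [hi] <;> fun_prop (disch := assumption))
    (fun j _ => by fin_cases j <;> simp [hi] <;> fun_prop (disch := assumption))
    (fun p hp q hq => by
      simp [Fin.sum_univ_succ]
      linear_combination log_scalar_gap (hl.trans_le hp.1) (hl'.trans_le hq.1))
  simp only [Fin.sum_univ_succ, Fin.sum_univ_zero] at key
  simp only [Matrix.cons_val_zero, Matrix.cons_val_succ] at key
  have hca : ContinuousOn i (spectrum ℝ a) := continuousOn_isq ha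
  have hcb : ContinuousOn i (spectrum ℝ b) := continuousOn_isq hb
  have hla : ContinuousOn Real.log (spectrum ℝ a) :=
    Real.continuousOn_log.mono fun t ht => hne t (hsa ht)
  have hlb : ContinuousOn Real.log (spectrum ℝ b) :=
    Real.continuousOn_log.mono fun t ht => hne' t (hsb ht)
  rw [cfc_mul (fun p => p * i p) (fun p => p) a (continuousOn_id.mul hca) continuousOn_id,
    cfc_mul (fun p : ℝ => p) i a continuousOn_id hca,
    cfc_const_mul (-2 : ℝ) (fun p => i p * p) a (hca.mul continuousOn_id),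
    cfc_mul i (fun p : ℝ => p) a hca continuousOn_id, cfc_neg,
    cfc_mul (fun p : ℝ => p) Real.log a continuousOn_id hla,
    cfc_mul i (fun p : ℝ => p) b hcb continuousOn_id,
    cfc_mul (fun p => p * i p) (fun p => p) b (continuousOn_id.mul hcb) continuousOn_id,
    cfc_mul (fun p : ℝ => p) i b continuousOn_id hcb,
    cfc_mul (fun p : ℝ => p) Real.log b continuousOn_id hlb, cfc_const_one ℝ b,
    cfc_neg, cfc_const_one ℝ a, cfc_id' ℝ a, cfc_id' ℝ b, ← CFC.log, ← CFC.log] at key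
  rw [show cfc i a = isq a from rfl, show cfc i b = isq b from rfl] at key
  simp only [star_one, mul_one, one_mul, neg_mul, mul_neg, map_neg, Complex.neg_re, neg_smul,
    smul_mul_assoc, mul_smul_comm, ← Complex.coe_smul, map_smul, smul_eq_mul,
    Complex.re_ofReal_mul] at key
  simp only [mul_assoc] at key
  push_cast at key
  linarith

theorem weighted_log_diff :
    (τ (X * ((a - b) * (CFC.log a - CFC.log b)))).re ≤
      (τ (X * (isq a * (a - b) * isq b * (a - b)))).re := by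
  have key := log_diff_kernel hτ hX hXa ha hb
  have mv : ∀ φ : ℝ → ℝ, ∀ y, τ (X * (cfc φ a * y)) = τ (X * (y * cfc φ a)) := fun φ y => by
    rw [← mul_assoc, ← ((hXa.symm.cfc_real _).eq), mul_assoc, hτ.comm, mul_assoc]
  have mva : ∀ y, τ (X * (a * y)) = τ (X * (y * a)) := fun y => by
    have := mv (fun t => t) y
    rwa [cfc_id' ℝ a ha.isSelfAdjoint] at this
  have hia : isq a * a = a * isq a := ((Commute.refl a).cfc_real _).eq
  have hib : isq b * b = b * isq b := ((Commute.refl b).cfc_real _).eq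
  have e1 : τ (X * (isq a * (a * (isq b * a)))) = τ (X * (a * (isq a * (a * isq b)))) := by
    rw [show isq a * (a * (isq b * a)) = (isq a * (a * isq b)) * a by simp only [mul_assoc], ← mva]
  have e3 : τ (X * (isq a * (b * (isq b * a)))) = τ (X * (isq a * (a * (isq b * b)))) := by
    rw [show isq a * (b * (isq b * a)) = (isq a * (b * isq b)) * a by simp only [mul_assoc], ← mva,
      ← hib, ← mul_assoc a, ← hia, mul_assoc]
  have e4 : τ (X * (CFC.log a * b)) = τ (X * (b * CFC.log a)) := mv _ _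
  rw [e4] at key
  simp only [mul_sub, sub_mul, map_sub, Complex.sub_re, mul_assoc, e1, e3]
  linarith

end Weighted

theorem isq_le_smul_isq {a b : F} (ha : IsStrictlyPositive a) (hb : IsStrictlyPositive b) {r : ℝ}
    (hr : r < 1) (h : (1 - r) • b ≤ a) : isq a ≤ (Real.sqrt (1 - r))⁻¹ • isq b := by
  set c := Real.sqrt (1 - r) with hc
  have hc0 : 0 < c := Real.sqrt_pos.2 (by linarith)
  have hsp : ∀ {x : F}, IsStrictlyPositive x → IsStrictlyPositive (CFC.sqrt x) := fun {x} hx => by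
    rw [CFC.sqrt_eq_real_sqrt x, cfcₙ_eq_cfc]
    exact (cfc_isStrictlyPositive_iff Real.sqrt x).2 fun t ht => Real.sqrt_pos.2 (hx.spectrum_pos ht)
  have h1 : CFC.sqrt ((1 - r) • b) ≤ CFC.sqrt a := CFC.sqrt_le_sqrt _ _ h
  have e : CFC.sqrt ((1 - r) • b) = c • CFC.sqrt b := by
    refine CFC.sqrt_unique ?_ (smul_nonneg hc0.le (CFC.sqrt_nonneg b))
    rw [smul_mul_smul_comm, CFC.sqrt_mul_sqrt_self b hb.nonneg, hc,
      Real.mul_self_sqrt (by linarith : (0 : ℝ) ≤ 1 - r)]
  rw [e] at h1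
  have h2 := CStarAlgebra.ringInverse_le_ringInverse h1 (IsStrictlyPositive.smul hc0 (hsp hb))
  rw [← isq_eq_inverse_sqrt ha] at h2
  refine h2.trans (le_of_eq ?_)
  rw [isq_eq_inverse_sqrt hb]
  obtain ⟨v, hv⟩ := (hsp hb).isUnit
  rw [← hv, Ring.inverse_unit]
  exact Ring.inverse_unit (⟨c • (v : F), c⁻¹ • ((v⁻¹ : Fˣ) : F),
    by rw [smul_mul_smul_comm, mul_inv_cancel₀ hc0.ne', Units.mul_inv, one_smul],
    by rw [smul_mul_smul_comm, inv_mul_cancel₀ hc0.ne', Units.inv_mul, one_smul]⟩ : Fˣ)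

variable {ι : Type*} {s : Finset ι} {f : ℕ → ι → F} {C : ℕ → StarSubalgebra ℂ F} {b : ℝ} {k : ℕ}
  {X : F} {ε : ℝ}

/-- The logarithm of `pr`. -/
def lpr (ε : ℝ) (f : ℕ → ι → F) (l : ℕ) (g : ι) : F :=
  ∑ i ∈ Finset.range l, cfc (fun t : ℝ => Real.log (1 + ε * t)) (f i g)

theorem one_add_smul_eq_cfc (ε : ℝ) {a : F} (ha : IsSelfAdjoint a) :
    1 + ε • a = cfc (fun t : ℝ => 1 + ε * t) a := by
  rw [cfc_const_add 1 (fun t : ℝ => ε * t) a, cfc_const_mul_id ε a, map_one]

theorem spectrum_small {a : F} (han : ‖a‖ ≤ b) (hε : |ε| * b ≤ 1 / 4) {t : ℝ}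
    (ht : t ∈ spectrum ℝ a) : |ε * t| ≤ |ε| * b ∧ 0 < 1 + ε * t := by
  rcases subsingleton_or_nontrivial F with hs | hs
  · simp [spectrum.of_subsingleton] at ht
  have h1 : |ε * t| ≤ |ε| * b := by
    rw [abs_mul]
    exact mul_le_mul_of_nonneg_left ((spectrum.norm_le_norm_of_mem ht).trans han) (abs_nonneg ε)
  exact ⟨h1, by linarith [(abs_le.1 h1).1]⟩

theorem continuousOn_logOneAdd {a : F} (han : ‖a‖ ≤ b) (hε : |ε| * b ≤ 1 / 4) :
    ContinuousOn (fun t : ℝ => Real.log (1 + ε * t)) (spectrum ℝ a) :=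
  ContinuousOn.log (by fun_prop) fun _ ht => (spectrum_small han hε ht).2.ne'

theorem ex_log_one_add {a : F} (ha : IsSelfAdjoint a) (han : ‖a‖ ≤ b) (hε : |ε| * b ≤ 1 / 4) :
    ex 1 (cfc (fun t : ℝ => Real.log (1 + ε * t)) a) = 1 + ε • a := by
  rw [ex, ← cfc_comp' _ _ a (by fun_prop) (continuousOn_logOneAdd han hε), one_add_smul_eq_cfc ε ha]
  exact cfc_congr fun t ht => by rw [one_mul, Real.exp_log (spectrum_small han hε ht).2]

section Steps

variable (h : Steps (τ.comp (LinearMap.mulLeft ℂ X)) s f C b k) (hε : |ε| * b ≤ 1 / 4)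
include h hε

theorem lpr_spec {g : ι} (hg : g ∈ s) : ∀ l, l ≤ k →
    IsSelfAdjoint (lpr ε f l g) ∧ lpr ε f l g ∈ C l ∧ pr ε f l g = ex 1 (lpr ε f l g) := by
  intro l
  induction l with
  | zero => intro _; exact ⟨by simp [lpr], by simp [lpr], by simp [lpr, pr_zero, ex_zero]⟩
  | succ l ih =>
    intro hl
    obtain ⟨h1, h2, h3⟩ := ih (Nat.le_of_succ_le hl)
    have hf := h.selfAdjoint l hl g hg
    have hc : Commute (lpr ε f l g) (cfc (fun t : ℝ => Real.log (1 + ε * t)) (f l g)) :=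
      (((h.commute l hl _ h2 g hg).symm).cfc_real _).symm
    have e : lpr ε f (l + 1) g = lpr ε f l g + cfc (fun t : ℝ => Real.log (1 + ε * t)) (f l g) :=
      Finset.sum_range_succ _ _
    refine ⟨e ▸ h1.add (cfc_predicate _ _), e ▸ add_mem (h.mono (Nat.le_succ l) h2)
      (cfc_mem (hs := h.closed _) _ (h.mem l hl g hg)), ?_⟩
    rw [e, ex_add_of_commute 1 h1 (cfc_predicate _ _) hc, pr_succ, h3,
      ex_log_one_add hf (h.norm_le l hl g hg) hε]

theorem pr_mem {l : ℕ} (hl : l ≤ k) {g : ι} (hg : g ∈ s) : pr ε f l g ∈ C l := by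
  obtain ⟨-, h2, h3⟩ := lpr_spec h hε hg l hl
  exact h3 ▸ ex_mem (h.closed l) _ h2

theorem pr_isStrictlyPositive {l : ℕ} (hl : l ≤ k) {g : ι} (hg : g ∈ s) :
    IsStrictlyPositive (pr ε f l g) := by
  obtain ⟨h1, -, h3⟩ := lpr_spec h hε hg l hl
  exact h3 ▸ ex_isStrictlyPositive _ h1

theorem trace_pr (hXC : ∀ l ≤ k, ∀ Y ∈ C l, Commute X Y) {l : ℕ} (hl : l ≤ k) {g : ι} (hg : g ∈ s) :
    τ (X * pr ε f l g) = τ X := by
  induction l with
  | zero => rw [pr_zero, mul_one]
  | succ l ih =>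
    rw [pr_succ, mul_add, mul_one, mul_add, map_add, ih (Nat.le_of_succ_le hl), mul_smul_comm,
      mul_smul_comm, ← Complex.coe_smul, map_smul]
    have := h.centred l hl _ (pr_mem h hε (Nat.le_of_succ_le hl) hg) g hg
    simp only [LinearMap.comp_apply, LinearMap.mulLeft_apply] at this
    rw [this, smul_zero, add_zero]

variable (hτ : IsTrace τ) (hX : 0 ≤ X) (hXC : ∀ l ≤ k, ∀ Y ∈ C l, Commute X Y)
include hτ hX hXC

/-- Upper growth of the entropy. -/
theorem entropy_step_le (hs : s.Nonempty) {l : ℕ} (hl : l < k) :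
    (τ (X * cfc (fun t => t * Real.log t) (stot s (pr ε f (l + 1))))).re -
      (τ (X * cfc (fun t => t * Real.log t) (stot s (pr ε f l)))).re ≤
      ε ^ 2 / 2 * (Real.sqrt (1 - |ε| * b))⁻¹ *
        (τ (X * (xq s (pr ε f l) (f l) * xq s (pr ε f l) (f l)))).re := by
  set S := stot s (pr ε f l) with hSdef
  set S' := stot s (pr ε f (l + 1)) with hS'def
  set Q := ∑ g ∈ s, pr ε f l g * f l g with hQ
  set r := |ε| * b with hr
  have hr0 : r ≤ 1 / 4 := hε
  have hS : IsStrictlyPositive S :=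
    stot_isStrictlyPositive hs fun g hg => pr_isStrictlyPositive h hε hl.le hg
  have hSC : S ∈ C l := stot_mem fun g hg => pr_mem h hε hl.le hg
  have hQC : Q ∈ C (l + 1) := sum_mem fun g hg =>
    mul_mem (h.mono (Nat.le_succ l) (pr_mem h hε hl.le hg)) (h.mem l hl g hg)
  have hS'e : S' = S + ε • Q := by
    rw [hS'def, hSdef, hQ, stot, stot, Finset.smul_sum, ← Finset.sum_add_distrib]
    exact Finset.sum_congr rfl fun g _ => by rw [pr_succ, mul_add, mul_one, mul_smul_comm]
  have hlow : ∀ θ : ℝ, 0 ≤ θ → θ ≤ 1 → (1 - r) • S ≤ S + θ • (ε • Q) := fun θ h0 h1 => by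
    rw [hSdef, stot, hQ, Finset.smul_sum, Finset.smul_sum, Finset.smul_sum,
      ← Finset.sum_add_distrib]
    refine Finset.sum_le_sum fun g hg => ?_
    have hf := h.selfAdjoint l hl g hg
    have hpp := (pr_isStrictlyPositive h hε hl.le hg).nonneg
    have hnn : 0 ≤ cfc (fun t : ℝ => r + (θ * ε) * t) (f l g) := cfc_nonneg fun t ht => by
      have h2 := abs_le.1 (spectrum_small (h.norm_le l hl g hg) hε ht).1
      have : θ * (ε * t) ≥ -(θ * r) := by nlinarith [h2.1]
      nlinarith [mul_le_of_le_one_left (by linarith [h2.1, h2.2] : 0 ≤ r) h1]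
    have hcm : Commute (pr ε f l g) (cfc (fun t : ℝ => r + (θ * ε) * t) (f l g)) :=
      (((h.commute l hl _ (pr_mem h hε hl.le hg) g hg).symm).cfc_real _).symm
    have := hcm.mul_nonneg hpp hnn
    rw [cfc_const_add r (fun t : ℝ => (θ * ε) * t) (f l g), cfc_const_mul_id _ (f l g),
      Algebra.algebraMap_eq_smul_one, mul_add, mul_smul_comm, mul_smul_comm, mul_one] at this
    rw [sub_smul, one_smul, sub_le_iff_le_add, smul_smul, add_right_comm, add_assoc]
    exact le_add_of_nonneg_right this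
  set Sθ : ℝ → F := fun θ => S + θ • (ε • Q) with hSθ
  have hpos : ∀ θ, 0 ≤ θ → θ ≤ 1 → IsStrictlyPositive (Sθ θ) := fun θ h0 h1 =>
    ((hS.smul (show (0 : ℝ) < 1 - r by linarith))).of_le (hlow θ h0 h1)
  have hXS : ∀ θ : ℝ, Commute X (Sθ θ) := fun θ => Commute.add_right (hXC _ hl.le _ hSC)
    ((((hXC (l + 1) hl _ hQC).smul_right ε)).smul_right θ)
  have hlogS : CFC.log S ∈ C l := cfc_mem (hs := h.closed l) _ hSC
  have hcent : ∀ Y ∈ C l, τ (X * (Q * Y)) = 0 := fun Y hY => by
    rw [hQ, Finset.sum_mul, Finset.mul_sum, map_sum]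
    refine Finset.sum_eq_zero fun g hg => ?_
    have := h.centred l hl _ (mul_mem (pr_mem h hε hl.le hg) hY) g hg
    simp only [LinearMap.comp_apply, LinearMap.mulLeft_apply] at this
    rw [mul_assoc (pr ε f l g), ← (h.commute l hl Y hY g hg).eq, ← mul_assoc (pr ε f l g), this]
  set V := (τ (X * (isq S * Q * isq S * Q))).re with hV
  set c := (Real.sqrt (1 - r))⁻¹ with hc
  have hxq : (τ (X * (xq s (pr ε f l) (f l) * xq s (pr ε f l) (f l)))).re = V := by
    have hiX : Commute X (iq S) := hXC l hl.le _ (iq_mem (h.closed l) hSC)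
    rw [xq, ← hSdef, ← hQ, hV]
    congr 1
    calc τ (X * (iq S * Q * iq S * (iq S * Q * iq S)))
        = τ (X * iq S * (Q * (iq S * iq S) * Q * iq S)) := by simp only [mul_assoc]
      _ = τ (iq S * (X * iq S) * (Q * (iq S * iq S) * Q)) := by
        rw [← mul_assoc (X * iq S), hτ.comm, mul_assoc]
        simp only [mul_assoc]
      _ = τ (X * (iq S * iq S) * (Q * (iq S * iq S) * Q)) := by
        rw [← mul_assoc (iq S) X, ← hiX.eq, mul_assoc X]
      _ = τ (X * (isq S * Q * isq S * Q)) := by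
        rw [iq_mul_iq hS]; simp only [mul_assoc]
  have step : ∀ θ θ' : ℝ, 0 ≤ θ → θ < θ' → θ' ≤ 1 →
      (τ (X * cfc (fun t => t * Real.log t) (Sθ θ'))).re -
        (τ (X * cfc (fun t => t * Real.log t) (Sθ θ))).re ≤ (θ' - θ) * θ' * (ε ^ 2 * c * V) := by
    intro θ θ' h0 h01 h1
    have hp' := hpos θ' (h0.trans h01.le) h1
    refine (weighted_klein hτ hX (hXS θ') hp' (hpos θ h0 (h01.le.trans h1))).trans ?_
    have e : Sθ θ' - Sθ θ = (θ' - θ) • (ε • Q) := by simp only [hSθ, sub_smul]; abel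
    have e' : Sθ θ' - S = θ' • (ε • Q) := by simp only [hSθ]; abel
    rw [e, smul_mul_assoc, re_mul_smul, mul_assoc (θ' - θ)]
    refine mul_le_mul_of_nonneg_left ?_ (by linarith)
    have h2 := weighted_log_diff hτ hX (hXS θ') hp' hS
    rw [e'] at h2
    simp only [smul_mul_assoc, mul_smul_comm, ← Complex.coe_smul, map_smul, smul_eq_mul,
      Complex.re_ofReal_mul] at h2
    have hθ' : 0 < θ' := h0.trans_lt h01
    set A := (τ (X * (Q * (CFC.log (Sθ θ') - CFC.log S)))).re with hA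
    set B := (τ (X * (isq (Sθ θ') * Q * isq S * Q))).re with hB
    have h3 : ε * A ≤ θ' * (ε ^ 2 * B) := le_of_mul_le_mul_left (by linarith) hθ'
    have h4 : (τ (X * (ε • Q * (CFC.log (Sθ θ') + 1)))).re = ε * A := by
      rw [smul_mul_assoc, re_mul_smul, hA]
      have := hcent 1 (one_mem _)
      rw [mul_one] at this
      simp [mul_add, mul_sub, map_add, map_sub, this, hcent _ hlogS]
    rw [h4]
    refine h3.trans ?_
    have hXQ : Commute X (Q * isq S * Q) :=
      (((hXC (l + 1) hl _ hQC).mul_right (hXC l hl.le _ (isq_mem (h.closed l) hSC))).mul_right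
        (hXC (l + 1) hl _ hQC))
    have hQsa : IsSelfAdjoint Q := isSelfAdjoint_sum _ fun g hg =>
      ((pr_isStrictlyPositive h hε hl.le hg).isSelfAdjoint.commute_iff (h.selfAdjoint l hl g hg)).1
        (h.commute l hl _ (pr_mem h hε hl.le hg) g hg)
    have hW : 0 ≤ X * (Q * isq S * Q) := hXQ.mul_nonneg hX (by
      have := star_left_conjugate_nonneg (cfc_nonneg (a := S) (f := fun t : ℝ => (Real.sqrt t)⁻¹)
        fun t _ => inv_nonneg.2 (Real.sqrt_nonneg t)) Q
      rwa [hQsa.star_eq] at this)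
    have mv : ∀ y : F, Commute X y → τ (X * (y * Q * isq S * Q)) = τ (X * (Q * isq S * Q) * y) :=
      fun y hy => by
        rw [show y * Q * isq S * Q = y * (Q * isq S * Q) by simp only [mul_assoc], ← mul_assoc,
          hy.eq, mul_assoc, hτ.comm]
    have h5 : (τ (X * (isq (Sθ θ') * Q * isq S * Q))).re ≤ c * V := by
      rw [mv (isq (Sθ θ')) ((hXS θ').symm.cfc_real _).symm, hV, mv _ (hXC l hl.le _ (isq_mem (h.closed l) hSC))]
      refine (hτ.mul_le_mul_left hW (isq_le_smul_isq hp' hS (by linarith) (hlow θ' hθ'.le h1))).trans ?_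
      rw [← hc, re_mul_smul]
    nlinarith [mul_le_mul_of_nonneg_left h5 (mul_nonneg hθ'.le (sq_nonneg ε))]
  rw [hxq]
  set φ : ℝ → ℝ := fun θ => (τ (X * cfc (fun t => t * Real.log t) (Sθ θ))).re with hφ
  have hn : ∀ n : ℕ, φ 1 - φ 0 ≤ ((1 : ℝ) + 1 / ((n : ℝ) + 1)) * (ε ^ 2 / 2 * c * V) := by
    intro n
    set N : ℝ := (n : ℝ) + 1 with hN
    have hN0 : 0 < N := by positivity
    have hsum : ∀ m, m ≤ n + 1 → φ (m / N) - φ 0 ≤ (m * (m + 1) / 2) / N ^ 2 * (ε ^ 2 * c * V) := by
      intro m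
      induction m with
      | zero => intro _; simp
      | succ m ih =>
        intro hm
        have hmn : (m : ℝ) + 1 ≤ N := by rw [hN]; exact_mod_cast hm
        have h1 := step ((m : ℝ) / N) (((m : ℝ) + 1) / N) (by positivity)
          (by rw [div_lt_div_iff_of_pos_right hN0]; linarith) (by rw [div_le_one hN0]; exact hmn)
        have h2 := ih (Nat.le_of_succ_le hm)
        push_cast
        have e : (((m : ℝ) + 1) / N - m / N) * (((m : ℝ) + 1) / N) * (ε ^ 2 * c * V) +
            m * (m + 1) / 2 / N ^ 2 * (ε ^ 2 * c * V) =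
            (m + 1) * (m + 1 + 1) / 2 / N ^ 2 * (ε ^ 2 * c * V) := by field_simp; ring
        simp only [hφ] at h2 ⊢
        linarith
    have := hsum (n + 1) le_rfl
    push_cast at this
    rw [← hN, div_self hN0.ne'] at this
    refine this.trans (le_of_eq ?_)
    field_simp
  have hlim : Tendsto (fun n : ℕ => ((1 : ℝ) + 1 / ((n : ℝ) + 1)) * (ε ^ 2 / 2 * c * V)) atTop
      (𝓝 ((1 + 0) * (ε ^ 2 / 2 * c * V))) :=
    ((tendsto_one_div_add_atTop_nhds_zero_nat (𝕜 := ℝ)).const_add 1).mul_const _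
  have := ge_of_tendsto' hlim hn
  simp only [hφ, hSθ, one_smul, zero_smul, add_zero, one_mul] at this
  rwa [← hS'e] at this

/-- Lower growth for a single density. -/
theorem single_entropy_ge {g : ι} (hg : g ∈ s) : ∀ n, n ≤ k →
    ∑ l ∈ Finset.range n, (ε ^ 2 / 2 * (τ (X * (pr ε f l g * (f l g * f l g)))).re -
      4 * (|ε| * b) ^ 3 * (τ X).re) ≤ (τ (X * (pr ε f n g * lpr ε f n g))).re := by
  intro n
  induction n with
  | zero => intro _; simp [lpr, pr_zero]
  | succ l ih =>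
    intro hl
    have h0 := ih (Nat.le_of_succ_le hl)
    obtain ⟨h1, h2, -⟩ := lpr_spec h hε hg l (Nat.le_of_succ_le hl)
    set P := pr ε f l g
    set f₀ := f l g
    have hf : IsSelfAdjoint f₀ := h.selfAdjoint l hl g hg
    have hn := h.norm_le l hl g hg
    have hPC := pr_mem h hε (Nat.le_of_succ_le hl) hg
    have cent : ∀ Y ∈ C l, τ (X * (Y * f₀)) = 0 := fun Y hY => by
      have := h.centred l hl _ hY g hg
      simpa using this
    set Λ := cfc (fun t : ℝ => Real.log (1 + ε * t)) f₀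
    have hlow : ε • f₀ + (ε ^ 2 / 2) • (f₀ * f₀) - (4 * (|ε| * b) ^ 3) • (1 : F) ≤
        (1 + ε • f₀) * Λ := by
      have hcl := continuousOn_logOneAdd hn hε
      rw [one_add_smul_eq_cfc ε hf, ← cfc_mul _ _ f₀ (by fun_prop) hcl]
      have e : ε • f₀ + (ε ^ 2 / 2) • (f₀ * f₀) - (4 * (|ε| * b) ^ 3) • (1 : F) =
          cfc (fun t : ℝ => ε * t + ε ^ 2 / 2 * (t * t) - 4 * (|ε| * b) ^ 3) f₀ := by
        rw [cfc_sub (fun t : ℝ => ε * t + ε ^ 2 / 2 * (t * t)) (fun _ => 4 * (|ε| * b) ^ 3) f₀,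
          cfc_add f₀ (fun t : ℝ => ε * t) (fun t => ε ^ 2 / 2 * (t * t)), cfc_const_mul_id ε f₀,
          cfc_const_mul (ε ^ 2 / 2) (fun t : ℝ => t * t) f₀, cfc_mul (fun t : ℝ => t) (fun t => t) f₀,
          cfc_id' ℝ f₀, cfc_const _ f₀, Algebra.algebraMap_eq_smul_one]
      rw [e]
      refine cfc_mono (fun t ht => ?_) (by fun_prop) ((by fun_prop : ContinuousOn _ _).mul hcl)
      obtain ⟨h5, -⟩ := spectrum_small hn hε ht
      have h6 := mul_log_ge_quad (h5.trans (hε.trans (by norm_num)))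
      have h7 := pow_le_pow_left₀ (abs_nonneg _) h5 3
      nlinarith
    have hW : 0 ≤ X * P := (hXC l (Nat.le_of_succ_le hl) P hPC).mul_nonneg hX
      (pr_isStrictlyPositive h hε (Nat.le_of_succ_le hl) hg).nonneg
    have h3 := hτ.mul_le_mul_left hW hlow
    rw [Finset.sum_range_succ]
    refine le_trans (add_le_add h0 le_rfl) (le_of_le_of_eq (add_le_add le_rfl ?_)
      (?_ : (τ (X * (P * lpr ε f l g))).re + (τ (X * P * ((1 + ε • f₀) * Λ))).re = _))
    · refine le_of_eq_of_le ?_ h3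
      rw [mul_sub, mul_add, map_sub, map_add, Complex.sub_re, Complex.add_re, re_mul_smul,
        re_mul_smul, re_mul_smul, mul_one, trace_pr h hε hXC (Nat.le_of_succ_le hl) hg,
        mul_assoc X P f₀, cent P hPC]
      simp [P, f₀, mul_assoc]
    · have e : lpr ε f (l + 1) g = lpr ε f l g + Λ := Finset.sum_range_succ _ _
      have hcomm : Commute (lpr ε f l g) f₀ := h.commute l hl _ h2 g hg
      have : P * (1 + ε • f₀) * (lpr ε f l g + Λ) =
          P * lpr ε f l g + ε • (P * lpr ε f l g * f₀) + P * ((1 + ε • f₀) * Λ) := by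
        simp only [mul_add, add_mul, mul_one, one_mul, mul_smul_comm, smul_mul_assoc, mul_assoc,
          hcomm.eq]
      rw [pr_succ, e, this, mul_add, mul_add, map_add, map_add, Complex.add_re, Complex.add_re,
        re_mul_smul, cent _ (mul_mem hPC h2), ← mul_assoc X P ((1 + ε • f₀) * Λ)]
      simp

/-- **The entropy bound.** -/
theorem sum_gap_le (hs : s.Nonempty) (hε0 : ε ≠ 0) :
    ∑ l ∈ Finset.range k, ((∑ g ∈ s, (τ (X * (pr ε f l g * (f l g * f l g)))).re) -
        (τ (X * (xq s (pr ε f l) (f l) * xq s (pr ε f l) (f l)))).re) ≤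
      s.card * (τ X).re * (9 * k * (|ε| * b ^ 3) + 2 * Real.log s.card / ε ^ 2) := by
  set H : ℕ → ℝ := fun l => (τ (X * cfc (fun t => t * Real.log t) (stot s (pr ε f l)))).re with hH
  set r := |ε| * b with hr
  obtain ⟨g₀, hg₀⟩ := hs
  set c := (Real.sqrt (1 - r))⁻¹ with hc
  set V := fun l => (τ (X * (xq s (pr ε f l) (f l) * xq s (pr ε f l) (f l)))).re with hVd
  set M := fun l => ∑ g ∈ s, (τ (X * (pr ε f l g * (f l g * f l g)))).re with hMd
  have hup : H k - H 0 ≤ ε ^ 2 / 2 * c * ∑ l ∈ Finset.range k, V l := by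
    rw [← Finset.sum_range_sub, Finset.mul_sum]
    exact Finset.sum_le_sum fun l hl =>
      entropy_step_le h hε hτ hX hXC ⟨g₀, hg₀⟩ (Finset.mem_range.1 hl)
  have hcard : (0 : ℝ) < s.card := Nat.cast_pos.2 (Finset.card_pos.2 ⟨g₀, hg₀⟩)
  have h0 : H 0 = s.card * Real.log s.card * (τ X).re := by
    rcases subsingleton_or_nontrivial F with hF | hF
    · simp [hH, Subsingleton.elim X 0]
    have e : stot s (pr ε f 0) = algebraMap ℝ F (s.card : ℝ) := by
      rw [stot, Algebra.algebraMap_eq_smul_one, Finset.sum_congr rfl fun g _ => pr_zero ε f g,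
        Finset.sum_const, Nat.cast_smul_eq_nsmul]
    simp only [hH]
    rw [e, cfc_algebraMap, Algebra.algebraMap_eq_smul_one, re_mul_smul, mul_one]
  set S := stot s (pr ε f k) with hSd
  have hS : IsStrictlyPositive S :=
    stot_isStrictlyPositive ⟨g₀, hg₀⟩ fun g hg => pr_isStrictlyPositive h hε le_rfl hg
  have hlow : ∑ g ∈ s, (τ (X * (pr ε f k g * lpr ε f k g))).re ≤ H k := by
    obtain ⟨l, u, hl, -, hsp⟩ := exists_spectrum_Icc hS
    have e : cfc (fun t => t * Real.log t) S = S * CFC.log S := by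
      rw [cfc_mul (fun t : ℝ => t) Real.log S continuousOn_id
        (Real.continuousOn_log.mono fun t ht => (hl.trans_le (hsp ht).1).ne'), cfc_id' ℝ S, CFC.log]
    simp only [hH]
    rw [← hSd, e, hSd, stot, Finset.sum_mul, Finset.mul_sum, map_sum, Complex.re_sum, ← stot, ← hSd]
    refine Finset.sum_le_sum fun g hg => ?_
    obtain ⟨h1, -, h3⟩ := lpr_spec h hε hg k le_rfl
    have hP := pr_isStrictlyPositive h hε le_rfl hg
    have hle : lpr ε f k g ≤ CFC.log S := by
      have := CFC.log_le_log (a := pr ε f k g) (b := S) (Finset.single_le_sum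
        (f := pr ε f k) (fun i hi => (pr_isStrictlyPositive h hε le_rfl hi).nonneg) hg) hP
      refine le_of_eq_of_le ?_ this
      rw [h3, CFC.log, ex, ← cfc_comp' Real.log (fun t : ℝ => Real.exp (1 * t)) (lpr ε f k g)
        (Real.continuousOn_log.mono fun x hx => by
          obtain ⟨t, -, rfl⟩ := hx; exact (Real.exp_pos _).ne') (by fun_prop)]
      simp only [one_mul, Real.log_exp, cfc_id' ℝ (lpr ε f k g) h1]
    have := hτ.mul_le_mul_left ((hXC k le_rfl _ (pr_mem h hε le_rfl hg)).mul_nonneg hX hP.nonneg) hle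
    simpa only [mul_assoc] using this
  have hgain : ε ^ 2 / 2 * ∑ l ∈ Finset.range k, M l -
      k * (4 * r ^ 3) * (s.card * (τ X).re) ≤ ∑ g ∈ s, (τ (X * (pr ε f k g * lpr ε f k g))).re := by
    refine le_of_eq_of_le ?_ (Finset.sum_le_sum fun g hg => single_entropy_ge h hε hτ hX hXC hg k le_rfl)
    simp only [Finset.sum_sub_distrib, ← Finset.mul_sum, Finset.sum_const, Finset.card_range,
      nsmul_eq_mul, hMd]
    rw [Finset.sum_comm (s := s) (t := Finset.range k)]
    ring
  have hX0 : 0 ≤ (τ X).re := (Complex.nonneg_iff.1 (hτ.map_nonneg hX)).1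
  have hMle : ∀ l < k, M l ≤ b ^ 2 * (s.card * (τ X).re) := fun l hl => by
    refine (Finset.sum_le_sum (g := fun _ => b ^ 2 * (τ X).re) fun g hg => ?_).trans (le_of_eq (by
      simp; ring))
    have hW : 0 ≤ X * pr ε f l g := (hXC l hl.le _ (pr_mem h hε hl.le hg)).mul_nonneg hX
      (pr_isStrictlyPositive h hε hl.le hg).nonneg
    have hf := h.selfAdjoint l hl g hg
    have hb : f l g * f l g ≤ algebraMap ℝ F (b ^ 2) := by
      have := (IsSelfAdjoint.star_mul_self (f l g)).le_algebraMap_norm_self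
      rw [CStarRing.norm_star_mul_self, hf.star_eq, ← sq ‖f l g‖] at this
      exact this.trans (algebraMap_mono F (pow_le_pow_left₀ (norm_nonneg _) (h.norm_le l hl g hg) 2))
    have := hτ.mul_le_mul_left hW hb
    rw [Algebra.algebraMap_eq_smul_one, re_mul_smul, mul_one, trace_pr h hε hXC hl.le hg, mul_assoc]
      at this
    exact this
  rcases Nat.eq_zero_or_pos k with rfl | hk
  · simp only [Finset.range_zero, Finset.sum_empty, Nat.cast_zero]
    have := Real.log_nonneg (show (1 : ℝ) ≤ s.card by exact_mod_cast Finset.card_pos.2 ⟨g₀, hg₀⟩)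
    refine mul_nonneg (mul_nonneg hcard.le hX0) ?_
    simp only [mul_zero, zero_mul, zero_add]
    positivity
  have hb0 : 0 ≤ b := (norm_nonneg _).trans (h.norm_le 0 hk g₀ hg₀)
  have hr0 : 0 ≤ r := mul_nonneg (abs_nonneg _) hb0
  set N := (s.card : ℝ) * (τ X).re with hN
  set SM := ∑ l ∈ Finset.range k, M l with hSM
  set SV := ∑ l ∈ Finset.range k, V l with hSV
  have hsum : SM ≤ k * (b ^ 2 * N) :=
    (Finset.sum_le_sum fun l hl => hMle l (Finset.mem_range.1 hl)).trans (le_of_eq (by simp))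
  have he2 : 0 < ε ^ 2 := by positivity
  have hc1 : 1 ≤ c := by
    rw [hc]; refine one_le_inv_iff₀.2 ⟨Real.sqrt_pos.2 (by linarith), Real.sqrt_le_one.2 (by linarith)⟩
  have hcinv : 1 - r ≤ c⁻¹ := by
    rw [hc, inv_inv]
    exact Real.le_sqrt_of_sq_le (by nlinarith)
  have hlog := Real.log_nonneg (show (1 : ℝ) ≤ s.card by exact_mod_cast Finset.card_pos.2 ⟨g₀, hg₀⟩)
  have hN0 : 0 ≤ N := mul_nonneg hcard.le hX0
  set B := Real.log s.card * N + k * (4 * r ^ 3) * N with hB
  have hB0 : 0 ≤ B := by positivity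
  have h1 : ε ^ 2 / 2 * SM ≤ B + c * (ε ^ 2 / 2 * SV) := by
    rw [hB, hN]
    rw [h0] at hup
    nlinarith
  have h2 : ε ^ 2 / 2 * SV ≥ c⁻¹ * (ε ^ 2 / 2 * SM) - B := by
    have h3 := mul_le_mul_of_nonneg_left h1 (inv_nonneg.2 (zero_le_one.trans hc1))
    rw [mul_add, ← mul_assoc c⁻¹ c, inv_mul_cancel₀ (by linarith : c ≠ 0), one_mul] at h3
    nlinarith [mul_le_of_le_one_left hB0 (inv_le_one_of_one_le₀ hc1)]
  have hSM0 : 0 ≤ SM := Finset.sum_nonneg fun l hl => Finset.sum_nonneg fun g hg => by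
    have hl' := Finset.mem_range.1 hl
    have hf := h.selfAdjoint l hl' g hg
    rw [← mul_assoc]
    exact (Complex.nonneg_iff.1 (hτ.map_mul_nonneg ((hXC l hl'.le _ (pr_mem h hε hl'.le hg)).mul_nonneg
      hX (pr_isStrictlyPositive h hε hl'.le hg).nonneg) hf.mul_self_nonneg)).1
  rw [Finset.sum_sub_distrib]
  refine le_of_mul_le_mul_left ?_ (by positivity : (0 : ℝ) < ε ^ 2 / 2)
  have h4 : (1 - r) * (ε ^ 2 / 2 * SM) ≤ c⁻¹ * (ε ^ 2 / 2 * SM) :=
    mul_le_mul_of_nonneg_right hcinv (by positivity)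
  have h5 : r * (ε ^ 2 / 2 * SM) ≤ r * (ε ^ 2 / 2 * (k * (b ^ 2 * N))) :=
    mul_le_mul_of_nonneg_left (mul_le_mul_of_nonneg_left hsum (by positivity)) hr0
  have h6 : r ^ 3 = ε ^ 2 * (|ε| * b ^ 3) := by rw [hr, ← sq_abs ε]; ring
  have h7 : ε ^ 2 / 2 * (N * (9 * k * (|ε| * b ^ 3) + 2 * Real.log s.card / ε ^ 2)) =
      9 / 2 * k * N * r ^ 3 + Real.log s.card * N := by
    rw [h6]; field_simp
  have h8 : r * (ε ^ 2 / 2 * (k * (b ^ 2 * N))) = k * N * r ^ 3 / 2 := by
    rw [hr, ← sq_abs ε]; ring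
  rw [h7]
  rw [hB] at h2
  nlinarith

end Steps

end

end Vale.Agent.P095.Amenable
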