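import Vale.Agent.P095.Amenable.CoreBasic

/-!
# Centred increments over a filtration of subalgebras
-/

set_option linter.unusedSectionVars false

open scoped ComplexOrder

namespace Vale.Agent.P095.Amenable

noncomputable section

variable {F : Type*} [CStarAlgebra F] {ι : Type*}

/-- `f l g` is self-adjoint of norm at most `b`, lies in `C (l+1)`, commutes with `C l` and is
orthogonal to `C l` for `τ`. -/
structure Steps (τ : F →ₗ[ℂ] ℂ) (s : Finset ι) (f : ℕ → ι → F) (C : ℕ → StarSubalgebra ℂ F)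
    (b : ℝ) (k : ℕ) : Prop where
  closed : ∀ l, IsClosed (C l : Set F)
  mono : Monotone C
  selfAdjoint : ∀ l, l < k → ∀ g ∈ s, IsSelfAdjoint (f l g)
  norm_le : ∀ l, l < k → ∀ g ∈ s, ‖f l g‖ ≤ b
  mem : ∀ l, l < k → ∀ g ∈ s, f l g ∈ C (l + 1)
  commute : ∀ l, l < k → ∀ X ∈ C l, ∀ g ∈ s, Commute X (f l g)
  centred : ∀ l, l < k → ∀ X ∈ C l, ∀ g ∈ s, τ (X * f l g) = 0

namespace Steps

variable {τ : F →ₗ[ℂ] ℂ} {s : Finset ι} {f : ℕ → ι → F} {C : ℕ → StarSubalgebra ℂ F} {b : ℝ}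
  {k : ℕ} (h : Steps τ s f C b k)
include h

theorem psum_selfAdjoint {l : ℕ} (hl : l ≤ k) {g : ι} (hg : g ∈ s) :
    IsSelfAdjoint (psum f l g) := by
  rw [psum, isSelfAdjoint_iff, star_sum]
  exact Finset.sum_congr rfl fun i hi =>
    h.selfAdjoint i (lt_of_lt_of_le (Finset.mem_range.1 hi) hl) g hg

theorem psum_mem {l : ℕ} (hl : l ≤ k) {g : ι} (hg : g ∈ s) : psum f l g ∈ C l :=
  sum_mem fun i hi =>
    h.mono (Finset.mem_range.1 hi) (h.mem i (lt_of_lt_of_le (Finset.mem_range.1 hi) hl) g hg)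

theorem psum_norm_le {l : ℕ} (hl : l ≤ k) {g : ι} (hg : g ∈ s) :
    ‖psum f l g‖ ≤ (l : ℝ) * b := by
  refine (norm_sum_le _ _).trans ((Finset.sum_le_card_nsmul _ _ b fun i hi =>
    h.norm_le i (lt_of_lt_of_le (Finset.mem_range.1 hi) hl) g hg).trans ?_)
  simp

theorem part_mem {l : ℕ} (hl : l ≤ k) (w : ι → ℝ) (ε : ℝ) : part s w ε f l ∈ C l :=
  sum_mem fun g hg => by
    rw [← Complex.coe_smul]
    exact SMulMemClass.smul_mem _ (ex_mem (h.closed l) ε (h.psum_mem hl hg))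

theorem mom_mem {l : ℕ} (hl : l < k) (w : ι → ℝ) (ε : ℝ) {x : ι → F}
    (hx : ∀ g ∈ s, x g ∈ C (l + 1)) : mom s w ε f l x ∈ C (l + 1) :=
  sum_mem fun g hg => by
    rw [← Complex.coe_smul]
    have := ex_mem (h.closed (l + 1)) (ε / 2) (h.mono (Nat.le_succ l) (h.psum_mem hl.le hg))
    exact SMulMemClass.smul_mem _ (mul_mem (mul_mem this (hx g hg)) this)

theorem avg_mem {l : ℕ} (hl : l < k) (w : ι → ℝ) (ε : ℝ) {x : ι → F}
    (hx : ∀ g ∈ s, x g ∈ C (l + 1)) : avg s w ε f l x ∈ C (l + 1) := by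
  have := isq_mem (h.closed (l + 1)) (h.mono (Nat.le_succ l) (h.part_mem hl.le w ε))
  exact mul_mem (mul_mem this (h.mom_mem hl w ε hx)) this

/-- The average of a centred family is centred. -/
theorem trace_mul_avg (hτ : IsTrace τ) {l : ℕ} (hl : l ≤ k) (w : ι → ℝ) (ε : ℝ) {x : ι → F}
    (hx : ∀ X ∈ C l, ∀ g ∈ s, τ (X * x g) = 0) {X : F} (hX : X ∈ C l) :
    τ (X * avg s w ε f l x) = 0 := by
  set q := isq (part s w ε f l) with hq
  have hqm : q ∈ C l := isq_mem (h.closed l) (h.part_mem hl w ε)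
  rw [avg, ← hq, mom, Finset.mul_sum, Finset.sum_mul, Finset.mul_sum, map_sum]
  refine Finset.sum_eq_zero fun g hg => ?_
  have hem : ex (ε / 2) (psum f l g) ∈ C l := ex_mem (h.closed l) _ (h.psum_mem hl hg)
  rw [← Complex.coe_smul, mul_smul_comm, smul_mul_assoc, mul_smul_comm, map_smul]
  have e : τ (X * (q * (ex (ε / 2) (psum f l g) * x g * ex (ε / 2) (psum f l g)) * q))
      = τ ((ex (ε / 2) (psum f l g) * q * X * q * ex (ε / 2) (psum f l g)) * x g) := by
    rw [show X * (q * (ex (ε / 2) (psum f l g) * x g * ex (ε / 2) (psum f l g)) * q)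
        = (X * q * ex (ε / 2) (psum f l g) * x g) * (ex (ε / 2) (psum f l g) * q) by
      simp only [mul_assoc], hτ.comm]
    congr 1
    simp only [mul_assoc]
  rw [e, hx _ (mul_mem (mul_mem (mul_mem (mul_mem hem hqm) hX) hqm) hem) g hg, smul_zero]

theorem part_succ {l : ℕ} (hl : l < k) (w : ι → ℝ) (ε : ℝ) :
    part s w ε f (l + 1) = mom s w ε f l fun g => ex ε (f l g) :=
  Finset.sum_congr rfl fun g hg => by
    have e : psum f (l + 1) g = psum f l g + f l g := Finset.sum_range_succ _ _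
    rw [e, ex_add_sandwich ε (h.psum_selfAdjoint hl.le hg) (h.selfAdjoint l hl g hg)
      (h.commute l hl _ (h.psum_mem hl.le hg) g hg)]

end Steps

end

end Vale.Agent.P095.Amenable
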