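import Vale.Agent.P095.Amenable.Quartic

/-!
# From averages to absorption

If a subgroup absorbs, there are coins and averages with small defect on finitely many elements
orthogonal to commutants, almost invariant under given elements, then the group they generate
absorbs.
-/

set_option linter.unusedSectionVars false

open TopologicalSpace Filter
open scoped ComplexOrder
open Vale.Agent.P101 (genAlg isClosed_genAlg subset_genAlg genAlg_le isSeparable_genAlg)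

namespace Vale.Agent.P095.Amenable

noncomputable section

variable {G : Type} [Group G] {F : Type*} [CStarAlgebra F]
  {T : Set (F →ₗ[ℂ] ℂ)} {α : G → (F ≃⋆ₐ[ℂ] F)}

/-- For self-adjoint elements whose translates are orthogonal to commutants and which are fixed by
`N`, unital maps into the commutant of a countable set with small defect on these elements, almost
invariant under the elements of `V` on elements fixed by `N`. -/
def HasAverages (T : Set (F →ₗ[ℂ] ℂ)) (α : G → (F ≃⋆ₐ[ℂ] F)) (N : Subgroup G) (V : Set G) : Prop :=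
  ∀ D : StarSubalgebra ℂ F, IsClosed (D : Set F) → IsSeparable (D : Set F) →
    ∀ (hinv : ∀ g, ∀ d ∈ D, α g d ∈ D) (n : ℕ) (y : Fin n → D),
    (∀ i, IsSelfAdjoint (y i : F)) → (∀ i, FixedBy T α N (y i : F)) →
    (∀ τ ∈ T, ∀ i g (φ : D →⋆ₐ[ℂ] F) (X : F), (∀ d, Commute X (φ d)) →
      τ (X * φ ⟨α g (y i : F), hinv g _ (y i).2⟩) = 0) →
    ∀ S : Set F, S.Countable → ∀ δ : ℝ, 0 < δ →
    ∃ E : D →ₗ[ℂ] F, E 1 = 1 ∧ (∀ d, ‖E d‖ ≤ ‖(d : F)‖) ∧ (∀ d, E (star d) = star (E d)) ∧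
      (∀ d, ∀ t ∈ S, Commute (E d) t) ∧ (∀ d : D, Cong T (d : F) 0 → Cong T (E d) 0) ∧
      (∀ τ ∈ T, ∀ i, (τ (E (y i * y i) - E (y i) * E (y i))).re ≤ δ) ∧
      (∀ τ ∈ T, ∀ d e, tn τ (E (d * e) - E d * E e) ≤
        ‖(e : F)‖ * Real.sqrt (τ (E (d * star d) - E d * E (star d))).re) ∧
      ∀ τ ∈ T, ∀ g ∈ V, ∀ d : D, FixedBy T α N (d : F) →
        tn τ (α g (E d) - E d) ≤ δ * ‖(d : F)‖

theorem map_mem_genAlg (φ : F →⋆ₐ[ℂ] F) {X Y : Set F} (h : ∀ x ∈ X, φ x ∈ genAlg Y) {x : F}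
    (hx : x ∈ genAlg X) : φ x ∈ genAlg Y :=
  genAlg_le (U := (genAlg Y).comap φ)
    ((isClosed_genAlg Y).preimage (Vale.Agent.P101.hom_continuous φ)) h hx



/-- The self-adjoint parts of an element. -/
def parts (c : F) : Bool → F
  | true => (1 / 2 : ℂ) • (c + star c)
  | false => (-(Complex.I / 2)) • (c - star c)

theorem parts_selfAdjoint (c : F) (s : Bool) : IsSelfAdjoint (parts c s) := by
  cases s <;>
    simp only [parts, isSelfAdjoint_iff, star_smul, star_add, star_sub, star_star, one_div,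
      map_div₀, map_neg, Complex.star_def, map_inv₀, Complex.conj_I, map_ofNat]
  · rw [← neg_sub (star c) c, smul_neg, ← neg_smul]
    congr 1
    ring
  · rw [add_comm]

theorem parts_eq (c : F) : c = parts c true + Complex.I • parts c false := by
  simp only [parts, smul_smul]
  rw [show Complex.I * -(Complex.I / 2) = 1 / 2 by rw [← neg_div, ← mul_div_assoc, mul_neg,
    Complex.I_mul_I, neg_neg]]
  rw [← smul_add, show c + star c + (c - star c) = (2 : ℂ) • c by rw [two_smul]; abel, smul_smul]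
  norm_num

theorem parts_mem {U : StarSubalgebra ℂ F} {c : F} (hc : c ∈ U) (s : Bool) : parts c s ∈ U := by
  cases s
  · exact SMulMemClass.smul_mem _ (sub_mem hc (star_mem hc))
  · exact SMulMemClass.smul_mem _ (add_mem hc (star_mem hc))

variable {D : StarSubalgebra ℂ F}

/-- Translates of parts of commutators are orthogonal to the commutant. -/
theorem parts_centred (hinv : ∀ g, ∀ d ∈ D, α g d ∈ D) {τ : F →ₗ[ℂ] ℂ} (hτ : IsTrace τ) {a b c : F}
    (ha : a ∈ D) (hb : b ∈ D) (hc : c = a * b - b * a) (s : Bool) (g : G) (φ : D →⋆ₐ[ℂ] F) (X : F)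
    (hX : ∀ d, Commute X (φ d)) (h : α g (parts c s) ∈ D) :
    τ (X * φ ⟨α g (parts c s), h⟩) = 0 := by
  subst hc
  let A : D := ⟨α g a, hinv g a ha⟩
  let B : D := ⟨α g b, hinv g b hb⟩
  have e1 : τ (X * (φ A * φ B - φ B * φ A)) = 0 := hτ.mul_commutator_eq_zero (hX A)
  have e2 : τ (X * (φ (star B) * φ (star A) - φ (star A) * φ (star B))) = 0 :=
    hτ.mul_commutator_eq_zero (hX (star B))
  cases s
  · have e : (⟨α g (parts (a * b - b * a) false), h⟩ : D) =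
        (-(Complex.I / 2)) • ((A * B - B * A) - (star B * star A - star A * star B)) :=
      Subtype.ext (by simp [parts, A, B, map_star])
    rw [e, map_smul, map_sub φ, map_sub φ, map_sub φ, map_mul φ, map_mul φ, map_mul φ, map_mul φ,
      mul_smul_comm, map_smul, mul_sub, map_sub, e1, e2, sub_zero, smul_zero]
  · have e : (⟨α g (parts (a * b - b * a) true), h⟩ : D) =
        (1 / 2 : ℂ) • ((A * B - B * A) + (star B * star A - star A * star B)) :=
      Subtype.ext (by simp [parts, A, B, map_star])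
    rw [e, map_smul, map_add φ, map_sub φ, map_sub φ, map_mul φ, map_mul φ, map_mul φ, map_mul φ,
      mul_smul_comm, map_smul, mul_add, map_add, e1, e2, add_zero, smul_zero]

/-- A map almost multiplicative on the left of given elements is almost multiplicative on the left
of a congruent short polynomial in them. -/
theorem almost_mul_le (hT : ∀ τ ∈ T, IsTrace τ) (E : D →ₗ[ℂ] F) (hn : ∀ d, ‖E d‖ ≤ ‖(d : F)‖)
    (hnull : ∀ d : D, Cong T (d : F) 0 → Cong T (E d) 0) {τ : F →ₗ[ℂ] ℂ} (hτ : τ ∈ T) {m : ℕ}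
    (c : Fin m → Fin 4 → D) {γ : ℝ}
    (hc : ∀ i j e, tn τ (E (c i j * e) - E (c i j) * E e) ≤ γ * ‖(e : F)‖) (z : D)
    (hz : Cong T (z : F) ((∑ i, (c i 0 + c i 1 - c i 2 * c i 3) : D) : F)) (e : D) :
    tn τ (E (z * e) - E z * E e) ≤
      γ * ‖(e : F)‖ * ∑ i, (2 + 2 * ‖(c i 3 : F)‖ + ‖(c i 2 : F)‖) := by
  have h := hT τ hτ
  set p : D := ∑ i, (c i 0 + c i 1 - c i 2 * c i 3) with hp
  have h0 : Cong T ((z - p : D) : F) 0 := fun σ hσ => by
    simpa using hz σ hσ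
  have c1 : Cong T (E (z * e)) (E (p * e)) := fun σ hσ => by
    have := hnull ((z - p) * e) (by simpa using Cong.mul hT h0 (Cong.refl T (e : F))) σ hσ
    rwa [sub_mul, map_sub, sub_zero] at this
  have c2 : Cong T (E z) (E p) := fun σ hσ => by
    have := hnull (z - p) h0 σ hσ
    rwa [map_sub, sub_zero] at this
  have c3 := Cong.add hT c1 (Cong.smul hT (Cong.mul hT c2 (Cong.refl T (E e))) (-1))
  simp only [neg_smul, one_smul, ← sub_eq_add_neg] at c3
  rw [show E (z * e) - E z * E e = (E (z * e) - E z * E e - (E (p * e) - E p * E e)) +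
    (E (p * e) - E p * E e) by abel]
  refine (h.tn_add_le _ _).trans ?_
  rw [c3 τ hτ, zero_add, hp]
  simp only [Finset.sum_mul, map_sum, Finset.mul_sum, ← Finset.sum_sub_distrib]
  refine (h.tn_sum_le _ _).trans (Finset.sum_le_sum fun i _ => ?_)
  rw [sub_mul, add_mul, mul_assoc]
  simp only [map_sub, map_add]
  rw [show E (c i 0 * e) + E (c i 1 * e) - E (c i 2 * (c i 3 * e)) -
      (E (c i 0) + E (c i 1) - E (c i 2 * c i 3)) * E e =
    (E (c i 0 * e) - E (c i 0) * E e) + (E (c i 1 * e) - E (c i 1) * E e) -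
      ((E (c i 2 * (c i 3 * e)) - E (c i 2) * E (c i 3 * e)) +
        E (c i 2) * (E (c i 3 * e) - E (c i 3) * E e)) +
      (E (c i 2 * c i 3) - E (c i 2) * E (c i 3)) * E e by noncomm_ring]
  have hγe := (h.tn_nonneg _).trans (hc i 0 e)
  have t3 : tn τ (E (c i 2 * (c i 3 * e)) - E (c i 2) * E (c i 3 * e)) ≤
      γ * ‖(e : F)‖ * ‖(c i 3 : F)‖ := by
    rcases (norm_nonneg (e : F)).eq_or_lt with he | he
    · have he' : e = 0 := Subtype.ext (norm_eq_zero.1 he.symm)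
      simp [he', tn]
    refine (hc i 2 (c i 3 * e)).trans ?_
    have hγ : 0 ≤ γ := nonneg_of_mul_nonneg_left hγe he
    refine (mul_le_mul_of_nonneg_left (norm_mul_le (c i 3 : F) (e : F)) hγ).trans_eq ?_
    ring
  have t4 : tn τ (E (c i 2) * (E (c i 3 * e) - E (c i 3) * E e)) ≤
      γ * ‖(e : F)‖ * ‖(c i 2 : F)‖ := by
    refine (h.tn_mul_le_left _ _).trans ?_
    rw [mul_comm (γ * _)]
    exact mul_le_mul (hn _) (hc i 3 e) (h.tn_nonneg _) (norm_nonneg _)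
  have t5 : tn τ ((E (c i 2 * c i 3) - E (c i 2) * E (c i 3)) * E e) ≤
      γ * ‖(e : F)‖ * ‖(c i 3 : F)‖ := by
    refine (h.tn_mul_le_right _ _).trans ?_
    rw [mul_right_comm γ]
    exact mul_le_mul (hc i 2 (c i 3)) (hn e) (norm_nonneg _)
      ((h.tn_nonneg _).trans (hc i 2 (c i 3)))
  refine (h.tn_add_le _ _).trans ((add_le_add ((h.tn_sub_le _ _).trans (add_le_add
    ((h.tn_add_le _ _).trans (add_le_add (hc i 0 e) (hc i 1 e)))
    ((h.tn_add_le _ _).trans (add_le_add t3 t4)))) t5).trans ?_)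
  linarith

/-- With absorption by `N`, every separable algebra maps into a fixed algebra containing a full
square zero element. -/
theorem exists_fixed_algebra [PartialOrder F] [StarOrderedRing F] [Countable G] (hs : Sys T α) {N : Subgroup G}
    (hN : Absorbs T α N) (hfull : Full T) (D₀ : StarSubalgebra ℂ F)
    (hsep₀ : IsSeparable (D₀ : Set F)) :
    ∃ D₂ D' : StarSubalgebra ℂ F, IsClosed (D₂ : Set F) ∧ IsSeparable (D₂ : Set F) ∧
      (∀ g, ∀ d ∈ D₂, α g d ∈ D₂) ∧ IsClosed (D' : Set F) ∧ D' ≤ D₂ ∧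
      (∀ x ∈ D', FixedBy T α N x) ∧
      (∃ (v : F) (n : ℕ) (b : Fin n → F), v ∈ D' ∧ (∀ i, b i ∈ D') ∧ Cong T (v * v) 0 ∧
        Cong T (∑ i, star (b i) * (star v * v) * (star v * v) * b i) 1) ∧
      ∃ Φ : D₀ →ₗ[ℂ] F, (∀ d, Φ d ∈ D') ∧ Φ 1 = 1 ∧ (∀ d, ‖Φ d‖ ≤ ‖(d : F)‖) ∧
        (∀ d, Φ (star d) = star (Φ d)) ∧ (∀ d e, Cong T (Φ (d * e)) (Φ d * Φ e)) ∧
        ∀ d : D₀, Cong T (d : F) 0 → Cong T (Φ d) 0 := by
  have hT := hs.isTrace
  obtain ⟨v, n, b, hvv, hb⟩ := hfull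
  set X₁ : Set F := (D₀ : Set F) ∪ insert v (Set.range b)
  have hsep₁ : IsSeparable X₁ :=
    hsep₀.union ((Set.countable_range b).insert v).isSeparable
  obtain ⟨Φ, hΦ⟩ :=
    hN (genAlg X₁) (isClosed_genAlg _) (isSeparable_genAlg hsep₁) ∅ Set.countable_empty
  let v₁ : genAlg X₁ := ⟨v, subset_genAlg _ (Or.inr (Set.mem_insert v _))⟩
  let b₁ : Fin n → genAlg X₁ := fun i =>
    ⟨b i, subset_genAlg _ (Or.inr (Set.mem_insert_of_mem _ ⟨i, rfl⟩))⟩
  have hD₀₁ : D₀ ≤ genAlg X₁ := fun x hx => subset_genAlg _ (Or.inl hx)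
  let ι₀ : D₀ →⋆ₐ[ℂ] genAlg X₁ := StarSubalgebra.inclusion hD₀₁
  have hvv' : Cong T (Φ v₁ * Φ v₁) 0 :=
    Cong.trans hT (Cong.symm hT (hΦ.map_mul v₁ v₁)) (hΦ.null (v₁ * v₁) hvv)
  have hb' : Cong T (∑ i, star (Φ (b₁ i)) * (star (Φ v₁) * Φ v₁) * (star (Φ v₁) * Φ v₁) * Φ (b₁ i))
      1 := by
    have e : Cong T (((∑ i, star (b₁ i) * (star v₁ * v₁) * (star v₁ * v₁) * b₁ i) - 1 :
        genAlg X₁) : F) 0 := fun τ hτ => by simpa [v₁, b₁] using hb τ hτ
    have h1 : Cong T (∑ i, Φ (star (b₁ i) * (star v₁ * v₁) * (star v₁ * v₁) * b₁ i)) 1 :=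
      fun τ hτ => by simpa [hΦ.map_one] using hΦ.null _ e τ hτ
    refine Cong.trans hT (Cong.sum hT _ fun i _ => ?_) h1
    have p1 : ∀ {x y : genAlg X₁} {a c : F}, Cong T a (Φ x) → Cong T c (Φ y) →
        Cong T (a * c) (Φ (x * y)) := fun hx hy =>
      Cong.trans hT (Cong.mul hT hx hy) (Cong.symm hT (hΦ.map_mul _ _))
    have ps : ∀ x, Cong T (star (Φ x)) (Φ (star x)) := fun x => by
      rw [hΦ.map_star]; exact Cong.refl T _
    exact p1 (p1 (p1 (ps _) (p1 (ps _) (Cong.refl T _))) (p1 (ps _) (Cong.refl T _))) (Cong.refl T _)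
  have : SeparableSpace (genAlg X₁) := (isSeparable_genAlg hsep₁).separableSpace
  have hΦc : Continuous Φ :=
    AddMonoidHomClass.continuous_of_bound Φ 1 fun d => (hΦ.norm_le d).trans_eq (one_mul _).symm
  let X₂ : Set F := ⋃ g, α g '' Set.range Φ
  have hX₂ : IsSeparable X₂ := IsSeparable.iUnion fun g =>
    (isSeparable_range hΦc).image (Vale.Agent.P101.hom_continuous (α g : F →⋆ₐ[ℂ] F))
  refine ⟨genAlg X₂, genAlg (Set.range Φ), isClosed_genAlg _, isSeparable_genAlg hX₂,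
    fun g d hd => map_mem_genAlg (α g : F →⋆ₐ[ℂ] F) (fun z hz => ?_) hd, isClosed_genAlg _,
    genAlg_le (isClosed_genAlg _) fun z hz =>
      subset_genAlg _ (Set.mem_iUnion.2 ⟨1, z, hz, hs.act_one z⟩),
    fun x hx => fixedBy_genAlg hs (X := Set.range Φ)
      (fun z hz g hg => by obtain ⟨d, rfl⟩ := hz; exact hΦ.fixed g hg d) hx,
    ⟨Φ v₁, n, fun i => Φ (b₁ i), subset_genAlg _ ⟨_, rfl⟩, fun i => subset_genAlg _ ⟨_, rfl⟩,
      hvv', hb'⟩,
    Φ.comp ι₀.toAlgHom.toLinearMap, fun d => subset_genAlg _ ⟨_, rfl⟩,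
    (congrArg Φ (map_one ι₀)).trans hΦ.map_one, fun d => hΦ.norm_le (ι₀ d),
    fun d => (congrArg Φ (map_star ι₀ d)).trans (hΦ.map_star _),
    fun d e => ?_, fun d hd => hΦ.null (ι₀ d) hd⟩
  · obtain ⟨h, z', hz', rfl⟩ := Set.mem_iUnion.1 hz
    exact subset_genAlg _ (Set.mem_iUnion.2 ⟨g * h, z', hz', hs.act_mul g h z'⟩)
  · show Cong T (Φ (ι₀ (d * e))) (Φ (ι₀ d) * Φ (ι₀ e))
    rw [map_mul]
    exact hΦ.map_mul _ _

/-- Almost invariance under generators gives almost invariance under the group they generate. -/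
theorem eventually_fixed (hs : Sys T α) {K : Subgroup G} {V : ℕ → Set G}
    (hVK : K ≤ Subgroup.closure (⋃ m, V m)) {ι : Type*} (x : ℕ → ι → F)
    (h : ∀ q, ∀ g ∈ V q, ∀ d, ∀ ε : ℝ, 0 < ε → ∀ᶠ m in atTop, ∀ τ ∈ T,
      tn τ (α g (x m d) - x m d) ≤ ε) :
    ∀ g ∈ K, ∀ d, ∀ ε : ℝ, 0 < ε → ∀ᶠ m in atTop, ∀ τ ∈ T,
      tn τ (α g (x m d) - x m d) ≤ ε := by
  let good : Subgroup G :=
    { carrier := {g | ∀ d, ∀ ε : ℝ, 0 < ε → ∀ᶠ m in atTop, ∀ τ ∈ T,
        tn τ (α g (x m d) - x m d) ≤ ε}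
      one_mem' := fun d ε hε => Eventually.of_forall fun m τ _ => by
        simp [hs.act_one, tn, hε.le]
      mul_mem' := fun {a a'} ha ha' d ε hε => by
        filter_upwards [ha d (ε / 2) (half_pos hε), ha' d (ε / 2) (half_pos hε)] with m h1 h2
        intro τ hτ
        rw [hs.act_mul, show α a (α a' (x m d)) - x m d =
          α a (α a' (x m d) - x m d) + (α a (x m d) - x m d) by rw [map_sub]; abel]
        refine ((hs.isTrace τ hτ).tn_add_le _ _).trans ?_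
        linarith [hs.tn_map_le a h2 hτ, h1 τ hτ]
      inv_mem' := fun {a} ha d ε hε => by
        filter_upwards [ha d ε hε] with m h1
        intro τ hτ
        have e : α a⁻¹ (α a (x m d) - x m d) = -(α a⁻¹ (x m d) - x m d) := by
          rw [map_sub, ← hs.act_mul, inv_mul_cancel, hs.act_one]; abel
        have := hs.tn_map_le a⁻¹ h1 hτ
        rwa [e, (hs.isTrace τ hτ).tn_neg] at this }
  intro g hg
  refine (Subgroup.closure_le good).2 (fun u hu => ?_) (hVK hg)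
  obtain ⟨q, hq⟩ := Set.mem_iUnion.1 hu
  exact h q u hq

/-- Almost multiplicativity on a dense sequence gives it everywhere. -/
theorem eventually_mul (hT : ∀ τ ∈ T, IsTrace τ) {D₀ : StarSubalgebra ℂ F} (Ψ : ℕ → D₀ →ₗ[ℂ] F)
    (hn : ∀ m d, ‖Ψ m d‖ ≤ ‖(d : F)‖) (p : ℕ → D₀) (hp : DenseRange p)
    (h : ∀ q e, ∀ ε : ℝ, 0 < ε → ∀ᶠ m in atTop, ∀ τ ∈ T,
      tn τ (Ψ m (p q * e) - Ψ m (p q) * Ψ m e) ≤ ε) (d e : D₀) {ε : ℝ} (hε : 0 < ε) :
    ∀ᶠ m in atTop, ∀ τ ∈ T, tn τ (Ψ m (d * e) - Ψ m d * Ψ m e) ≤ ε := by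
  obtain ⟨q, hq⟩ := Metric.denseRange_iff.1 hp d (ε / (2 * (2 * ‖(e : F)‖ + 1))) (by positivity)
  have hq' : dist d (p q) = ‖((d - p q : D₀) : F)‖ := dist_eq_norm (d : F) (p q : F)
  rw [hq', lt_div_iff₀ (by positivity)] at hq
  filter_upwards [h q e (ε / 2) (half_pos hε)] with m hm
  intro τ hτ
  rw [show Ψ m (d * e) - Ψ m d * Ψ m e = (Ψ m (p q * e) - Ψ m (p q) * Ψ m e) +
    (Ψ m ((d - p q) * e) - Ψ m (d - p q) * Ψ m e) by simp only [sub_mul, map_sub]; abel]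
  refine ((hT τ hτ).tn_add_le _ _).trans ?_
  have h3 := ((hT τ hτ).tn_le_norm (Ψ m ((d - p q) * e) - Ψ m (d - p q) * Ψ m e)).trans
    (norm_sub_le _ _)
  have a1 := (hn m ((d - p q) * e)).trans (norm_mul_le ((d - p q : D₀) : F) (e : F))
  have a2 := (norm_mul_le (Ψ m (d - p q)) (Ψ m e)).trans
    (mul_le_mul (hn m _) (hn m e) (norm_nonneg _) (norm_nonneg _))
  nlinarith [hm τ hτ, norm_nonneg ((d - p q : D₀) : F)]

/-- Averages almost multiplicative on the left of finitely many commutators. -/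
theorem exists_average_commutators [PartialOrder F] [StarOrderedRing F] (hs : Sys T α)
    {N : Subgroup G} {V : Set G} (havg : HasAverages T α N V) (D₂ D' : StarSubalgebra ℂ F)
    (hD₂ : IsClosed (D₂ : Set F)) (hsep : IsSeparable (D₂ : Set F))
    (hinv : ∀ g, ∀ d ∈ D₂, α g d ∈ D₂) (hD' : D' ≤ D₂) (hfix : ∀ x ∈ D', FixedBy T α N x)
    {ι : Type*} [Fintype ι] (c : ι → D₂) (hc : ∀ a, IsCommutator D' (c a : F)) (S : Set F)
    (hS : S.Countable) {δ : ℝ} (hδ : 0 < δ) :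
    ∃ E : D₂ →ₗ[ℂ] F, E 1 = 1 ∧ (∀ d, ‖E d‖ ≤ ‖(d : F)‖) ∧ (∀ d, E (star d) = star (E d)) ∧
      (∀ d, ∀ t ∈ S, Commute (E d) t) ∧ (∀ d : D₂, Cong T (d : F) 0 → Cong T (E d) 0) ∧
      (∀ τ ∈ T, ∀ a e, tn τ (E (c a * e) - E (c a) * E e) ≤ 2 * Real.sqrt δ * ‖(e : F)‖) ∧
      ∀ τ ∈ T, ∀ g ∈ V, ∀ d : D₂, FixedBy T α N (d : F) →
        tn τ (α g (E d) - E d) ≤ δ * ‖(d : F)‖ := by
  let eJ : ι × Bool ≃ Fin (Fintype.card (ι × Bool)) := Fintype.equivFin _
  let y : Fin (Fintype.card (ι × Bool)) → D₂ := fun a =>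
    ⟨parts (c (eJ.symm a).1 : F) (eJ.symm a).2, parts_mem (c _).2 _⟩
  obtain ⟨E, e1, e2, e3, e4, e5, e6, e7, e8⟩ := havg D₂ hD₂ hsep hinv _ y
    (fun a => parts_selfAdjoint _ _)
    (fun a => hfix _ (parts_mem (hc _).mem _))
    (fun τ hτ a g φ Z hZ => by
      obtain ⟨x, hx, z, hz, e⟩ := hc (eJ.symm a).1
      exact parts_centred hinv (hs.isTrace τ hτ) (hD' hx) (hD' hz) e (eJ.symm a).2 g φ Z hZ _)
    S hS δ hδ
  refine ⟨E, e1, e2, e3, e4, e5, fun τ hτ a e => ?_, e8⟩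
  have key : ∀ s, tn τ (E (y (eJ (a, s)) * e) - E (y (eJ (a, s))) * E e) ≤
      ‖(e : F)‖ * Real.sqrt δ := fun s => by
    refine (e7 τ hτ _ e).trans ?_
    rw [show star (y (eJ (a, s))) = y (eJ (a, s)) from Subtype.ext (parts_selfAdjoint _ _)]
    gcongr
    exact e6 τ hτ _
  have ec : c a = y (eJ (a, true)) + Complex.I • y (eJ (a, false)) :=
    Subtype.ext (by simpa [y] using parts_eq (c a : F))
  rw [ec, add_mul, smul_mul_assoc, map_add, map_add, map_smul, map_smul, add_mul, smul_mul_assoc,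
    add_sub_add_comm, ← smul_sub]
  refine ((hs.isTrace τ hτ).tn_add_le _ _).trans ?_
  rw [(hs.isTrace τ hτ).tn_smul, Complex.norm_I, one_mul]
  linarith [key true, key false]

/-- Absorption by `N`, coins, and averages almost invariant under the sets `V m` give absorption
by the subgroup `K` generated by the sets `V m`. -/
theorem absorbs_of_averages [PartialOrder F] [StarOrderedRing F] [Countable G] (hs : Sys T α)
    (hsat : Saturated T α) (hfull : Full T) {N K : Subgroup G} (hN : Absorbs T α N)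
    {V : ℕ → Set G} (hV : Monotone V) (hVK : K ≤ Subgroup.closure (⋃ m, V m))
    (havg : ∀ D : StarSubalgebra ℂ F, IsClosed (D : Set F) → IsSeparable (D : Set F) →
      (∀ g, ∀ d ∈ D, α g d ∈ D) → ∀ (v : D) (n : ℕ) (b : Fin n → D), Cong T ((v : F) * v) 0 →
      Cong T (∑ i, star (b i : F) * (star (v : F) * v) * (star (v : F) * v) * (b i : F)) 1 →
      FixedBy T α N (v : F) → (∀ i, FixedBy T α N (b i : F)) → ∀ m, HasAverages T α N (V m)) :
    Absorbs T α K := by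
  classical
  intro D₀ hD₀ hsep₀ S hS
  have hT := hs.isTrace
  obtain ⟨D₂, D', hD₂, hsep₂, hinv₂, hD', hle, hfix, ⟨v, n, b, hv, hb, hvv, hbfull⟩,
    Φ, hΦD, hΦ1, hΦn, hΦs, hΦm, hΦnull⟩ := exists_fixed_algebra hs hN hfull D₀ hsep₀
  have hav := havg D₂ hD₂ hsep₂ hinv₂ ⟨v, hle hv⟩ n (fun i => ⟨b i, hle (hb i)⟩) hvv hbfull
    (hfix _ hv) fun i => hfix _ (hb i)
  obtain ⟨b', hb'D, hb4⟩ := exists_full_fourth hT D' hD' hv hb hbfull
  have : SeparableSpace D₀ := hsep₀.separableSpace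
  let p : ℕ → D₀ := denseSeq D₀
  choose c hcc hcz using fun q : ℕ =>
    exists_commutator_expr hT D' hv hb'D hvv hb4 (hΦD (p q))
  let c₂ : ℕ → Fin n → Fin 4 → D₂ := fun q i j => ⟨c q i j, hle (hcc q i j).mem⟩
  let Ψ₀ : D₀ →ₗ[ℂ] D₂ :=
    { toFun := fun d => ⟨Φ d, hle (hΦD d)⟩
      map_add' := fun x y => Subtype.ext (by simp)
      map_smul' := fun c x => Subtype.ext (by simp) }
  choose E hE1 hEn hEs hEc hEnull hEmul hEinv using fun m : ℕ =>
    exists_average_commutators hs (hav m) D₂ D' hD₂ hsep₂ hinv₂ hle hfix (fun a : Fin m × Fin n × Fin 4 => c₂ a.1 a.2.1 a.2.2) (fun a => hcc _ _ _) S hS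
      (δ := 1 / ((m : ℝ) + 1)) (by positivity)
  let Ψ : ℕ → D₀ →ₗ[ℂ] F := fun m => (E m).comp Ψ₀
  have hΨn : ∀ m d, ‖Ψ m d‖ ≤ ‖(d : F)‖ := fun m d => (hEn m (Ψ₀ d)).trans (hΦn d)
  have h1 : Ψ₀ 1 = 1 := Subtype.ext hΦ1
  have h2 : ∀ d, Ψ₀ (star d) = star (Ψ₀ d) := fun d => Subtype.ext (hΦs d)
  have hdec : Tendsto (fun m : ℕ => (1 : ℝ) / (m + 1)) atTop (nhds 0) :=
    tendsto_one_div_add_atTop_nhds_zero_nat
  refine hsat.diag_map K D₀ hD₀ hsep₀ S hS Ψ (fun m => ?_) hΨn (fun m d => ?_)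
    (fun m d => hEc m (Ψ₀ d)) ?_ ?_ ?_
  · show E m (Ψ₀ 1) = 1
    rw [h1, hE1]
  · show E m (Ψ₀ (star d)) = star (E m (Ψ₀ d))
    rw [h2, hEs]
  · refine fun d e ε hε => eventually_mul hT Ψ hΨn p (denseRange_denseSeq D₀) ?_ d e hε
    intro q e ε hε
    set Cq : ℝ := ∑ i, (2 + 2 * ‖(c₂ q i 3 : F)‖ + ‖(c₂ q i 2 : F)‖)
    have hlim : Tendsto (fun m : ℕ => 2 * Real.sqrt (1 / (m + 1)) * ‖(Ψ₀ e : F)‖ * Cq) atTop
        (nhds 0) := by
      simpa using ((hdec.sqrt.const_mul 2).mul_const ‖(Ψ₀ e : F)‖).mul_const Cq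
    filter_upwards [hlim.eventually_le_const hε, eventually_gt_atTop q] with m hm hqm
    intro τ hτ
    have hnull : Cong T (E m (Ψ₀ (p q * e) - Ψ₀ (p q) * Ψ₀ e)) 0 :=
      hEnull m _ fun σ hσ => (sub_zero (Φ (p q * e) - Φ (p q) * Φ e)).symm ▸ hΦm (p q) e σ hσ
    have hmul := almost_mul_le hT (E m) (hEn m) (hEnull m) hτ (c₂ q)
      (fun i j e => hEmul m τ hτ (⟨q, hqm⟩, i, j) e) (Ψ₀ (p q))
      (by simpa [Ψ₀, c₂] using hcz q) (Ψ₀ e)
    show tn τ (E m (Ψ₀ (p q * e)) - E m (Ψ₀ (p q)) * E m (Ψ₀ e)) ≤ ε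
    rw [show E m (Ψ₀ (p q * e)) - E m (Ψ₀ (p q)) * E m (Ψ₀ e) =
      (E m (Ψ₀ (p q * e) - Ψ₀ (p q) * Ψ₀ e) - 0) +
      (E m (Ψ₀ (p q) * Ψ₀ e) - E m (Ψ₀ (p q)) * E m (Ψ₀ e)) by rw [map_sub]; abel]
    refine ((hT τ hτ).tn_add_le _ _).trans ?_
    rw [hnull τ hτ, zero_add]
    exact hmul.trans hm
  · intro d hd ε hε
    exact Eventually.of_forall fun m τ hτ => by
      have := hEnull m (Ψ₀ d) (hΦnull d hd) τ hτ
      rw [sub_zero] at this
      exact this.le.trans hε.le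
  · refine eventually_fixed hs hVK (fun m d => Ψ m d) fun q g hg d ε hε => ?_
    have hlim : Tendsto (fun m : ℕ => 1 / ((m : ℝ) + 1) * ‖(Ψ₀ d : F)‖) atTop (nhds 0) := by
      simpa using hdec.mul_const ‖(Ψ₀ d : F)‖
    filter_upwards [hlim.eventually_le_const hε, eventually_ge_atTop q] with m hm hqm
    intro τ hτ
    exact (hEinv m τ hτ g (hV hqm hg) (Ψ₀ d) (hfix _ (hΦD d))).trans hm

end

end Vale.Agent.P095.Amenable
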