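import Vale.Agent.P095.Amenable.Groups
import Vale.Agent.P095.Amenable.StepTools

/-!
# Følner groups: absorption from coins and averages
-/

set_option linter.unusedSectionVars false

open TopologicalSpace

namespace Vale.Agent.P095.Amenable

/-- The Følner condition: amenability of a discrete group. -/
def Folner (G : Type) [Group G] : Prop :=
  ∀ (W : Finset G) (η : ℝ), 0 < η → ∃ B : Finset G, B.Nonempty ∧
    ∀ h ∈ W, (Nat.card {g // g ∈ B ∧ h * g ∉ B} : ℝ) ≤ η * B.card

variable {G : Type} [Group G] [Countable G] {F : Type*} [CStarAlgebra F] [PartialOrder F]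
  [StarOrderedRing F] {T : Set (F →ₗ[ℂ] ℂ)} {α : G → (F ≃⋆ₐ[ℂ] F)}

/-- Coins from every full square zero element and averages for every finite set give absorption by
the whole group. -/
theorem absorbs_top_of (hs : Sys T α) (hsat : Saturated T α) (hfull : Full T)
    (hcoins : ∀ D : StarSubalgebra ℂ F, IsClosed (D : Set F) → IsSeparable (D : Set F) →
      (∀ g, ∀ d ∈ D, α g d ∈ D) → ∀ (v : D) (n : ℕ) (b : Fin n → D), Cong T ((v : F) * v) 0 →
      Cong T (∑ i, star (b i : F) * (star (v : F) * v) * (star (v : F) * v) * (b i : F)) 1 →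
      Coins T α ⊤)
    (havg : Coins T α ⊤ → ∀ W : Finset G, HasAverages T α ⊥ ↑W) :
    Absorbs T α (⊤ : Subgroup G) := by
  classical
  obtain ⟨e, he⟩ := exists_surjective_nat G
  refine absorbs_of_averages hs hsat hfull (absorbs_bot hs hsat)
    (V := fun m => ↑((Finset.range (m + 1)).image e))
    (fun a b hab => Finset.coe_subset.2 (Finset.image_subset_image fun x hx =>
      Finset.mem_range.2 (lt_of_lt_of_le (Finset.mem_range.1 hx) (Nat.succ_le_succ hab))))
    (fun g _ => ?_)
    fun D hD hsep hinv v n b hv hb _ _ m => havg (hcoins D hD hsep hinv v n b hv hb) _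
  obtain ⟨m, rfl⟩ := he g
  exact Subgroup.subset_closure (Set.mem_iUnion.2
    ⟨m, Finset.mem_coe.2 (Finset.mem_image_of_mem e (Finset.self_mem_range_succ m))⟩)

end Vale.Agent.P095.Amenable
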