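import Vale.Agent.P095.Amenable.CoreBasic

/-!
# Averages over a finite set with densities

For a family of positive densities `P` on a finite set: the total `stot`, the unital average `emean`
and the average `xq` sandwiched by fourth roots; the densities `pr` of a product measure with linear
factors.
-/

open scoped ComplexOrder

namespace Vale.Agent.P095.Amenable

noncomputable section

variable {F : Type*} [CStarAlgebra F] {ι : Type*}

/-- The total of the densities. -/
def stot (s : Finset ι) (P : ι → F) : F := ∑ g ∈ s, P g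

/-- The inverse fourth root. -/
def iq (a : F) : F := cfc (fun t : ℝ => (Real.sqrt (Real.sqrt t))⁻¹) a

/-- The average for the densities `P` of a family commuting with them. -/
def emean (s : Finset ι) (P x : ι → F) : F :=
  isq (stot s P) * (∑ g ∈ s, P g * x g) * isq (stot s P)

/-- The average of a family commuting with the densities, sandwiched by fourth roots. -/
def xq (s : Finset ι) (P x : ι → F) : F :=
  iq (stot s P) * (∑ g ∈ s, P g * x g) * iq (stot s P)

/-- The densities with linear factors. -/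
def pr (ε : ℝ) (f : ℕ → ι → F) : ℕ → ι → F
  | 0 => fun _ => 1
  | l + 1 => fun g => pr ε f l g * (1 + ε • f l g)

theorem pr_zero (ε : ℝ) (f : ℕ → ι → F) (g : ι) : pr ε f 0 g = 1 := rfl

theorem pr_succ (ε : ℝ) (f : ℕ → ι → F) (l : ℕ) (g : ι) :
    pr ε f (l + 1) g = pr ε f l g * (1 + ε • f l g) := rfl

theorem iq_selfAdjoint (a : F) : IsSelfAdjoint (iq a) := cfc_predicate _ a

theorem iq_mem {C : StarSubalgebra ℂ F} (hC : IsClosed (C : Set F)) {a : F} (ha : a ∈ C) :
    iq a ∈ C := cfc_mem (hs := hC) _ ha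

theorem stot_mem {C : StarSubalgebra ℂ F} {s : Finset ι} {P : ι → F} (h : ∀ g ∈ s, P g ∈ C) :
    stot s P ∈ C := sum_mem h

theorem commute_stot {X : F} {s : Finset ι} {P : ι → F} (h : ∀ g ∈ s, Commute X (P g)) :
    Commute X (stot s P) := Commute.sum_right _ _ _ h

theorem commute_cfc_stot {X : F} {s : Finset ι} {P : ι → F} (h : ∀ g ∈ s, Commute X (P g))
    (φ : ℝ → ℝ) : Commute X (cfc φ (stot s P)) :=
  ((commute_stot h).symm.cfc_real φ).symm

variable [PartialOrder F] [StarOrderedRing F]

theorem stot_isStrictlyPositive {s : Finset ι} (hs : s.Nonempty) {P : ι → F}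
    (h : ∀ g ∈ s, IsStrictlyPositive (P g)) : IsStrictlyPositive (stot s P) := by
  obtain ⟨g, hg⟩ := hs
  exact (h g hg).of_le (Finset.single_le_sum (f := P) (fun i hi => (h i hi).nonneg) hg)

theorem stot_le_stot {s t : Finset ι} (hst : s ⊆ t) {P : ι → F} (h : ∀ g ∈ t, 0 ≤ P g) :
    stot s P ≤ stot t P :=
  Finset.sum_le_sum_of_subset_of_nonneg hst fun g hg _ => h g hg

theorem continuousOn_iq {a : F} (ha : IsStrictlyPositive a) :
    ContinuousOn (fun t : ℝ => (Real.sqrt (Real.sqrt t))⁻¹) (spectrum ℝ a) :=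
  (by fun_prop : Continuous fun t : ℝ => Real.sqrt (Real.sqrt t)).continuousOn.inv₀ fun _ ht =>
    (Real.sqrt_pos.2 (Real.sqrt_pos.2 (ha.spectrum_pos ht))).ne'

theorem iq_mul_iq {a : F} (ha : IsStrictlyPositive a) : iq a * iq a = isq a := by
  rw [iq, isq, ← cfc_mul _ _ a (continuousOn_iq ha) (continuousOn_iq ha)]
  refine cfc_congr fun t _ => ?_
  rw [← mul_inv, Real.mul_self_sqrt (Real.sqrt_nonneg t)]

theorem iq_mul_self_mul_iq {a : F} (ha : IsStrictlyPositive a) :
    iq a * a * iq a = CFC.sqrt a := by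
  rw [CFC.sqrt_eq_real_sqrt a, cfcₙ_eq_cfc, iq]
  nth_rewrite 2 [← cfc_id' ℝ a ha.isSelfAdjoint]
  rw [← cfc_mul _ (fun t : ℝ => t) a (continuousOn_iq ha) continuousOn_id,
    ← cfc_mul (a := a) (g := fun t : ℝ => (Real.sqrt (Real.sqrt t))⁻¹) (f := fun t : ℝ => (Real.sqrt (Real.sqrt t))⁻¹ * t)
      ((continuousOn_iq ha).mul continuousOn_id) (continuousOn_iq ha)]
  refine cfc_congr fun t ht => ?_
  have h1 := Real.sqrt_pos.2 (Real.sqrt_pos.2 (ha.spectrum_pos ht))
  have h2 := Real.mul_self_sqrt (Real.sqrt_nonneg t)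
  have h3 := Real.mul_self_sqrt (ha.spectrum_pos ht).le
  field_simp
  linear_combination (-1 : ℝ) * (Real.sqrt t * h2) - h3

end

end Vale.Agent.P095.Amenable
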