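import Vale.Agent.P095.Amenable.Filtration

/-!
# One layer: a quotient acting on fixed elements, copies, and coins
-/

set_option linter.unusedSectionVars false

open TopologicalSpace
open Vale.Agent.P101 (genAlg isClosed_genAlg subset_genAlg genAlg_le isSeparable_genAlg)

namespace Vale.Agent.P095.Amenable

noncomputable section

variable {G : Type} [Group G] {F : Type*} [CStarAlgebra F] {T : Set (F →ₗ[ℂ] ℂ)}
  {α : G → (F ≃⋆ₐ[ℂ] F)}

/-- Unitaries in the commutant of every countable set, fixed by `K`, with all nonzero powers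
orthogonal to that set for every trace in `T`. -/
def Coins (T : Set (F →ₗ[ℂ] ℂ)) (α : G → (F ≃⋆ₐ[ℂ] F)) (K : Subgroup G) : Prop :=
  ∀ S : Set F, S.Countable → ∃ u ∈ unitary F, (∀ t ∈ S, Commute u t) ∧
    (∀ g ∈ K, Cong T (α g u) u) ∧
    ∀ t ∈ S, ∀ n : ℕ, n ≠ 0 → ∀ τ ∈ T, τ (t * u ^ n) = 0 ∧ τ (t * star u ^ n) = 0

theorem Sys.cong_map (hs : Sys T α) (g : G) {a b : F} (h : Cong T a b) :
    Cong T (α g a) (α g b) := by
  intro τ hτ
  obtain ⟨σ, hσ, he⟩ := hs.preserve g τ hτ
  have := h σ hσ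
  unfold tn at this ⊢
  rwa [← map_sub, ← map_star, ← map_mul, ← he]

theorem Sys.tn_map_le (hs : Sys T α) (g : G) {a : F} {c : ℝ} (h : ∀ τ ∈ T, tn τ a ≤ c)
    {τ : F →ₗ[ℂ] ℂ} (hτ : τ ∈ T) : tn τ (α g a) ≤ c := by
  obtain ⟨σ, hσ, he⟩ := hs.preserve g τ hτ
  have := h σ hσ
  unfold tn at this ⊢
  rwa [← map_star, ← map_mul, ← he]

/-- Elements fixed by `N` for the traces in `T`. -/
def FixedBy (T : Set (F →ₗ[ℂ] ℂ)) (α : G → (F ≃⋆ₐ[ℂ] F)) (N : Subgroup G) (x : F) : Prop :=
  ∀ g ∈ N, Cong T (α g x) x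

theorem FixedBy.mul (hs : Sys T α) {N : Subgroup G} {x y : F} (hx : FixedBy T α N x)
    (hy : FixedBy T α N y) : FixedBy T α N (x * y) := fun g hg => by
  rw [map_mul]; exact Cong.mul hs.isTrace (hx g hg) (hy g hg)

theorem FixedBy.add (hs : Sys T α) {N : Subgroup G} {x y : F} (hx : FixedBy T α N x)
    (hy : FixedBy T α N y) : FixedBy T α N (x + y) := fun g hg => by
  rw [map_add]; exact Cong.add hs.isTrace (hx g hg) (hy g hg)

theorem FixedBy.star (hs : Sys T α) {N : Subgroup G} {x : F} (hx : FixedBy T α N x) :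
    FixedBy T α N (star x) := fun g hg => by
  rw [map_star]; exact Cong.star hs.isTrace (hx g hg)

theorem FixedBy.smul (hs : Sys T α) {N : Subgroup G} {x : F} (hx : FixedBy T α N x) (c : ℂ) :
    FixedBy T α N (c • x) := fun g hg => by
  rw [map_smul]; exact Cong.smul hs.isTrace (hx g hg) c

theorem FixedBy.of_tendsto (hs : Sys T α) {N : Subgroup G} {ι : Type*} {l : Filter ι} [l.NeBot]
    {f : ι → F} {x : F} (hf : Filter.Tendsto f l (nhds x)) (h : ∀ i, FixedBy T α N (f i)) :
    FixedBy T α N x := fun g hg =>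
  Cong.of_tendsto hs.isTrace
    ((Vale.Agent.P101.hom_continuous (α g : F →⋆ₐ[ℂ] F)).tendsto x |>.comp hf) hf
    fun i => h i g hg

/-- The closed subalgebra generated by fixed elements consists of fixed elements. -/
theorem fixedBy_genAlg (hs : Sys T α) {N : Subgroup G} {X : Set F}
    (h : ∀ x ∈ X, FixedBy T α N x) {y : F} (hy : y ∈ genAlg X) : FixedBy T α N y := by
  have hsc : ∀ c : ℂ, FixedBy T α N (algebraMap ℂ F c) := fun c g _ => by
    rw [AlgHomClass.commutes]; exact Cong.refl T _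
  let U : StarSubalgebra ℂ F :=
    { carrier := {x | FixedBy T α N x}
      mul_mem' := fun ha hb => FixedBy.mul hs ha hb
      one_mem' := by simpa using hsc 1
      add_mem' := fun ha hb => FixedBy.add hs ha hb
      zero_mem' := by simpa using hsc 0
      algebraMap_mem' := hsc
      star_mem' := fun ha => FixedBy.star hs ha }
  have hU : IsClosed (U : Set F) := isClosed_of_closure_subset fun x hx => by
    obtain ⟨u, hu, hux⟩ := mem_closure_iff_seq_limit.1 hx
    exact FixedBy.of_tendsto hs hux hu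
  exact (genAlg_le (U := U) hU h) hy

theorem commute_genAlg {X Y : Set F} (hYstar : ∀ y ∈ Y, star y ∈ Y)
    (h : ∀ x ∈ X, ∀ y ∈ Y, Commute x y) {a b : F} (ha : a ∈ genAlg X) (hb : b ∈ genAlg Y) :
    Commute a b := by
  have hcl : ∀ s : Set F, IsClosed ((StarSubalgebra.centralizer ℂ s : StarSubalgebra ℂ F) : Set F) :=
    fun s => by rw [StarSubalgebra.coe_centralizer]; exact Set.isClosed_centralizer _
  have h1 : a ∈ StarSubalgebra.centralizer ℂ Y := genAlg_le (hcl Y) (fun x hx =>
    (StarSubalgebra.mem_centralizer_iff ℂ).2 fun y hy =>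
      ⟨(h x hx y hy).symm.eq, (h x hx _ (hYstar y hy)).symm.eq⟩) ha
  have h2 : b ∈ StarSubalgebra.centralizer ℂ ({a, star a} : Set F) := genAlg_le (hcl _)
    (fun y hy => (StarSubalgebra.mem_centralizer_iff ℂ).2 fun z hz => by
      have hc := ((StarSubalgebra.mem_centralizer_iff ℂ).1 h1 y hy)
      have hc' := ((StarSubalgebra.mem_centralizer_iff ℂ).1 h1 _ (hYstar y hy))
      rcases hz with rfl | hz
      · refine ⟨hc.1.symm, ?_⟩
        have := congrArg star hc'.1
        simpa [star_mul, star_star] using this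
      · rw [Set.mem_singleton_iff] at hz
        subst hz
        refine ⟨?_, ?_⟩
        · have := congrArg star hc'.1
          simpa [star_mul, star_star] using this
        · simpa using hc.1.symm) hb
  exact ((StarSubalgebra.mem_centralizer_iff ℂ).1 h2 a (Set.mem_insert _ _)).1

/-- Equivariant null preserving copies of `D`, commuting with `S` and with each other. -/
theorem exists_copies (hsat : Saturated T α) (D : StarSubalgebra ℂ F)
    (hD : IsClosed (D : Set F)) (hsep : IsSeparable (D : Set F))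
    (hinv : ∀ g, ∀ d ∈ D, α g d ∈ D) (S : Set F) (hS : S.Countable) :
    ∃ θ : ℕ → (D →⋆ₐ[ℂ] F), (∀ i d, ∀ t ∈ S, Commute (θ i d) t) ∧
      (∀ i j, i ≠ j → ∀ d e, Commute (θ i d) (θ j e)) ∧
      (∀ i g (d : D) (h : α g (d : F) ∈ D), α g (θ i d) = θ i ⟨α g (d : F), h⟩) ∧
      ∀ i (d : D), Cong T (d : F) 0 → Cong T (θ i d) 0 := by
  classical
  have : IsClosed (D : Set F) := hD
  haveI : SeparableSpace D := hsep.separableSpace
  have next_ : ∀ R : {R : Set F // R.Countable}, ∃ θ : D →⋆ₐ[ℂ] F,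
      (∀ d, ∀ t ∈ R.1, Commute (θ d) t) ∧
      (∀ g (d : D) (h : α g (d : F) ∈ D), α g (θ d) = θ ⟨α g (d : F), h⟩) ∧
      ∀ d : D, Cong T (d : F) 0 → Cong T (θ d) 0 :=
    fun R => hsat.copies D hD hsep hinv R.1 R.2
  choose pick hpick using next_
  let e := denseSeq D
  let R : ℕ → {R : Set F // R.Countable} := fun i => Nat.rec ⟨S, hS⟩
    (fun _ R => ⟨R.1 ∪ Set.range (fun n => pick R (e n)),
      R.2.union (Set.countable_range _)⟩) i
  have hmono : ∀ i j, i ≤ j → (R i).1 ⊆ (R j).1 := fun i j hij => by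
    induction hij with
    | refl => exact le_rfl
    | step _ ih => exact ih.trans Set.subset_union_left
  have hcont : ∀ i, Continuous (pick (R i)) := fun i => by
    refine AddMonoidHomClass.continuous_of_bound (pick (R i)) 1 fun a => ?_
    letI : CStarAlgebra D := Vale.Agent.P101.subCStar D hD
    rw [one_mul]
    exact NonUnitalStarAlgHom.norm_apply_le (pick (R i)) a
  refine ⟨fun i => pick (R i), fun i d t ht => (hpick (R i)).1 d t (hmono 0 i (Nat.zero_le _) ht),
    ?_, fun i => (hpick (R i)).2.1, fun i => (hpick (R i)).2.2⟩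
  have key : ∀ i j, i < j → ∀ d x, Commute (pick (R i) d) (pick (R j) x) := by
    intro i j hij d x
    have hclosed : IsClosed {d : D | Commute (pick (R i) d) (pick (R j) x)} :=
      isClosed_eq ((hcont i).mul continuous_const) (continuous_const.mul (hcont i))
    refine hclosed.closure_subset_iff.2 ?_ (denseRange_denseSeq D d)
    rintro _ ⟨n, rfl⟩
    exact ((hpick (R j)).1 x _ (hmono (i + 1) j hij (Or.inr ⟨n, rfl⟩))).symm
  intro i j hij d x
  rcases lt_or_gt_of_ne hij with h | h
  · exact key i j h d x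
  · exact (key j i h x d).symm

end

end Vale.Agent.P095.Amenable
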