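import Vale.Agent.P095.Amenable.FolnerDefs
import Vale.Agent.P095.Amenable.Shift
import Vale.Agent.P095.Amenable.Layer

/-!
# Orbits in copies, and translation of the Følner averages

A copy carries the orbit of an element equivariantly, so an element of the group moves the densities
and averages over a finite set to those over the translated set.
-/

set_option linter.unusedSectionVars false

open scoped ComplexOrder

namespace Vale.Agent.P095.Amenable

noncomputable section

variable {F : Type*} [CStarAlgebra F]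

section Orbit

variable {G : Type} [Group G] {T : Set (F →ₗ[ℂ] ℂ)} (α : G → (F ≃⋆ₐ[ℂ] F))
  {D : StarSubalgebra ℂ F} (hinv : ∀ g, ∀ d ∈ D, α g d ∈ D) (θ : D →⋆ₐ[ℂ] F)

/-- The translate at `g` of the copy of `d`. -/
def orbit (d : D) (g : G) : F := θ ⟨α g (d : F), hinv g _ d.2⟩

variable {α}

theorem orbit_map (hs : Sys T α)
    (heq : ∀ g (d : D) (h : α g (d : F) ∈ D), α g (θ d) = θ ⟨α g (d : F), h⟩) (d : D) (h g : G) :
    α h (orbit α hinv θ d g) = orbit α hinv θ d (h * g) := by
  unfold orbit
  rw [heq h _ (hinv h _ (hinv g _ d.2))]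
  congr 1
  exact Subtype.ext (hs.act_mul h g _).symm

theorem norm_orbit_le (hD : IsClosed (D : Set F)) (d : D) (g : G) :
    ‖orbit α hinv θ d g‖ ≤ ‖(d : F)‖ := by
  let := Vale.Agent.P101.subCStar D hD
  refine (NonUnitalStarAlgHom.norm_apply_le θ _).trans ?_
  exact NonUnitalStarAlgHom.norm_apply_le (α g : F →⋆ₐ[ℂ] F) (d : F)

theorem orbit_star (d : D) (g : G) : orbit α hinv θ (star d) g = star (orbit α hinv θ d g) := by
  unfold orbit
  rw [← map_star]
  exact congrArg θ (Subtype.ext (map_star _ _))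

theorem orbit_selfAdjoint {d : D} (hd : IsSelfAdjoint (d : F)) (g : G) :
    IsSelfAdjoint (orbit α hinv θ d g) := by
  rw [isSelfAdjoint_iff, ← orbit_star, show star d = d from Subtype.ext hd.star_eq]

theorem orbit_mul (d e : D) (g : G) :
    orbit α hinv θ (d * e) g = orbit α hinv θ d g * orbit α hinv θ e g := by
  unfold orbit
  rw [← map_mul]
  exact congrArg θ (Subtype.ext (map_mul _ _ _))

theorem orbit_one (g : G) : orbit α hinv θ 1 g = 1 := by
  unfold orbit
  rw [← map_one θ]
  exact congrArg θ (Subtype.ext (map_one _))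

theorem orbit_add (d e : D) (g : G) :
    orbit α hinv θ (d + e) g = orbit α hinv θ d g + orbit α hinv θ e g := by
  unfold orbit
  rw [← map_add]
  exact congrArg θ (Subtype.ext (map_add _ _ _))

theorem orbit_smul (c : ℂ) (d : D) (g : G) :
    orbit α hinv θ (c • d) g = c • orbit α hinv θ d g := by
  unfold orbit
  rw [← map_smul]
  exact congrArg θ (Subtype.ext (map_smul _ _ _))

theorem cong_orbit_zero (hs : Sys T α) (hnull : ∀ d : D, Cong T (d : F) 0 → Cong T (θ d) 0)
    {d : D} (hd : Cong T (d : F) 0) (g : G) : Cong T (orbit α hinv θ d g) 0 := by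
  refine hnull _ ?_
  show Cong T (α g (d : F)) 0
  rw [← map_zero (α g)]
  exact hs.cong_map _ hd

end Orbit

section Translate

variable {ι κ : Type*}

theorem pr_comp (ε : ℝ) (f : ℕ → ι → F) (e : κ → ι) (l : ℕ) (g : κ) :
    pr ε (fun i => f i ∘ e) l g = pr ε f l (e g) := by
  induction l with
  | zero => rfl
  | succ l ih => simp only [pr_succ, ih, Function.comp_apply]

theorem stot_image [DecidableEq ι] {B : Finset κ} {e : κ → ι} (he : Set.InjOn e B) (P : ι → F) :
    stot (B.image e) P = stot B (P ∘ e) := Finset.sum_image he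

theorem xq_image [DecidableEq ι] {B : Finset κ} {e : κ → ι} (he : Set.InjOn e B) (P x : ι → F) :
    xq (B.image e) P x = xq B (P ∘ e) (x ∘ e) := by
  rw [xq, xq, stot_image he, Finset.sum_image he]
  rfl

theorem map_pr (φ : F →⋆ₐ[ℂ] F) (ε : ℝ) (f : ℕ → ι → F) (l : ℕ) (g : ι) :
    φ (pr ε f l g) = pr ε (fun i h => φ (f i h)) l g := by
  induction l with
  | zero => exact map_one φ
  | succ l ih =>
    simp only [pr_succ, map_mul, ih, map_add, map_one, map_smul_real]

variable [PartialOrder F] [StarOrderedRing F]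

theorem map_iq (φ : F →⋆ₐ[ℂ] F) {a : F} (ha : IsStrictlyPositive a) : φ (iq a) = iq (φ a) :=
  StarAlgHomClass.map_cfc φ (fun t : ℝ => (Real.sqrt (Real.sqrt t))⁻¹) a (continuousOn_iq ha)
    (Vale.Agent.P101.hom_continuous φ) ha.isSelfAdjoint (ha.isSelfAdjoint.map φ)

theorem map_xq (φ : F →⋆ₐ[ℂ] F) {B : Finset ι} (hB : B.Nonempty) {P : ι → F}
    (hP : ∀ g ∈ B, IsStrictlyPositive (P g)) (x : ι → F) :
    φ (xq B P x) = xq B (fun g => φ (P g)) (fun g => φ (x g)) := by
  rw [xq, xq, map_mul, map_mul, map_iq φ (stot_isStrictlyPositive hB hP)]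
  simp only [stot, map_sum, map_mul]

end Translate

section Move

variable {G : Type} [Group G] [DecidableEq G] [PartialOrder F] [StarOrderedRing F]
  {α : G → (F ≃⋆ₐ[ℂ] F)}

/-- An element of the group moves the average over `B` to the average over its translate. -/
theorem map_xq_translate (h : G) (ε : ℝ) (f : ℕ → G → F) (l : ℕ) {B : Finset G} (hB : B.Nonempty)
    (hP : ∀ g ∈ B, IsStrictlyPositive (pr ε f l g)) (hf : ∀ i ≤ l, ∀ g, α h (f i g) = f i (h * g)) :
    α h (xq B (pr ε f l) (f l)) = xq (B.image (h * ·)) (pr ε f l) (f l) := by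
  have hp : ∀ m ≤ l, ∀ g, α h (pr ε f m g) = pr ε f m (h * g) := by
    intro m
    induction m with
    | zero => intro _ g; exact map_one (α h : F →⋆ₐ[ℂ] F)
    | succ m ih =>
      intro hm g
      show (α h : F →⋆ₐ[ℂ] F) (pr ε f m g * (1 + ε • f m g)) = _
      rw [map_mul, map_add, map_one, map_smul_real]
      show α h (pr ε f m g) * (1 + ε • α h (f m g)) = _
      rw [ih (Nat.le_of_succ_le hm), hf m (Nat.le_of_succ_le hm)]
      rfl
  show (α h : F →⋆ₐ[ℂ] F) (xq B (pr ε f l) (f l)) = _
  rw [map_xq _ hB hP, xq_image (mul_right_injective h).injOn]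
  congr 1
  · funext g; exact hp l le_rfl g
  · funext g; exact hf l le_rfl g

end Move

end

end Vale.Agent.P095.Amenable
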