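import Vale.Agent.P095.Amenable.FolnerDefs

/-!
# Averages over nested finite sets

For `s ⊆ t` and positive densities, the square roots of the totals and the averages `xq` differ by a
multiple of the square root of the number of added points, in the two-seminorm. No pointwise
comparison of the totals is used: only operator monotonicity of the square root and Cauchy-Schwarz.
-/

open scoped ComplexOrder

namespace Vale.Agent.P095.Amenable

noncomputable section

variable {F : Type*} [CStarAlgebra F] [PartialOrder F] [StarOrderedRing F] {ι : Type*}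
  {τ : F →ₗ[ℂ] ℂ}

/-- The two-seminorm is monotone on positive elements. -/
theorem IsTrace.tn_mono (hτ : IsTrace τ) {a b : F} (ha : 0 ≤ a) (hab : a ≤ b) :
    tn τ a ≤ tn τ b := by
  have hb : 0 ≤ b := ha.trans hab
  refine Real.sqrt_le_sqrt ?_
  rw [ha.isSelfAdjoint.star_eq, hb.isSelfAdjoint.star_eq]
  refine (hτ.mul_le_mul_left ha hab).trans ?_
  rw [hτ.comm a b]
  exact hτ.mul_le_mul_left hb hab

omit [PartialOrder F] [StarOrderedRing F] in
/-- The sum of the squares of the two-seminorms of the products of a column with its adjoint. -/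
theorem IsTrace.sum_tn_sq_cross (hτ : IsTrace τ) (t : Finset ι) (u : ι → F) :
    ∑ i ∈ t ×ˢ t, tn τ (u i.1 * star (u i.2)) ^ 2 = tn τ (∑ g ∈ t, star (u g) * u g) ^ 2 := by
  rw [hτ.tn_sq, star_sum, Finset.sum_mul_sum, map_sum, Complex.re_sum, Finset.sum_product]
  refine Finset.sum_congr rfl fun g _ => ?_
  rw [map_sum, Complex.re_sum]
  refine Finset.sum_congr rfl fun h _ => ?_
  rw [hτ.tn_sq]
  congr 1
  simp only [star_mul, star_star]
  rw [show u h * star (u g) * (u g * star (u h)) = u h * (star (u g) * u g * star (u h)) by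
    simp only [mul_assoc], hτ.comm (u h)]
  simp only [mul_assoc]

omit [PartialOrder F] [StarOrderedRing F] in
/-- Cauchy-Schwarz for a sum sandwiched by two columns. -/
theorem IsTrace.tn_sum_sandwich_sq_le (hτ : IsTrace τ) (t : Finset ι) (u v x : ι → F) {M : ℝ}
    (hM : 0 ≤ M) (hx : ∀ g ∈ t, ‖x g‖ ≤ M) :
    tn τ (∑ g ∈ t, star (u g) * x g * v g) ^ 2 ≤
      M ^ 2 * (tn τ (∑ g ∈ t, star (u g) * u g) * tn τ (∑ g ∈ t, star (v g) * v g)) := by
  have hterm : ∀ i ∈ t ×ˢ t,
      (τ (star (star (u i.1) * x i.1 * v i.1) * (star (u i.2) * x i.2 * v i.2))).re ≤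
        M ^ 2 * (tn τ (u i.1 * star (u i.2)) * tn τ (v i.1 * star (v i.2))) := fun i hi => by
    obtain ⟨h1, h2⟩ := Finset.mem_product.1 hi
    have e : star (star (u i.1) * x i.1 * v i.1) * (star (u i.2) * x i.2 * v i.2) =
        (star (v i.1) * star (x i.1) * u i.1 * star (u i.2) * x i.2) * v i.2 := by
      simp only [star_mul, star_star, mul_assoc]
    rw [e, hτ.comm _ (v i.2)]
    have e2 : v i.2 * (star (v i.1) * star (x i.1) * u i.1 * star (u i.2) * x i.2) =
        star (x i.1 * (v i.1 * star (v i.2))) * (u i.1 * star (u i.2) * x i.2) := by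
      simp only [star_mul, star_star, mul_assoc]
    rw [e2]
    refine (hτ.re_le _ _).trans ?_
    calc tn τ (x i.1 * (v i.1 * star (v i.2))) * tn τ (u i.1 * star (u i.2) * x i.2)
        ≤ (M * tn τ (v i.1 * star (v i.2))) * (tn τ (u i.1 * star (u i.2)) * M) :=
          mul_le_mul ((hτ.tn_mul_le_left _ _).trans
              (mul_le_mul_of_nonneg_right (hx _ h1) (hτ.tn_nonneg _)))
            ((hτ.tn_mul_le_right _ _).trans
              (mul_le_mul_of_nonneg_left (hx _ h2) (hτ.tn_nonneg _)))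
            (hτ.tn_nonneg _) (mul_nonneg hM (hτ.tn_nonneg _))
      _ = _ := by ring
  rw [hτ.tn_sq, star_sum, Finset.sum_mul_sum, ← Finset.sum_product', map_sum, Complex.re_sum]
  refine (Finset.sum_le_sum hterm).trans ?_
  rw [← Finset.mul_sum]
  refine mul_le_mul_of_nonneg_left ((Real.sum_mul_le_sqrt_mul_sqrt _ _ _).trans (le_of_eq ?_))
    (sq_nonneg M)
  rw [hτ.sum_tn_sq_cross, hτ.sum_tn_sq_cross, Real.sqrt_sq (hτ.tn_nonneg _),
    Real.sqrt_sq (hτ.tn_nonneg _)]

theorem isq_mul_self {a : F} (ha : IsStrictlyPositive a) : isq a * a = CFC.sqrt a := by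
  have hsp : ∀ t ∈ spectrum ℝ a, 0 < t := fun t ht => ha.spectrum_pos ht
  have hi : ContinuousOn (fun t : ℝ => (Real.sqrt t)⁻¹) (spectrum ℝ a) :=
    Real.continuous_sqrt.continuousOn.inv₀ fun t ht => (Real.sqrt_pos.2 (hsp t ht)).ne'
  rw [CFC.sqrt_eq_real_sqrt a, cfcₙ_eq_cfc, isq]
  nth_rewrite 2 [← cfc_id' ℝ a ha.isSelfAdjoint]
  rw [← cfc_mul (fun t : ℝ => (Real.sqrt t)⁻¹) (fun t : ℝ => t) a hi continuousOn_id]
  refine cfc_congr fun t ht => ?_
  have hpos := Real.sqrt_pos.2 (hsp t ht)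
  field_simp
  exact (Real.sq_sqrt (hsp t ht).le).symm

theorem sqrt_mul_iq {a : F} (ha : IsStrictlyPositive a) :
    CFC.sqrt a * iq a = CFC.sqrt (CFC.sqrt a) := by
  refine (CFC.sqrt_unique ?_ ?_).symm
  · have hc : Commute (CFC.sqrt a) (iq a) := by
      rw [CFC.sqrt_eq_real_sqrt a, cfcₙ_eq_cfc]
      exact cfc_commute_cfc _ _ a
    have hci : Commute a (iq a) := ((Commute.refl a).cfc_real _).symm
    calc CFC.sqrt a * iq a * (CFC.sqrt a * iq a)
        = iq a * (CFC.sqrt a * CFC.sqrt a) * iq a := by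
          rw [hc.eq]; simp only [mul_assoc]; rw [← hc.eq]
      _ = _ := by rw [CFC.sqrt_mul_sqrt_self a ha.nonneg, iq_mul_self_mul_iq ha]
  · have hc : Commute (CFC.sqrt a) (iq a) := by
      rw [CFC.sqrt_eq_real_sqrt a, cfcₙ_eq_cfc]
      exact cfc_commute_cfc _ _ a
    exact hc.mul_nonneg (CFC.sqrt_nonneg a) (cfc_nonneg fun t _ => by positivity)

theorem iq_mul_sqrt_mul_iq {a : F} (ha : IsStrictlyPositive a) :
    iq a * CFC.sqrt a * iq a = 1 := by
  have hc : Commute (CFC.sqrt a) (iq a) := by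
    rw [CFC.sqrt_eq_real_sqrt a, cfcₙ_eq_cfc]
    exact cfc_commute_cfc _ _ a
  rw [← hc.eq, mul_assoc, iq_mul_iq ha, ← isq_mul_self ha, isq_mul_self_mul_isq ha]

theorem quad_sum {u : Finset ι} {P : ι → F} (hP : ∀ g ∈ u, 0 ≤ P g) (Y Z : F) :
    ∑ g ∈ u, star (CFC.sqrt (P g) * Y) * (CFC.sqrt (P g) * Z) = star Y * stot u P * Z := by
  rw [stot, Finset.mul_sum, Finset.sum_mul]
  refine Finset.sum_congr rfl fun g hg => ?_
  rw [star_mul, (CFC.sqrt_nonneg (P g)).isSelfAdjoint.star_eq, mul_assoc,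
    ← mul_assoc (CFC.sqrt (P g)), CFC.sqrt_mul_sqrt_self _ (hP g hg)]
  simp only [mul_assoc]

section Shift

variable (hτ : IsTrace τ) {s t : Finset ι} (hs : s.Nonempty) (hst : s ⊆ t) {P : ι → F}
  (hP : ∀ g ∈ t, IsStrictlyPositive (P g))
include hτ hs hst hP

/-- The square roots of nested totals are close. -/
theorem sqrt_stot_sub_sq_le {X : F} (hX : 0 ≤ X) (hXP : ∀ g ∈ t, Commute X (P g))
    (hτP : ∀ g ∈ t, τ (X * P g) = τ X) :
    (τ (X * ((CFC.sqrt (stot t P) - CFC.sqrt (stot s P)) *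
      (CFC.sqrt (stot t P) - CFC.sqrt (stot s P))))).re ≤
      ((t.card : ℝ) - s.card) * (τ X).re := by
  have hS := (stot_isStrictlyPositive hs fun g hg => hP g (hst hg)).nonneg
  have hT := (stot_isStrictlyPositive (hs.mono hst) hP).nonneg
  set rS := CFC.sqrt (stot s P) with hrS
  set rT := CFC.sqrt (stot t P) with hrT
  have hle : rS ≤ rT := CFC.sqrt_le_sqrt _ _ (stot_le_stot hst fun g hg => (hP g hg).nonneg)
  have hc : Commute X rS := by
    rw [hrS, CFC.sqrt_eq_real_sqrt (stot s P), cfcₙ_eq_cfc]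
    exact commute_cfc_stot (fun g hg => hXP g (hst hg)) _
  have hXS : 0 ≤ X * rS := hc.mul_nonneg hX (CFC.sqrt_nonneg _)
  have hsum : ∀ u : Finset ι, u ⊆ t → τ (X * stot u P) = (u.card : ℂ) * τ X := fun u hu => by
    rw [stot, Finset.mul_sum, map_sum, Finset.sum_congr rfl fun g hg => hτP g (hu hg),
      Finset.sum_const, nsmul_eq_mul]
  have h1 := hτ.mul_le_mul_left hXS hle
  have e1 : τ (X * (rT * rS)) = τ (X * (rS * rT)) := by
    rw [← mul_assoc, hτ.comm (X * rT) rS, ← mul_assoc, ← hc.eq, mul_assoc]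
  have e2 : X * rS * rS = X * stot s P := by
    rw [mul_assoc, hrS, CFC.sqrt_mul_sqrt_self _ hS]
  rw [e2, mul_assoc, hsum s hst] at h1
  simp only [sub_mul, mul_sub, map_sub, Complex.sub_re, e1]
  rw [hrT, CFC.sqrt_mul_sqrt_self _ hT, hsum t subset_rfl, ← hrT, hrS,
    CFC.sqrt_mul_sqrt_self _ hS, hsum s hst, ← hrS]
  simp only [Complex.mul_re, Complex.natCast_re, Complex.natCast_im, zero_mul, sub_zero] at h1 ⊢
  linarith

/-- The averages `xq` over nested sets are close. -/
theorem xq_shift (hτP : ∀ g ∈ t, τ (P g) = 1) {x : ι → F} (hPx : ∀ g ∈ t, Commute (P g) (x g))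
    {M : ℝ} (hM : ∀ g ∈ t, ‖x g‖ ≤ M) :
    tn τ (xq t P x - xq s P x) ^ 2 ≤
      100 * M ^ 2 * Real.sqrt ((t.card : ℝ) - s.card) * Real.sqrt t.card := by
  classical
  obtain ⟨g₀, hg₀⟩ := hs
  have hM0 : 0 ≤ M := (norm_nonneg _).trans (hM g₀ (hst hg₀))
  have hSp := stot_isStrictlyPositive ⟨g₀, hg₀⟩ fun g hg => hP g (hst hg)
  have hTp := stot_isStrictlyPositive ⟨g₀, hst hg₀⟩ hP
  have hST : stot s P ≤ stot t P := stot_le_stot hst fun g hg => (hP g hg).nonneg
  set S := stot s P with hSdef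
  set T := stot t P with hTdef
  set iS := iq S with hiS
  set iT := iq T with hiT
  set rS := CFC.sqrt S with hrS
  set rT := CFC.sqrt T with hrT
  have hiSs : star iS = iS := (iq_selfAdjoint S).star_eq
  have hiTs : star iT = iT := (iq_selfAdjoint T).star_eq
  have hrSs : star rS = rS := (CFC.sqrt_nonneg S).isSelfAdjoint.star_eq
  have hD : 0 ≤ rT - rS := sub_nonneg.2 (CFC.sqrt_le_sqrt _ _ hST)
  set d : ℝ := (t.card : ℝ) - s.card with hd
  have hd0 : 0 ≤ d := sub_nonneg.2 (Nat.cast_le.2 (Finset.card_le_card hst))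
  have htr : ∀ u : Finset ι, u ⊆ t → τ (stot u P) = (u.card : ℂ) := fun u hu => by
    rw [stot, map_sum, Finset.sum_congr rfl fun g hg => hτP g (hu hg), Finset.sum_const,
      nsmul_eq_mul, mul_one]
  have htnD : tn τ (rT - rS) ≤ Real.sqrt d := by
    have h := sqrt_stot_sub_sq_le hτ ⟨g₀, hg₀⟩ hst hP (X := 1) zero_le_one
      (fun g _ => Commute.one_left _) fun g hg => by rw [one_mul, hτP g hg, hτ.map_one]
    refine Real.sqrt_le_sqrt ?_
    rw [hD.isSelfAdjoint.star_eq]
    simpa [hτ.map_one] using h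
  -- the added points
  set q := iT * (T - S) * iT with hq
  have hq0 : 0 ≤ q := by
    have := star_left_conjugate_nonneg (sub_nonneg.2 hST) iT
    rwa [hiTs] at this
  have hqle : q ≤ rT := by
    have h := (iq_selfAdjoint T).conjugate_le_conjugate (sub_le_self T hSp.nonneg)
    exact h.trans_eq (iq_mul_self_mul_iq hTp)
  have htnq : tn τ q ≤ Real.sqrt d := by
    refine Real.sqrt_le_sqrt ?_
    rw [hq0.isSelfAdjoint.star_eq]
    refine (hτ.mul_le_mul_left hq0 hqle).trans (le_of_eq ?_)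
    have e : τ (q * rT) = τ (T - S) := by
      rw [hq, mul_assoc _ iT rT, mul_assoc, hτ.comm iT, mul_assoc (T - S) (iT * rT) iT, hiT, hrT,
        iq_mul_sqrt_mul_iq hTp, mul_one]
    rw [e, map_sub, htr t subset_rfl, htr s hst, hd]
    simp
  -- the fourth roots
  set qS := CFC.sqrt rS with hqS
  set qT := CFC.sqrt rT with hqT
  set d4 := qT - qS with hd4
  have hd40 : 0 ≤ d4 := sub_nonneg.2 (CFC.sqrt_le_sqrt _ _ (sub_nonneg.1 hD))
  have htn4 : tn τ (d4 * d4) ≤ tn τ (rT - rS) := by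
    have hsa : star d4 = d4 := hd40.isSelfAdjoint.star_eq
    have h3 : 0 ≤ d4 * d4 * d4 := by
      have := star_left_conjugate_nonneg hd40 d4
      rwa [hsa] at this
    have hle : d4 ≤ qT + qS := (sub_le_self qT (CFC.sqrt_nonneg rS)).trans
      (le_add_of_nonneg_right (CFC.sqrt_nonneg rS))
    have e : τ (d4 * d4 * (rT - rS)) = τ (d4 * d4 * d4 * (qT + qS)) := by
      have e0 : rT - rS = d4 * qT + qS * d4 := by
        have hsT : qT * qT = rT := CFC.sqrt_mul_sqrt_self rT (CFC.sqrt_nonneg T)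
        have hsS : qS * qS = rS := CFC.sqrt_mul_sqrt_self rS (CFC.sqrt_nonneg S)
        rw [hd4, ← hsT, ← hsS]; noncomm_ring
      rw [e0, mul_add, map_add, mul_add (d4 * d4 * d4), map_add,
        show d4 * d4 * (qS * d4) = d4 * d4 * qS * d4 by noncomm_ring, hτ.comm _ d4]
      simp only [mul_assoc]
    have h1 : (τ (star (d4 * d4) * (d4 * d4))).re ≤
        (τ (star (d4 * d4) * (rT - rS))).re := by
      rw [star_mul, hsa, e]
      refine le_of_eq_of_le ?_ (hτ.mul_le_mul_left h3 hle)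
      simp only [mul_assoc]
    have h2 := h1.trans (hτ.re_le _ _)
    rw [← hτ.tn_sq, sq] at h2
    rcases (hτ.tn_nonneg (d4 * d4)).eq_or_lt with h0 | h0
    · rw [← h0]; exact hτ.tn_nonneg _
    · exact le_of_mul_le_mul_left h2 h0
  -- the cut of the square root
  set y := (rT - rS) * iT with hy
  set W := CFC.sqrt (rT - rS) * iT with hW
  have hWW : star W * W ≤ 1 := by
    have h := (iq_selfAdjoint T).conjugate_le_conjugate (sub_le_self rT (CFC.sqrt_nonneg S))
    rw [iq_mul_sqrt_mul_iq hTp] at h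
    refine le_of_eq_of_le ?_ h
    rw [hW, star_mul, hiTs, (CFC.sqrt_nonneg _).isSelfAdjoint.star_eq, mul_assoc,
      ← mul_assoc (CFC.sqrt (rT - rS)), CFC.sqrt_mul_sqrt_self _ hD, mul_assoc]
  have hWn : ‖W‖ ≤ 1 := by
    have h := (CStarAlgebra.norm_le_one_iff_of_nonneg _ (star_mul_self_nonneg W)).2 hWW
    rw [CStarRing.norm_star_mul_self] at h
    nlinarith [norm_nonneg W]
  have htny : tn τ (star y * y) ≤ tn τ (rT - rS) := by
    have e : star y * y = star W * (rT - rS) * W := by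
      rw [hy, hW, star_mul, star_mul, hiTs, hD.isSelfAdjoint.star_eq,
        (CFC.sqrt_nonneg _).isSelfAdjoint.star_eq]
      calc iT * (rT - rS) * ((rT - rS) * iT)
          = iT * (CFC.sqrt (rT - rS) * CFC.sqrt (rT - rS)) *
              ((CFC.sqrt (rT - rS) * CFC.sqrt (rT - rS)) * iT) := by
            rw [CFC.sqrt_mul_sqrt_self _ hD]
        _ = iT * CFC.sqrt (rT - rS) * (CFC.sqrt (rT - rS) * CFC.sqrt (rT - rS)) *
              (CFC.sqrt (rT - rS) * iT) := by simp only [mul_assoc]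
        _ = _ := by rw [CFC.sqrt_mul_sqrt_self _ hD]
    rw [e]
    refine (hτ.tn_mul_le_right _ _).trans ((mul_le_of_le_one_right (hτ.tn_nonneg _) hWn).trans
      ((hτ.tn_mul_le_left _ _).trans (mul_le_of_le_one_left (hτ.tn_nonneg _) ?_)))
    rwa [norm_star]
  -- the two columns
  set a : ι → F := fun g => CFC.sqrt (P g) * iT with ha
  set b : ι → F := fun g => if g ∈ s then CFC.sqrt (P g) * iS else 0 with hb
  have hsP : ∀ g, star (CFC.sqrt (P g)) = CFC.sqrt (P g) := fun g =>
    (CFC.sqrt_nonneg _).isSelfAdjoint.star_eq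
  have hmid : ∀ g ∈ t, CFC.sqrt (P g) * x g * CFC.sqrt (P g) = P g * x g := fun g hg => by
    have hc : Commute (CFC.sqrt (P g)) (x g) := by
      rw [CFC.sqrt_eq_real_sqrt (P g) (hP g hg).nonneg, cfcₙ_eq_cfc]
      exact (hPx g hg).cfc_real _
    rw [mul_assoc, ← hc.eq, ← mul_assoc, CFC.sqrt_mul_sqrt_self _ (hP g hg).nonneg]
  have hat : xq t P x = ∑ g ∈ t, star (a g) * x g * a g := by
    rw [xq, Finset.mul_sum, Finset.sum_mul]
    refine Finset.sum_congr rfl fun g hg => ?_
    rw [← hmid g hg]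
    simp only [ha, star_mul, hsP, hiTs, mul_assoc, ← hiT, ← hTdef]
  have hbs : xq s P x = ∑ g ∈ t, star (b g) * x g * b g := by
    rw [← Finset.sum_subset hst fun g _ hg => by simp [hb, hg], xq, Finset.mul_sum, Finset.sum_mul]
    refine Finset.sum_congr rfl fun g hg => ?_
    rw [← hmid g (hst hg)]
    simp only [hb, if_pos hg, star_mul, hsP, hiSs, mul_assoc, ← hiS, ← hSdef]
  have haa : ∑ g ∈ t, star (a g) * a g = rT :=
    (quad_sum (fun g hg => (hP g hg).nonneg) iT iT).trans (by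
      rw [hiTs, ← hTdef]; exact iq_mul_self_mul_iq hTp)
  have hbb : ∑ g ∈ t, star (b g) * b g = rS := by
    rw [← Finset.sum_subset hst fun g _ hg => by simp [hb, hg]]
    refine (Finset.sum_congr rfl fun g hg => ?_).trans
      ((quad_sum (fun g hg => (hP g (hst hg)).nonneg) iS iS).trans (by
        rw [hiSs, ← hSdef]; exact iq_mul_self_mul_iq hSp))
    simp only [hb, if_pos hg]
  have hpp : ∑ g ∈ t, star (a g - b g) * (a g - b g) ≤
      q + (2 : ℝ) • (star y * y) + (2 : ℝ) • (d4 * d4) := by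
    rw [← Finset.sum_sdiff hst]
    have eo : ∑ g ∈ t \ s, star (a g - b g) * (a g - b g) = q := by
      refine (Finset.sum_congr rfl fun g hg => ?_).trans
        ((quad_sum (fun g hg => (hP g (Finset.mem_sdiff.1 hg).1).nonneg) iT iT).trans ?_)
      · simp only [hb, if_neg (Finset.mem_sdiff.1 hg).2, sub_zero, ha]
      · rw [hiTs, hq, hTdef, hSdef, stot, stot, stot, Finset.sum_sdiff_eq_sub hst]
    have ei : ∑ g ∈ s, star (a g - b g) * (a g - b g) = star (-y + d4) * (-y + d4) := by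
      have hqT' : rT * iT = qT := sqrt_mul_iq hTp
      have hqS' : rS * iS = qS := sqrt_mul_iq hSp
      have e : -y + d4 = rS * (iT - iS) := by
        rw [hy, hd4, mul_sub, sub_mul, hqT', hqS']; abel
      rw [e, star_mul, hrSs, mul_assoc, ← mul_assoc rS rS, hrS,
        CFC.sqrt_mul_sqrt_self S hSp.nonneg, ← mul_assoc, hSdef,
        ← quad_sum (fun g hg => (hP g (hst hg)).nonneg)]
      refine Finset.sum_congr rfl fun g hg => ?_
      simp only [hb, if_pos hg, ha, mul_sub]
    rw [eo, ei, add_assoc]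
    refine add_le_add le_rfl ?_
    have h := star_mul_self_nonneg (-y - d4)
    rw [← sub_nonneg]
    refine le_of_le_of_eq h ?_
    simp only [star_sub, star_add, star_neg, hd40.isSelfAdjoint.star_eq, two_smul]
    noncomm_ring
  have hp0 : 0 ≤ ∑ g ∈ t, star (a g - b g) * (a g - b g) :=
    Finset.sum_nonneg fun g _ => star_mul_self_nonneg _
  have hppn : tn τ (∑ g ∈ t, star (a g - b g) * (a g - b g)) ≤ 5 * Real.sqrt d := by
    refine (hτ.tn_mono hp0 hpp).trans ((hτ.tn_add_le _ _).trans ?_)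
    refine (add_le_add (hτ.tn_add_le _ _) le_rfl).trans ?_
    rw [← Complex.coe_smul, ← Complex.coe_smul, hτ.tn_smul, hτ.tn_smul]
    simp only [Complex.norm_real, Real.norm_ofNat]
    linarith
  have htT : tn τ rT ≤ Real.sqrt t.card := by
    refine Real.sqrt_le_sqrt (le_of_eq ?_)
    rw [(CFC.sqrt_nonneg T).isSelfAdjoint.star_eq, CFC.sqrt_mul_sqrt_self T hTp.nonneg,
      htr t subset_rfl]
    simp
  have htS : tn τ rS ≤ Real.sqrt t.card := by
    refine Real.sqrt_le_sqrt ?_
    rw [hrSs, hrS, CFC.sqrt_mul_sqrt_self S hSp.nonneg, htr s hst]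
    simpa using Finset.card_le_card hst
  have e : xq t P x - xq s P x =
      (∑ g ∈ t, star (a g - b g) * x g * a g) + ∑ g ∈ t, star (b g) * x g * (a g - b g) := by
    rw [hat, hbs, ← Finset.sum_sub_distrib, ← Finset.sum_add_distrib]
    refine Finset.sum_congr rfl fun g _ => ?_
    rw [star_sub]
    noncomm_ring
  set K := M ^ 2 * (5 * Real.sqrt d * Real.sqrt t.card) with hK
  have hK0 : 0 ≤ K := by positivity
  have h1 : tn τ (∑ g ∈ t, star (a g - b g) * x g * a g) ^ 2 ≤ K := by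
    refine (hτ.tn_sum_sandwich_sq_le t _ _ x hM0 hM).trans ?_
    rw [haa]
    exact mul_le_mul_of_nonneg_left
      (mul_le_mul hppn htT (hτ.tn_nonneg _) (by positivity)) (sq_nonneg M)
  have h2 : tn τ (∑ g ∈ t, star (b g) * x g * (a g - b g)) ^ 2 ≤ K := by
    refine (hτ.tn_sum_sandwich_sq_le t _ _ x hM0 hM).trans ?_
    rw [hbb, mul_comm (tn τ rS)]
    exact mul_le_mul_of_nonneg_left
      (mul_le_mul hppn htS (hτ.tn_nonneg _) (by positivity)) (sq_nonneg M)
  rw [e]
  set u := tn τ (∑ g ∈ t, star (a g - b g) * x g * a g)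
  set v := tn τ (∑ g ∈ t, star (b g) * x g * (a g - b g))
  calc _ ≤ (u + v) ^ 2 := pow_le_pow_left₀ (hτ.tn_nonneg _) (hτ.tn_add_le _ _) 2
    _ ≤ 4 * K := by nlinarith [sq_nonneg (u - v)]
    _ = 20 * M ^ 2 * Real.sqrt d * Real.sqrt t.card := by rw [hK]; ring
    _ ≤ _ := by gcongr; norm_num

end Shift

/-- The square of the difference of the columns of two trials. -/
theorem column_diff {s t : Finset ι} (hs : s.Nonempty) (hst : s ⊆ t) [DecidableEq ι] {P : ι → F}
    (hP : ∀ g ∈ t, IsStrictlyPositive (P g)) (φ ψ : ℝ → ℝ) :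
    (∑ g ∈ t, star (CFC.sqrt (P g) * (isq (stot t P) * cfc ψ (stot t P)) -
          if g ∈ s then CFC.sqrt (P g) * (isq (stot s P) * cfc φ (stot s P)) else 0) *
        (CFC.sqrt (P g) * (isq (stot t P) * cfc ψ (stot t P)) -
          if g ∈ s then CFC.sqrt (P g) * (isq (stot s P) * cfc φ (stot s P)) else 0))
      = cfc ψ (stot t P) * cfc ψ (stot t P) + cfc φ (stot s P) * cfc φ (stot s P)
        - (cfc φ (stot s P) * CFC.sqrt (stot s P) * isq (stot t P) * cfc ψ (stot t P)
          + star (cfc φ (stot s P) * CFC.sqrt (stot s P) * isq (stot t P) * cfc ψ (stot t P))) := by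
  have hSp := stot_isStrictlyPositive hs fun g hg => hP g (hst hg)
  have hTp := stot_isStrictlyPositive (hs.mono hst) hP
  set A := isq (stot t P) * cfc ψ (stot t P) with hA
  set B := isq (stot s P) * cfc φ (stot s P) with hB
  set S := stot s P with hS
  set T := stot t P with hT
  have hsf : ∀ (f : ℝ → ℝ) (z : F), star (cfc f z) = cfc f z := fun f z =>
    (cfc_predicate f z).star_eq
  have hsA : star A = cfc ψ T * isq T := by
    rw [hA, star_mul, hsf, (isq_selfAdjoint T).star_eq]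
  have hsB : star B = cfc φ S * isq S := by
    rw [hB, star_mul, hsf, (isq_selfAdjoint S).star_eq]
  have hquad : ∀ (u : Finset ι), u ⊆ t → ∀ Y Z : F,
      ∑ g ∈ u, star (CFC.sqrt (P g) * Y) * (CFC.sqrt (P g) * Z) = star Y * stot u P * Z :=
    fun u hu Y Z => quad_sum (fun g hg => (hP g (hu hg)).nonneg) Y Z
  have hext : ∀ f : ι → F, ∑ g ∈ t, (if g ∈ s then f g else 0) = ∑ g ∈ s, f g := fun f => by
    rw [← Finset.sum_filter, Finset.filter_mem_eq_inter, Finset.inter_eq_right.2 hst]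
  have e : ∀ g, star (CFC.sqrt (P g) * A - if g ∈ s then CFC.sqrt (P g) * B else 0) *
      (CFC.sqrt (P g) * A - if g ∈ s then CFC.sqrt (P g) * B else 0) =
      star (CFC.sqrt (P g) * A) * (CFC.sqrt (P g) * A)
        + (if g ∈ s then star (CFC.sqrt (P g) * B) * (CFC.sqrt (P g) * B) else 0)
        - ((if g ∈ s then star (CFC.sqrt (P g) * B) * (CFC.sqrt (P g) * A) else 0)
          + (if g ∈ s then star (CFC.sqrt (P g) * A) * (CFC.sqrt (P g) * B) else 0)) := fun g => by
    split_ifs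
    · simp only [star_sub]; noncomm_ring
    · simp
  simp only [e, Finset.sum_sub_distrib, Finset.sum_add_distrib, hext, hquad t subset_rfl,
    hquad s hst, ← hT, ← hS]
  have hψ : Commute (cfc ψ T) (isq T) := cfc_commute_cfc _ _ T
  have hφ : Commute (cfc φ S) (isq S) := cfc_commute_cfc _ _ S
  have e1 : star A * T * A = cfc ψ T * cfc ψ T := by
    rw [hsA, hA, show cfc ψ T * isq T * T * (isq T * cfc ψ T) =
      cfc ψ T * (isq T * T * isq T) * cfc ψ T by simp only [mul_assoc],
      isq_mul_self_mul_isq hTp, mul_one]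
  have e2 : star B * S * B = cfc φ S * cfc φ S := by
    rw [hsB, hB, show cfc φ S * isq S * S * (isq S * cfc φ S) =
      cfc φ S * (isq S * S * isq S) * cfc φ S by simp only [mul_assoc],
      isq_mul_self_mul_isq hSp, mul_one]
  have e3 : star B * S * A = cfc φ S * CFC.sqrt S * isq T * cfc ψ T := by
    rw [hsB, hA, ← isq_mul_self hSp]
    simp only [mul_assoc]
  have e4 : star A * S * B = star (star B * S * A) := by
    simp only [star_mul, star_star, hSp.isSelfAdjoint.star_eq, mul_assoc]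
  rw [e1, e2, e4, e3]

end

end Vale.Agent.P095.Amenable
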