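import Vale.Agent.P095.Amenable.FolnerDefs
import Vale.Agent.P095.Amenable.Kernel

/-!
# Ramps

The ramps of slope `n / M` cut a density in `[0, M]` into `n` layers. Their sum is exactly linear,
they overlap in at most one layer, and the products of two families of ramps are bounded through
the kernel transfer by the square roots of the densities.
-/

open scoped ComplexOrder
open Set

namespace Vale.Agent.P095.Amenable

noncomputable section

variable {F : Type*} [CStarAlgebra F] [PartialOrder F] [StarOrderedRing F] {τ : F →ₗ[ℂ] ℂ}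

/-- The `i`th ramp of slope `n / M`. -/
def ramp (n : ℕ) (M : ℝ) (i : ℕ) (x : ℝ) : ℝ := max 0 (min 1 (n * x / M - i))

/-- The square root of a ramp. -/
def hramp (n : ℕ) (M : ℝ) (i : ℕ) (x : ℝ) : ℝ := Real.sqrt (ramp n M i x)

theorem ramp_nonneg (n : ℕ) (M : ℝ) (i : ℕ) (x : ℝ) : 0 ≤ ramp n M i x := le_max_left _ _

theorem ramp_le_one (n : ℕ) (M : ℝ) (i : ℕ) (x : ℝ) : ramp n M i x ≤ 1 :=
  max_le zero_le_one (min_le_left _ _)

theorem continuous_ramp (n : ℕ) (M : ℝ) (i : ℕ) : Continuous (ramp n M i) := by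
  unfold ramp
  fun_prop

theorem continuous_hramp (n : ℕ) (M : ℝ) (i : ℕ) : Continuous (hramp n M i) := by
  unfold hramp
  exact Real.continuous_sqrt.comp (continuous_ramp n M i)

theorem ramp_mono {M : ℝ} (hM : 0 < M) (n i : ℕ) : Monotone (ramp n M i) := fun a b hab => by
  unfold ramp
  gcongr

theorem sum_ramp_min {y : ℝ} (hy : 0 ≤ y) (k : ℕ) :
    ∑ i ∈ Finset.range k, max 0 (min 1 (y - (i : ℝ))) = min y k := by
  induction k with
  | zero => simp [hy]
  | succ k ih =>
    rw [Finset.sum_range_succ, ih]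
    push_cast
    rcases le_or_gt y k with h | h
    · rw [min_eq_left h, min_eq_right (by linarith : y - k ≤ 1), max_eq_left (by linarith),
        min_eq_left (by linarith : y ≤ k + 1)]
      ring
    · rw [min_eq_right h.le]
      rcases le_or_gt y (k + 1) with h' | h'
      · rw [min_eq_right (by linarith : y - k ≤ 1), max_eq_right (by linarith), min_eq_left h']
        ring
      · rw [min_eq_left (by linarith : (1 : ℝ) ≤ y - k), max_eq_right zero_le_one,
          min_eq_right h'.le]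

theorem sum_overlap_min (y : ℝ) (k : ℕ) :
    (∑ i ∈ Finset.range k,
        max 0 (min 1 (y - (i : ℝ))) * (1 - max 0 (min 1 (y - (i : ℝ))))) ≤ 1 ∧
      ((k : ℝ) ≤ y → ∑ i ∈ Finset.range k,
        max 0 (min 1 (y - (i : ℝ))) * (1 - max 0 (min 1 (y - (i : ℝ)))) = 0) := by
  induction k with
  | zero => simp
  | succ k ih =>
    rw [Finset.sum_range_succ]
    push_cast
    set c := max 0 (min 1 (y - (k : ℝ))) with hc
    have c0 : 0 ≤ c := le_max_left _ _
    have c1 : c ≤ 1 := max_le zero_le_one (min_le_left _ _)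
    refine ⟨?_, fun h => ?_⟩
    · rcases le_or_gt (k : ℝ) y with h | h
      · rw [ih.2 h, zero_add]
        nlinarith
      · have : c = 0 := by
          rw [hc, max_eq_left]
          exact (min_le_right _ _).trans (by linarith)
        rw [this]
        simpa using ih.1
    · have : c = 1 := by
        rw [hc, min_eq_left (by linarith), max_eq_right zero_le_one]
      rw [this, ih.2 (by linarith)]
      ring

theorem sum_ramp_scalar {M : ℝ} (hM : 0 < M) (n : ℕ) {x : ℝ} (h0 : 0 ≤ x) (h1 : x ≤ M) :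
    ∑ i ∈ Finset.range n, ramp n M i x = (n : ℝ) / M * x := by
  refine (sum_ramp_min (y := (n : ℝ) * x / M) (by positivity) n).trans ?_
  rw [min_eq_left (by rw [div_le_iff₀ hM]; gcongr)]
  ring

theorem diag_scalar {M : ℝ} (hM : 0 < M) (n : ℕ) {γ : ℝ} (hγ : 0 < γ) {p q : ℝ} (p0 : 0 ≤ p)
    (p1 : p ≤ M) (q0 : 0 ≤ q) (q1 : q ≤ M) :
    (n : ℝ) / M * ((1 - γ) * ((p + q) / 2) - (p + q - 2 * (√p * √q)) / (4 * γ)) - 1 ≤
      ∑ i ∈ Finset.range n, ramp n M i p * ramp n M i q := by
  have hm0 : 0 ≤ min p q := le_min p0 q0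
  have hm1 : min p q ≤ M := (min_le_left _ _).trans p1
  have h1 : (n : ℝ) / M * min p q - 1 ≤ ∑ i ∈ Finset.range n, ramp n M i p * ramp n M i q := by
    refine le_trans ?_ (Finset.sum_le_sum fun i _ => mul_le_mul (ramp_mono hM n i (min_le_left p q))
      (ramp_mono hM n i (min_le_right p q)) (ramp_nonneg _ _ _ _) (ramp_nonneg _ _ _ _))
    have h2 := (sum_overlap_min ((n : ℝ) * min p q / M) n).1
    rw [← sum_ramp_scalar hM n hm0 hm1, sub_le_iff_le_add]
    calc ∑ i ∈ Finset.range n, ramp n M i (min p q)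
        = ∑ i ∈ Finset.range n, ramp n M i (min p q) * ramp n M i (min p q)
          + ∑ i ∈ Finset.range n, ramp n M i (min p q) * (1 - ramp n M i (min p q)) := by
          rw [← Finset.sum_add_distrib]
          exact Finset.sum_congr rfl fun i _ => by ring
      _ ≤ _ := by
          gcongr
          exact h2
  refine le_trans ?_ h1
  refine sub_le_sub_right (mul_le_mul_of_nonneg_left ?_ (by positivity)) 1
  obtain ⟨u, hu, rfl⟩ : ∃ u, 0 ≤ u ∧ p = u * u :=
    ⟨√p, Real.sqrt_nonneg _, (Real.mul_self_sqrt p0).symm⟩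
  obtain ⟨v, hv, rfl⟩ : ∃ v, 0 ≤ v ∧ q = v * v :=
    ⟨√q, Real.sqrt_nonneg _, (Real.mul_self_sqrt q0).symm⟩
  rw [Real.sqrt_mul_self hu, Real.sqrt_mul_self hv]
  have e : (1 - γ) * ((u * u + v * v) / 2) - (u * u + v * v - 2 * (u * v)) / (4 * γ)
      = (2 * γ * (1 - γ) * (u * u + v * v) - (u - v) ^ 2) / (4 * γ) := by
    field_simp
    ring
  rw [e, div_le_iff₀ (by positivity)]
  rcases le_total u v with h | h
  · rw [min_eq_left (by nlinarith)]
    nlinarith [sq_nonneg (v - u - γ * (u + v)), sq_nonneg (γ * (u - v))]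
  · rw [min_eq_right (by nlinarith)]
    nlinarith [sq_nonneg (u - v - γ * (u + v)), sq_nonneg (γ * (u - v))]

theorem shift_scalar {M : ℝ} (hM : 0 < M) (n : ℕ) {γ : ℝ} (hγ : 0 < γ) {p q : ℝ} (p0 : 0 ≤ p)
    (p1 : p ≤ M) (q0 : 0 < q) (q1 : q ≤ M) :
    (n : ℝ) / M * (p + q)
        - 2 * ∑ i ∈ Finset.range n, hramp n M i p * √p * ((√q)⁻¹ * hramp n M i q) ≤
      (n : ℝ) / M * (3 / γ * (p + q - 2 * (√p * √q)) + 3 * γ * (p + q)) := by
  set H := ∑ i ∈ Finset.range n, hramp n M i p * hramp n M i q with hH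
  have eH : ∑ i ∈ Finset.range n, hramp n M i p * √p * ((√q)⁻¹ * hramp n M i q)
      = √p / √q * H := by
    rw [hH, Finset.mul_sum]
    exact Finset.sum_congr rfl fun i _ => by ring
  have sp := sum_ramp_scalar hM n p0 p1
  have sq := sum_ramp_scalar hM n q0.le q1
  have hN : 0 ≤ (n : ℝ) / M := by positivity
  have hH0 : 0 ≤ H :=
    Finset.sum_nonneg fun i _ => mul_nonneg (Real.sqrt_nonneg _) (Real.sqrt_nonneg _)
  have hH1 : H ≤ (n : ℝ) / M * (√p * √q) := by
    refine (Real.sum_sqrt_mul_sqrt_le (Finset.range n) (fun i => ramp_nonneg n M i p)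
      (fun i => ramp_nonneg n M i q)).trans_eq ?_
    rw [sp, sq, Real.sqrt_mul hN, Real.sqrt_mul hN]
    linear_combination (√p * √q) * Real.mul_self_sqrt hN
  have hsq : (n : ℝ) / M * (p + q) - 2 * H ≤ (n : ℝ) / M * |p - q| := by
    have e : (n : ℝ) / M * (p + q) - 2 * H
        = ∑ i ∈ Finset.range n, (hramp n M i p - hramp n M i q) ^ 2 := by
      rw [mul_add, ← sp, ← sq, hH, Finset.mul_sum, ← Finset.sum_add_distrib,
        ← Finset.sum_sub_distrib]
      refine Finset.sum_congr rfl fun i _ => ?_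
      simp only [hramp]
      linear_combination -(Real.mul_self_sqrt (ramp_nonneg n M i p))
        - (Real.mul_self_sqrt (ramp_nonneg n M i q))
    rw [e]
    have key : ∀ a b : ℝ, 0 ≤ b → b ≤ a → (√a - √b) ^ 2 ≤ a - b := fun a b hb hba => by
      have h1 := Real.sqrt_le_sqrt hba
      nlinarith [Real.mul_self_sqrt hb, Real.mul_self_sqrt (hb.trans hba), Real.sqrt_nonneg b]
    rcases le_total p q with h | h
    · rw [abs_of_nonpos (by linarith), neg_sub, mul_sub, ← sp, ← sq, ← Finset.sum_sub_distrib]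
      refine Finset.sum_le_sum fun i _ => ?_
      rw [← neg_sub, neg_sq]
      exact key _ _ (ramp_nonneg _ _ _ _) (ramp_mono hM n i h)
    · rw [abs_of_nonneg (by linarith), mul_sub, ← sp, ← sq, ← Finset.sum_sub_distrib]
      exact Finset.sum_le_sum fun i _ => key _ _ (ramp_nonneg _ _ _ _) (ramp_mono hM n i h)
  rw [eH]
  generalize hu : √p = u at hH1 ⊢
  generalize hv : √q = v at hH1 ⊢
  have u0 : 0 ≤ u := hu ▸ Real.sqrt_nonneg p
  have v0 : 0 < v := hv ▸ Real.sqrt_pos.2 q0
  have hp : p = u * u := by rw [← hu, Real.mul_self_sqrt p0]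
  have hq : q = v * v := by rw [← hv, Real.mul_self_sqrt q0.le]
  subst hp hq
  have e1 : |u * u - v * v| = |v - u| * (u + v) := by
    rw [show u * u - v * v = (u - v) * (u + v) by ring, abs_mul,
      abs_of_nonneg (by linarith : 0 ≤ u + v), abs_sub_comm]
  rw [e1] at hsq
  have e2 : H * (1 - u / v) ≤ (n : ℝ) / M * (u * |v - u|) := by
    calc H * (1 - u / v) = H * ((v - u) / v) := by field_simp
      _ ≤ H * (|v - u| / v) := by
          gcongr
          exact le_abs_self _
      _ ≤ (n : ℝ) / M * (u * v) * (|v - u| / v) :=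
          mul_le_mul_of_nonneg_right hH1 (by positivity)
      _ = _ := by field_simp
  have e3 : |v - u| * (3 * u + v) ≤
      3 / γ * (u * u + v * v - 2 * (u * v)) + 3 * γ * (u * u + v * v) := by
    have hz : u * u + v * v - 2 * (u * v) = |v - u| ^ 2 := by rw [sq_abs]; ring
    rw [hz, div_mul_eq_mul_div, ← sub_le_iff_le_add, le_div_iff₀ hγ]
    nlinarith [sq_nonneg (3 * |v - u| - γ * (3 * u + v)), mul_nonneg hγ.le (abs_nonneg (v - u)),
      sq_nonneg (γ * (3 * v - u)), mul_self_nonneg |v - u|, sq_nonneg (γ * u), sq_nonneg (γ * v)]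
  nlinarith [mul_le_mul_of_nonneg_left e3 hN]

theorem spectrum_subset_Icc {M : ℝ} (hM : 0 < M) {S : F} (hS : IsStrictlyPositive S)
    (hSM : ‖S‖ ≤ M) : ∃ l, 0 < l ∧ l ≤ M ∧ spectrum ℝ S ⊆ Icc l M := by
  rcases (spectrum ℝ S).eq_empty_or_nonempty with h | h
  · exact ⟨M, hM, le_rfl, by simp [h]⟩
  · obtain ⟨l, hl, hmin⟩ :=
      (ContinuousFunctionalCalculus.isCompact_spectrum (R := ℝ) S).exists_isMinOn h continuousOn_id
    have hle : ∀ t ∈ spectrum ℝ S, t ≤ M := fun t ht => by
      have : Nontrivial F := by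
        by_contra hn
        rw [not_nontrivial_iff_subsingleton] at hn
        simp [spectrum.of_subsingleton] at ht
      exact ((le_abs_self t).trans (spectrum.norm_le_norm_of_mem ht)).trans hSM
    exact ⟨l, hS.spectrum_pos hl, hle l hl, fun t ht => ⟨hmin ht, hle t ht⟩⟩

variable (hτ : IsTrace τ) {M : ℝ} (hM : 0 < M) (n : ℕ) {S T X : F} (hS : IsStrictlyPositive S)
  (hSM : ‖S‖ ≤ M)

include hM hS hSM in
theorem sum_ramp : ∑ i ∈ Finset.range n, cfc (ramp n M i) S = ((n : ℝ) / M) • S := by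
  obtain ⟨l, hl, hlM, hsub⟩ := spectrum_subset_Icc hM hS hSM
  rw [← cfc_sum (fun i => ramp n M i) S (Finset.range n)
    fun i _ => (continuous_ramp n M i).continuousOn, ← cfc_smul_id (R := ℝ) ((n : ℝ) / M) S]
  refine cfc_congr fun t ht => ?_
  rw [Finset.sum_apply, smul_eq_mul]
  exact sum_ramp_scalar hM n (hl.le.trans (hsub ht).1) (hsub ht).2

include hM hS hSM in
theorem sum_ramp_overlap :
    ∑ i ∈ Finset.range n, cfc (ramp n M i) S * (1 - cfc (ramp n M i) S) ≤ 1 := by
  have e : ∀ i, cfc (ramp n M i) S * (1 - cfc (ramp n M i) S)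
      = cfc (fun t => ramp n M i t * (1 - ramp n M i t)) S := fun i => by
    rw [cfc_mul (ramp n M i) (fun t => 1 - ramp n M i t) S (continuous_ramp n M i).continuousOn
      (continuous_const.sub (continuous_ramp n M i)).continuousOn,
      cfc_sub (fun _ => (1 : ℝ)) (ramp n M i) S continuousOn_const
        (continuous_ramp n M i).continuousOn, cfc_const_one ℝ S hS.isSelfAdjoint]
  rw [Finset.sum_congr rfl fun i _ => e i,
    ← cfc_sum (fun i t => ramp n M i t * (1 - ramp n M i t)) S (Finset.range n) fun i _ =>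
      ((continuous_ramp n M i).mul (continuous_const.sub (continuous_ramp n M i))).continuousOn]
  refine cfc_le_one _ _ fun t _ => ?_
  rw [Finset.sum_apply]
  exact (sum_overlap_min ((n : ℝ) * t / M) n).1

include hτ hM hS hSM in
theorem ramp_diag (hX : 0 ≤ X) (hXS : Commute X S) {E : F} (hE : IsSelfAdjoint E)
    (hXE : Commute X E) {γ : ℝ} (hγ : 0 < γ) :
    (n : ℝ) / M * ((1 - γ) * (τ (X * (S * (E * E)))).re - ((τ (X * (S * (E * E)))).re -
        (τ (X * (CFC.sqrt S * E * CFC.sqrt S * E))).re) / (2 * γ)) - (τ (X * (E * E))).re ≤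
      ∑ i ∈ Finset.range n, (τ (X * (cfc (ramp n M i) S * E * cfc (ramp n M i) S * E))).re := by
  obtain ⟨l, hl, hlM, hsub⟩ := spectrum_subset_Icc hM hS hSM
  set a : ℝ := (n : ℝ) / M / (4 * γ) - (n : ℝ) / M * (1 - γ) / 2 with ha
  set b : ℝ := -((n : ℝ) / M / (2 * γ)) with hb
  have h := hτ.kernel_nonneg Finset.univ hX hXS E hS.isSelfAdjoint hS.isSelfAdjoint hlM hlM hsub
    hsub (Sum.elim (fun i : Fin n => ramp n M i)
      ![fun p => a * p, fun _ => a, fun p => b * √p, fun _ => 1])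
    (Sum.elim (fun i : Fin n => ramp n M i) ![fun _ => 1, fun q => q, fun q => √q, fun _ => 1])
    (by
      rintro (i | k) _
      · exact (continuous_ramp n M i).continuousOn
      · fin_cases k <;> simp <;> fun_prop)
    (by
      rintro (i | k) _
      · exact (continuous_ramp n M i).continuousOn
      · fin_cases k <;> simp <;> fun_prop)
    (fun p hp q hq => by
      have := diag_scalar hM n hγ (hl.le.trans hp.1) hp.2 (hl.le.trans hq.1) hq.2
      simp only [Fintype.sum_sum_type, Fin.sum_univ_four, Sum.elim_inl, Sum.elim_inr,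
        Fin.sum_univ_eq_sum_range fun i => ramp n M i p * ramp n M i q]
      simp [ha, hb]
      field_simp at this ⊢
      linarith)
  have hs : CFC.sqrt S = cfc Real.sqrt S := by
    rw [CFC.sqrt_eq_real_sqrt S hS.nonneg, cfcₙ_eq_cfc]
  simp only [Fintype.sum_sum_type, Fin.sum_univ_four, Sum.elim_inl, Sum.elim_inr, hE.star_eq,
    Fin.sum_univ_eq_sum_range fun i => (τ (X * (cfc (ramp n M i) S * E * cfc (ramp n M i) S * E))).re]
    at h
  have c0 : cfc (fun p : ℝ => a * p) S = a • S := cfc_const_mul_id a S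
  have c1 : cfc (fun _ : ℝ => a) S = a • (1 : F) := by
    rw [cfc_const a S, Algebra.algebraMap_eq_smul_one]
  have c2 : cfc (fun p : ℝ => b * √p) S = b • CFC.sqrt S := by
    rw [hs, cfc_const_mul b Real.sqrt S]
  have c3 : cfc (fun _ : ℝ => (1 : ℝ)) S = (1 : F) := cfc_const_one ℝ S
  have c4 : cfc (fun q : ℝ => q) S = S := cfc_id' ℝ S
  simp [c0, c1, c2, c3, c4, ← hs, mul_assoc, ← Complex.coe_smul] at h
  have hcomm : τ (X * (E * (S * E))) = τ (X * (S * (E * E))) := by
    calc τ (X * (E * (S * E))) = τ (E * (X * (S * E))) := by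
          rw [← mul_assoc X E, hXE.eq, mul_assoc]
      _ = τ (X * (S * E) * E) := hτ.comm _ _
      _ = _ := by rw [mul_assoc, mul_assoc]
  rw [hcomm] at h
  simp only [mul_assoc] at h ⊢
  field_simp
  simp only [ha, hb] at h
  field_simp at h
  nlinarith

include hτ hM hS hSM in
theorem ramp_shift (hT : IsStrictlyPositive T) (hTM : ‖T‖ ≤ M) (hX : 0 ≤ X) (hXS : Commute X S)
    (hXT : Commute X T) {γ : ℝ} (hγ : 0 < γ) :
    ∑ i ∈ Finset.range n, ((τ (X * cfc (ramp n M i) S)).re + (τ (X * cfc (ramp n M i) T)).re -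
        2 * (τ (X * (cfc (hramp n M i) S * CFC.sqrt S * isq T * cfc (hramp n M i) T))).re) ≤
      (n : ℝ) / M * (3 / γ * (τ (X * ((CFC.sqrt T - CFC.sqrt S) * (CFC.sqrt T - CFC.sqrt S)))).re
        + 3 * γ * ((τ (X * S)).re + (τ (X * T)).re)) := by
  obtain ⟨l, hl, hlM, hsub⟩ := spectrum_subset_Icc hM hS hSM
  obtain ⟨l', hl', hlM', hsub'⟩ := spectrum_subset_Icc hM hT hTM
  have hinv : ContinuousOn (fun t : ℝ => (√t)⁻¹) (Icc l' M) :=
    Real.continuous_sqrt.continuousOn.inv₀ fun t ht =>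
      (Real.sqrt_pos.2 (hl'.trans_le ht.1)).ne'
  set a : ℝ := (n : ℝ) / M * (3 / γ + 3 * γ - 1) with ha
  set b : ℝ := -((n : ℝ) / M * (6 / γ)) with hb
  have h := hτ.kernel_nonneg Finset.univ hX hXS 1 hS.isSelfAdjoint hT.isSelfAdjoint hlM hlM' hsub
    hsub' (Sum.elim (fun i : Fin n => fun p => 2 * (hramp n M i p * √p))
      ![fun p => a * p, fun _ => a, fun p => b * √p])
    (Sum.elim (fun i : Fin n => fun q => (√q)⁻¹ * hramp n M i q)
      ![fun _ => 1, fun q => q, fun q => √q])
    (by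
      rintro (i | k) _
      · exact (continuous_const.mul ((continuous_hramp n M i).mul
          Real.continuous_sqrt)).continuousOn
      · fin_cases k <;> simp <;> fun_prop)
    (by
      rintro (i | k) _
      · exact hinv.mul (continuous_hramp n M i).continuousOn
      · fin_cases k <;> simp <;> fun_prop)
    (fun p hp q hq => by
      have := shift_scalar hM n hγ (hl.le.trans hp.1) hp.2 (hl'.trans_le hq.1) hq.2
      have e : ∑ i ∈ Finset.range n, 2 * (hramp n M i p * √p) * ((√q)⁻¹ * hramp n M i q)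
          = 2 * ∑ i ∈ Finset.range n, hramp n M i p * √p * ((√q)⁻¹ * hramp n M i q) := by
        rw [Finset.mul_sum]
        exact Finset.sum_congr rfl fun i _ => by ring
      simp only [Fintype.sum_sum_type, Fin.sum_univ_three, Sum.elim_inl, Sum.elim_inr,
        Fin.sum_univ_eq_sum_range fun i => 2 * (hramp n M i p * √p) * ((√q)⁻¹ * hramp n M i q), e]
      generalize (∑ i ∈ Finset.range n, hramp n M i p * √p * ((√q)⁻¹ * hramp n M i q)) = H
        at this ⊢
      simp [ha, hb] at this ⊢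
      ring_nf at this ⊢
      linarith)
  have hs : CFC.sqrt S = cfc Real.sqrt S := by
    rw [CFC.sqrt_eq_real_sqrt S hS.nonneg, cfcₙ_eq_cfc]
  have ht : CFC.sqrt T = cfc Real.sqrt T := by
    rw [CFC.sqrt_eq_real_sqrt T hT.nonneg, cfcₙ_eq_cfc]
  have c5 : ∀ i, cfc (fun p => 2 * (hramp n M i p * √p)) S
      = (2 : ℝ) • (cfc (hramp n M i) S * CFC.sqrt S) := fun i => by
    rw [hs, ← cfc_mul (hramp n M i) Real.sqrt S (continuous_hramp n M i).continuousOn
      Real.continuous_sqrt.continuousOn]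
    exact cfc_const_mul (2 : ℝ) (fun p => hramp n M i p * √p) S
      ((continuous_hramp n M i).mul Real.continuous_sqrt).continuousOn
  have c6 : ∀ i, cfc (fun q => (√q)⁻¹ * hramp n M i q) T = isq T * cfc (hramp n M i) T := fun i =>
    cfc_mul _ _ T (hinv.mono hsub') (continuous_hramp n M i).continuousOn
  simp only [Fintype.sum_sum_type, Fin.sum_univ_three, Sum.elim_inl, Sum.elim_inr, c5, c6,
    star_one, mul_one,
    Fin.sum_univ_eq_sum_range fun i => (τ (X * ((2 : ℝ) • (cfc (hramp n M i) S * CFC.sqrt S) *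
      (isq T * cfc (hramp n M i) T)))).re] at h
  have c0 : cfc (fun p : ℝ => a * p) S = a • S := cfc_const_mul_id a S
  have c1 : cfc (fun _ : ℝ => a) S = a • (1 : F) := by
    rw [cfc_const a S, Algebra.algebraMap_eq_smul_one]
  have c2 : cfc (fun p : ℝ => b * √p) S = b • CFC.sqrt S := by
    rw [hs, cfc_const_mul b Real.sqrt S]
  have c3 : cfc (fun _ : ℝ => (1 : ℝ)) T = (1 : F) := cfc_const_one ℝ T
  have c4 : cfc (fun q : ℝ => q) T = T := cfc_id' ℝ T
  simp [c0, c1, c2, c3, c4, ← ht, mul_assoc, ← Complex.coe_smul] at h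
  have eS : ∑ i ∈ Finset.range n, (τ (X * cfc (ramp n M i) S)).re
      = (n : ℝ) / M * (τ (X * S)).re := by
    rw [← Complex.re_sum, ← map_sum, ← Finset.mul_sum, sum_ramp hM n hS hSM, ← Complex.coe_smul,
      mul_smul_comm, map_smul, smul_eq_mul, Complex.re_ofReal_mul]
  have eT : ∑ i ∈ Finset.range n, (τ (X * cfc (ramp n M i) T)).re
      = (n : ℝ) / M * (τ (X * T)).re := by
    rw [← Complex.re_sum, ← map_sum, ← Finset.mul_sum, sum_ramp hM n hT hTM, ← Complex.coe_smul,
      mul_smul_comm, map_smul, smul_eq_mul, Complex.re_ofReal_mul]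
  have hX' : Commute X (CFC.sqrt S) := by
    rw [hs]
    exact (hXS.symm.cfc_real _).symm
  have hcross : τ (X * (CFC.sqrt T * CFC.sqrt S)) = τ (X * (CFC.sqrt S * CFC.sqrt T)) := by
    rw [← mul_assoc X (CFC.sqrt T), hτ.comm, ← mul_assoc, ← hX'.eq, mul_assoc]
  have esq : (τ (X * ((CFC.sqrt T - CFC.sqrt S) * (CFC.sqrt T - CFC.sqrt S)))).re
      = (τ (X * S)).re + (τ (X * T)).re - 2 * (τ (X * (CFC.sqrt S * CFC.sqrt T))).re := by
    simp only [sub_mul, mul_sub, map_sub, Complex.sub_re, hcross,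
      CFC.sqrt_mul_sqrt_self S hS.nonneg, CFC.sqrt_mul_sqrt_self T hT.nonneg]
    ring
  rw [Finset.sum_sub_distrib, Finset.sum_add_distrib, eS, eT, esq, ← Finset.mul_sum]
  simp only [mul_assoc]
  simp only [ha, hb, ← Finset.mul_sum] at h
  generalize (∑ i ∈ Finset.range n, (τ (X * (cfc (hramp n M i) S * (CFC.sqrt S *
    (isq T * cfc (hramp n M i) T))))).re) = P at h ⊢
  ring_nf at h ⊢
  linarith

end

end Vale.Agent.P095.Amenable
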