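import Vale.Agent.P095.Amenable.FolnerDefs
import Vale.Agent.P095.Amenable.Ramp

/-!
# One trial of the sampler

A selection with pieces indexed by a step and a ramp turns the densities of a block into one column:
its weight is a positive element of trace proportional to the size of the finite set.
-/

open scoped ComplexOrder

namespace Vale.Agent.P095.Amenable

noncomputable section

variable {F : Type*} [CStarAlgebra F] [PartialOrder F] [StarOrderedRing F] {ι κ : Type*} {k n : ℕ}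

/-- The column of one trial for the finite set `s`, supported in `U`. -/
def tcol [DecidableEq ι] (U s : Finset ι) (P : ℕ → ι → F) (e : κ ≃ Fin k × Fin n) (M : ℝ) (r : κ → F)
    (p : κ × U) : F :=
  if (p.2 : ι) ∈ s then
    CFC.sqrt (P (e p.1).1 p.2) * (isq (stot s (P (e p.1).1)) *
      cfc (hramp n M (e p.1).2) (stot s (P (e p.1).1))) * r p.1
  else 0

variable [Fintype κ] [DecidableEq κ]

/-- The data of one trial: a weight `X`, densities in `Cp` with unit trace against `X`, and a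
selection independent of `Cp`. -/
structure TrialData (τ : F →ₗ[ℂ] ℂ) (X : F) (Cp : StarSubalgebra ℂ F) (U : Finset ι)
    (P : ℕ → ι → F) (e : κ ≃ Fin k × Fin n) (r : κ → F) (δ : ℝ) : Prop where
  pos_k : 0 < k
  pos_n : 0 < n
  closed : IsClosed (Cp : Set F)
  X_mem : X ∈ Cp
  X_nonneg : 0 ≤ X
  X_le_one : X ≤ 1
  P_mem : ∀ l < k, ∀ g ∈ U, P l g ∈ Cp
  P_pos : ∀ l < k, ∀ g ∈ U, IsStrictlyPositive (P l g)
  P_comm : ∀ l < k, ∀ g ∈ U, Commute X (P l g)
  P_trace : ∀ l < k, ∀ g ∈ U, τ (X * P l g) = τ X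
  sel_selfAdjoint : ∀ j, IsSelfAdjoint (r j)
  sel_norm : ∀ j, ‖r j‖ ≤ 1
  sel_comm : ∀ i j, Commute (r i) (r j)
  sel_commute : ∀ j, ∀ Y ∈ Cp, Commute (r j) Y
  sel_sum : ∑ j, r j * r j = 1
  sel_weight : ∀ Y ∈ Cp, ∀ j, τ (r j * r j * Y) = ((k : ℂ) * n)⁻¹ * τ Y
  sel_overlap :
    ∑ j, ∑ i ∈ Finset.univ.filter (· ≠ j), (τ (r j * r j * (r i * r i))).re ≤ δ

end

end Vale.Agent.P095.Amenable
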