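import Vale.Agent.P101.Copies
import Vale.Agent.P095.Amenable.Defs

/-!
# Absorption along the structure of subexponentially amenable groups

Absorption for the trivial subgroup, for increasing unions, and by induction for every
subexponentially amenable group, given the step along a quotient of subexponential growth.
-/

set_option linter.unusedSectionVars false

open TopologicalSpace Filter
open scoped Pointwise
open Vale.Agent.P101 (genAlg isClosed_genAlg subset_genAlg genAlg_le isSeparable_genAlg
  hom_continuous subCStar)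

namespace Vale.Agent.P095.Amenable

section

variable {G : Type} [Group G] [Countable G] {F : Type*} [CStarAlgebra F]
  {T : Set (F →ₗ[ℂ] ℂ)} {α : G → (F ≃⋆ₐ[ℂ] F)}

/-- The step along a quotient of subexponential growth. -/
def GrowthStep (T : Set (F →ₗ[ℂ] ℂ)) (α : G → (F ≃⋆ₐ[ℂ] F)) : Prop :=
  ∀ (K : Subgroup G) (Q : Type) [Group Q] (π : K →* Q), Function.Surjective π → SubexpGrowth Q →
    Absorbs T α (π.ker.map K.subtype) → Absorbs T α K

theorem tn_zero' (τ : F →ₗ[ℂ] ℂ) : tn τ (0 : F) = 0 := by simp [tn]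

theorem absorbs_bot (hs : Sys T α) (hsat : Saturated T α) : Absorbs T α (⊥ : Subgroup G) := by
  intro D hD hsep S hS
  have hc : ∀ g, Continuous fun x => α g x := fun g => hom_continuous (α g).toStarAlgHom
  set E := genAlg (⋃ g, (fun x => α g x) '' (D : Set F))
  have hinv : ∀ g, ∀ d ∈ E, α g d ∈ E := by
    intro g x hx
    have hcl : IsClosed ((E.comap (α g).toStarAlgHom : StarSubalgebra ℂ F) : Set F) :=
      (isClosed_genAlg _).preimage (hc g)
    refine (genAlg_le hcl ?_ : E ≤ _) hx
    intro y hy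
    obtain ⟨h, z, hz, rfl⟩ := Set.mem_iUnion.1 hy
    show α g (α h z) ∈ E
    rw [← hs.act_mul]
    exact subset_genAlg _ (Set.mem_iUnion.2 ⟨g * h, z, hz, rfl⟩)
  obtain ⟨θ, hθc, -, hθn⟩ := hsat.copies E (isClosed_genAlg _)
    (isSeparable_genAlg (IsSeparable.iUnion fun g => hsep.image (hc g))) hinv S hS
  have hle : D ≤ E := fun x hx => subset_genAlg _ (Set.mem_iUnion.2 ⟨1, x, hx, hs.act_one x⟩)
  let := subCStar D hD
  refine ⟨(θ.comp (StarSubalgebra.inclusion hle)).toAlgHom.toLinearMap, ?_, fun d => ?_, fun d => ?_,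
    fun d t ht => hθc _ t ht, fun d e => ?_, fun d hd => hθn _ hd, fun g hg d => ?_⟩
  · exact map_one (θ.comp (StarSubalgebra.inclusion hle))
  · exact NonUnitalStarAlgHom.norm_apply_le (θ.comp (StarSubalgebra.inclusion hle)) d
  · exact map_star (θ.comp (StarSubalgebra.inclusion hle)) d
  · intro τ _
    show tn τ (θ.comp (StarSubalgebra.inclusion hle) (d * e) - _) = 0
    rw [map_mul]
    simp [tn_zero']
  · intro τ _
    rw [Subgroup.mem_bot.1 hg, hs.act_one, sub_self, tn_zero']

theorem absorbs_iSup (hs : Sys T α) (hsat : Saturated T α) (K : ℕ → Subgroup G) (hK : Monotone K)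
    (h : ∀ n, Absorbs T α (K n)) : Absorbs T α (⨆ n, K n) := by
  intro D hD hsep S hS
  choose Φ hΦ using fun n => h n D hD hsep S hS
  refine hsat.diag_map (⨆ n, K n) D hD hsep S hS Φ (fun m => (hΦ m).map_one)
    (fun m => (hΦ m).norm_le) (fun m => (hΦ m).map_star) (fun m => (hΦ m).commute)
    (fun d e ε hε => Eventually.of_forall fun m τ hτ => ((hΦ m).map_mul d e τ hτ).le.trans hε.le)
    (fun d hd ε hε => Eventually.of_forall fun m τ hτ => ?_) fun g hg d ε hε => ?_
  · have := (hΦ m).null d hd τ hτ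
    rw [sub_zero] at this
    exact this.le.trans hε.le
  · obtain ⟨n, hn⟩ := (Subgroup.mem_iSup_of_directed hK.directed_le).1 hg
    filter_upwards [eventually_ge_atTop n] with m hm τ hτ
    exact ((hΦ m).fixed g (hK hm hn) d τ hτ).le.trans hε.le

/-- The induction over the class, relative to a subgroup and a map onto the group. -/
theorem absorbs_of_quotient (hs : Sys T α) (hsat : Saturated T α) (hstep : GrowthStep T α)
    {Q : Type} [Group Q] (hQ : SubexpAmenable Q) : ∀ (K : Subgroup G) (f : K →* Q),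
      Function.Surjective f → Absorbs T α (f.ker.map K.subtype) → Absorbs T α K := by
  induction hQ with
  | growth h => exact fun K f hf hker => hstep K _ f hf h hker
  | @extension Q R _ _ π hπ hN hR ihN ihR =>
    intro K f hf hker
    refine ihR K (π.comp f) (hπ.comp hf) ?_
    set K' : Subgroup G := (π.comp f).ker.map K.subtype
    have hsub : ∀ x : K', ∃ y : K, y ∈ (π.comp f).ker ∧ (y : G) = x := fun x => by
      obtain ⟨y, hy, e⟩ := x.2
      exact ⟨y, hy, e⟩
    have hle : K' ≤ K := Subgroup.map_subtype_le _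
    let f' : K' →* π.ker :=
      (f.comp (Subgroup.inclusion hle)).codRestrict π.ker fun x => by
        obtain ⟨y, hy, e⟩ := hsub x
        have : Subgroup.inclusion hle x = y := Subtype.ext e.symm
        rw [MonoidHom.comp_apply, this]
        exact hy
    refine ihN K' f' (fun q => ?_) ?_
    · obtain ⟨y, hy⟩ := hf q
      refine ⟨⟨y, y, ?_, rfl⟩, Subtype.ext hy⟩
      show π (f y) = 1
      rw [hy]
      exact q.2
    · convert hker using 1
      ext g
      simp only [Subgroup.mem_map, MonoidHom.mem_ker]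
      constructor
      · rintro ⟨x, hx, rfl⟩
        exact ⟨Subgroup.inclusion hle x, congrArg Subtype.val hx, rfl⟩
      · rintro ⟨y, hy, rfl⟩
        exact ⟨⟨y, y, show π (f y) = 1 by rw [hy, map_one], rfl⟩, Subtype.ext hy, rfl⟩
  | @union Q _ H hmono hcover h ih =>
    intro K f hf hker
    let Kn : ℕ → Subgroup G := fun n => ((H n).comap f).map K.subtype
    have hKn : ∀ n, Kn n ≤ K := fun n => Subgroup.map_subtype_le _
    have hmono' : Monotone Kn := fun a b hab =>
      Subgroup.map_mono (Subgroup.comap_mono (hmono hab))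
    have hsup : ⨆ n, Kn n = K := by
      refine le_antisymm (iSup_le hKn) fun g hg => ?_
      obtain ⟨n, hn⟩ := hcover (f ⟨g, hg⟩)
      exact Subgroup.mem_iSup_of_mem n ⟨⟨g, hg⟩, hn, rfl⟩
    rw [← hsup]
    refine absorbs_iSup hs hsat Kn hmono' fun n => ?_
    let fn : Kn n →* H n :=
      (f.comp (Subgroup.inclusion (hKn n))).codRestrict (H n) fun x => by
        obtain ⟨y, hy, e⟩ := x.2
        have : Subgroup.inclusion (hKn n) x = y := Subtype.ext e.symm
        rw [MonoidHom.comp_apply, this]
        exact hy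
    refine ih n (Kn n) fn (fun q => ?_) ?_
    · obtain ⟨y, hy⟩ := hf q
      refine ⟨⟨y, y, show f y ∈ H n by rw [hy]; exact q.2, rfl⟩, Subtype.ext hy⟩
    · convert hker using 1
      ext g
      simp only [Subgroup.mem_map, MonoidHom.mem_ker]
      constructor
      · rintro ⟨x, hx, rfl⟩
        exact ⟨Subgroup.inclusion (hKn n) x, congrArg Subtype.val hx, rfl⟩
      · rintro ⟨y, hy, rfl⟩
        exact ⟨⟨y, y, show f y ∈ H n by rw [hy]; exact (H n).one_mem, rfl⟩, Subtype.ext hy, rfl⟩

theorem absorbs_of_subexpAmenable (hs : Sys T α) (hsat : Saturated T α) (hstep : GrowthStep T α)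
    (hG : SubexpAmenable G) : Absorbs T α (⊤ : Subgroup G) := by
  refine absorbs_of_quotient hs hsat hstep hG ⊤ (⊤ : Subgroup G).subtype
    (fun g => ⟨⟨g, Subgroup.mem_top g⟩, rfl⟩) ?_
  rw [Subgroup.ker_subtype, Subgroup.map_bot]
  exact absorbs_bot hs hsat

end

theorem SubexpAmenable.of_finite (Q : Type) [Group Q] [Finite Q] : SubexpAmenable Q := by
  classical
  have := Fintype.ofFinite Q
  refine .growth ⟨Finset.univ, Finset.mem_univ _, fun x _ => Finset.mem_univ _, by simp,
    fun t ht => ⟨Nat.card Q, fun n => ?_⟩⟩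
  refine le_trans ?_ (le_mul_of_one_le_right (Nat.cast_nonneg _)
    (Real.one_le_exp (by positivity)))
  rw [← Finset.coe_pow, Set.ncard_coe_finset, Nat.card_eq_fintype_card]
  exact_mod_cast Finset.card_le_univ _

theorem SubexpAmenable.of_mulEquiv {Q R : Type} [Group Q] [Group R] (e : Q ≃* R)
    (h : SubexpAmenable Q) : SubexpAmenable R := by
  have : Subsingleton e.symm.toMonoidHom.ker := ⟨fun x y =>
    Subtype.ext (e.symm.injective (x.2.trans y.2.symm))⟩
  exact .extension e.symm.toMonoidHom e.symm.surjective (of_finite _) h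

/-- A finitely generated commutative group has subexponential growth. -/
theorem SubexpGrowth.of_commGroup {Q : Type} [CommGroup Q] (W : Finset Q) (h1 : (1 : Q) ∈ W)
    (hinv : ∀ x ∈ W, x⁻¹ ∈ W) (hgen : Subgroup.closure (W : Set Q) = ⊤) : SubexpGrowth Q := by
  classical
  refine ⟨W, h1, hinv, hgen, fun t ht => ⟨(W.card.factorial : ℝ) / t ^ W.card * Real.exp t,
    fun n => ?_⟩⟩
  have hsub : ∀ n, (W : Set Q) ^ n ⊆
      (fun c : Q → ℕ => ∏ w ∈ W, w ^ c w) '' {c | (∀ w, c w ≤ n) ∧ ∀ w, w ∉ W → c w = 0} := by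
    intro n
    induction n with
    | zero =>
      intro q hq
      rw [pow_zero, Set.mem_one] at hq
      exact ⟨0, ⟨fun w => le_rfl, fun w _ => rfl⟩, by simp [hq]⟩
    | succ n ih =>
      intro q hq
      rw [pow_succ] at hq
      obtain ⟨a, ha, b, hb, rfl⟩ := hq
      obtain ⟨c, ⟨hc, hc'⟩, rfl⟩ := ih ha
      refine ⟨fun w => c w + if w = b then 1 else 0,
        ⟨fun w => by have := hc w; dsimp only; split_ifs <;> omega, fun w hw => ?_⟩, ?_⟩
      · dsimp only
        rw [hc' w hw, if_neg (fun e => hw (by rw [e]; exact hb))]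
      · have hb' : b ∈ W := hb
        simp only [pow_add, Finset.prod_mul_distrib]
        congr 1
        rw [Finset.prod_eq_single b (fun w _ hne => by simp [hne]) (fun hnb => absurd hb' hnb)]
        simp
  have hcard : ((W : Set Q) ^ n).ncard ≤ (n + 1) ^ W.card := by
    have himg : (fun c : Q → ℕ => ∏ w ∈ W, w ^ c w) ''
        {c | (∀ w, c w ≤ n) ∧ ∀ w, w ∉ W → c w = 0} ⊆
        (fun c : W → Fin (n + 1) => ∏ w : W, (w : Q) ^ (c w : ℕ)) '' Set.univ := by
      rintro _ ⟨c, ⟨hc, -⟩, rfl⟩
      exact ⟨fun w => ⟨c w, Nat.lt_succ_of_le (hc w)⟩, trivial,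
        Finset.prod_coe_sort W (fun w => w ^ c w)⟩
    refine (Set.ncard_le_ncard ((hsub n).trans himg) (Set.toFinite _)).trans
      ((Set.ncard_image_le (Set.toFinite _)).trans ?_)
    simp [Set.ncard_univ]
  have hexp := Real.pow_div_factorial_le_exp (t * ((n : ℝ) + 1)) (by positivity) W.card
  refine (Nat.cast_le.2 hcard).trans ?_
  push_cast
  calc ((n : ℝ) + 1) ^ W.card
      = (W.card.factorial : ℝ) / t ^ W.card *
          ((t * ((n : ℝ) + 1)) ^ W.card / (W.card.factorial : ℝ)) := by
        rw [mul_pow]; field_simp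
    _ ≤ (W.card.factorial : ℝ) / t ^ W.card * Real.exp (t * ((n : ℝ) + 1)) := by gcongr
    _ = _ := by rw [mul_add, mul_one, Real.exp_add]; ring

theorem SubexpAmenable.of_commGroup (Q : Type) [CommGroup Q] [Countable Q] : SubexpAmenable Q := by
  classical
  obtain ⟨en, hen⟩ := exists_surjective_nat Q
  let W : ℕ → Finset Q := fun n =>
    insert 1 ((Finset.range n).image en ∪ (Finset.range n).image fun k => (en k)⁻¹)
  refine .union (fun n => Subgroup.closure (W n : Set Q)) ?_ (fun q => ?_) fun n => ?_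
  · intro a b hab
    refine Subgroup.closure_mono (Finset.coe_subset.2 ?_)
    refine Finset.insert_subset_insert _ (Finset.union_subset_union ?_ ?_) <;>
      exact Finset.image_subset_image (Finset.range_subset_range.2 hab)
  · obtain ⟨k, rfl⟩ := hen q
    refine ⟨k + 1, Subgroup.subset_closure ?_⟩
    simpa [W] using Or.inr (Or.inl ⟨k, le_rfl, rfl⟩)
  · set P := Subgroup.closure (W n : Set Q)
    refine .growth (SubexpGrowth.of_commGroup ((W n).subtype fun x => x ∈ P) ?_ ?_ ?_)
    · simp [W]
    · intro x hx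
      simp only [Finset.mem_subtype, W, Finset.mem_insert, Finset.mem_union, Finset.mem_image,
        Subgroup.coe_inv, inv_eq_one] at hx ⊢
      rcases hx with h | ⟨k, hk, e⟩ | ⟨k, hk, e⟩
      · exact Or.inl h
      · exact Or.inr (Or.inr ⟨k, hk, by rw [e]⟩)
      · exact Or.inr (Or.inl ⟨k, hk, by rw [← e, inv_inv]⟩)
    · have e : (((W n).subtype fun x => x ∈ P : Finset P) : Set P) =
          Subtype.val ⁻¹' (W n : Set Q) := by
        ext x; simp
      rw [e]
      exact Subgroup.closure_closure_coe_preimage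

end Vale.Agent.P095.Amenable
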