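import Vale.Agent.P095.Amenable.CoreBasic
import Vale.Agent.P095.Amenable.Layer

/-!
# Every element is a short polynomial in commutators

With `v` square zero and `(star v * v) ^ 2` full, also `(star v * v) ^ 4` is full, and every element
is congruent to a sum of commutators and of products of two commutators.
-/

set_option linter.unusedSectionVars false

open scoped ComplexOrder
open Vale.Agent.P101 (genAlg)

namespace Vale.Agent.P095.Amenable

noncomputable section

variable {G : Type} [Group G] {F : Type*} [CStarAlgebra F] [PartialOrder F] [StarOrderedRing F]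
  {T : Set (F →ₗ[ℂ] ℂ)} {α : G → (F ≃⋆ₐ[ℂ] F)}

theorem exists_full_fourth (hT : ∀ τ ∈ T, IsTrace τ) (D : StarSubalgebra ℂ F)
    (hD : IsClosed (D : Set F)) {v : F} (hv : v ∈ D) {n : ℕ} {b : Fin n → F} (hb : ∀ i, b i ∈ D)
    (hfull : Cong T (∑ i, star (b i) * (star v * v) * (star v * v) * b i) 1) :
    ∃ b' : Fin n → F, (∀ i, b' i ∈ D) ∧
      Cong T (∑ i, star (b' i) *
        ((star v * v) * (star v * v) * ((star v * v) * (star v * v))) * b' i) 1 := by
  classical
  rcases subsingleton_or_nontrivial F with hs | hs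
  · exact ⟨b, hb, by rw [Subsingleton.elim (∑ i, _) (1 : F)]; exact Cong.refl T 1⟩
  set h := star v * v with hh
  have hsa : IsSelfAdjoint h := IsSelfAdjoint.star_mul_self v
  set A := ∑ i, star (b i) * h * h * b i with hA
  set B4 := ∑ i, star (b i) * (h * h * (h * h)) * b i with hB4
  set m := ∑ i, ‖b i‖ ^ 2 with hm
  have hm0 : 0 ≤ m := Finset.sum_nonneg fun i _ => sq_nonneg _
  set d := 1 / (2 * (m + 1)) with hd
  have hd0 : 0 < d := by positivity
  have hdm : d * m ≤ 1 / 2 := by
    rw [hd, div_mul_eq_mul_div, div_le_iff₀ (by positivity)]; linarith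
  have hq : h * h ≤ algebraMap ℝ F d + (1 / (4 * d)) • (h * h * (h * h)) := by
    have hd4 : 0 < 1 / (4 * d) := by positivity
    have e1 : h * h = cfc (fun x : ℝ => x ^ 2) h := by
      rw [cfc_pow_id (R := ℝ) h 2, sq]
    have e2 : algebraMap ℝ F d + (1 / (4 * d)) • (h * h * (h * h))
        = cfc (fun x : ℝ => d + 1 / (4 * d) * x ^ 4) h := by
      rw [cfc_const_add d (fun x : ℝ => 1 / (4 * d) * x ^ 4) h,
        cfc_const_mul (1 / (4 * d)) (fun x : ℝ => x ^ 4) h, cfc_pow_id (R := ℝ) h 4]
      simp [pow_succ, mul_assoc]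
    rw [e2, e1]
    refine cfc_mono (fun x _ => ?_)
    have key : 0 ≤ (x ^ 2 - 2 * d) ^ 2 / (4 * d) := by positivity
    have : d + 1 / (4 * d) * x ^ 4 - x ^ 2 = (x ^ 2 - 2 * d) ^ 2 / (4 * d) := by
      field_simp; ring
    linarith
  have hAle : A ≤ algebraMap ℝ F (1 / 2) + (1 / (4 * d)) • B4 := by
    have h1 : ∀ i, star (b i) * h * h * b i ≤
        algebraMap ℝ F (d * ‖b i‖ ^ 2) + (1 / (4 * d)) • (star (b i) * (h * h * (h * h)) * b i) := by
      intro i
      have h2 := star_left_conjugate_le_conjugate hq (b i)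
      rw [show star (b i) * h * h * b i = star (b i) * (h * h) * b i by simp only [mul_assoc]]
      refine h2.trans ?_
      rw [mul_add, add_mul, mul_smul_comm, smul_mul_assoc]
      refine add_le_add ?_ le_rfl
      rw [Algebra.algebraMap_eq_smul_one, Algebra.algebraMap_eq_smul_one, mul_smul_comm,
        smul_mul_assoc, mul_one, mul_smul]
      refine smul_le_smul_of_nonneg_left ?_ hd0.le
      have := (IsSelfAdjoint.star_mul_self (b i)).le_algebraMap_norm_self
      rwa [CStarRing.norm_star_mul_self, ← sq, Algebra.algebraMap_eq_smul_one] at this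
    refine (Finset.sum_le_sum fun i _ => h1 i).trans ?_
    rw [Finset.sum_add_distrib, ← Finset.smul_sum, ← map_sum, ← Finset.mul_sum]
    exact add_le_add (algebraMap_mono F hdm) le_rfl
  set B' := (1 / (4 * d)) • B4 + (1 - A) with hB'
  have hB'pos : IsStrictlyPositive B' := by
    refine (IsStrictlyPositive.smul (show (0 : ℝ) < 1 / 2 by norm_num) isStrictlyPositive_one).of_le ?_
    have e : (1 / 2 : ℝ) • (1 : F) = 1 - algebraMap ℝ F (1 / 2) := by
      rw [Algebra.algebraMap_eq_smul_one]
      nth_rewrite 2 [← one_smul ℝ (1 : F)]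
      rw [← sub_smul]; norm_num
    rw [e, hB', sub_le_iff_le_add, add_right_comm]
    calc (1 : F) = A + (1 - A) := by abel
      _ ≤ _ := add_le_add (by rw [add_comm]; exact hAle) le_rfl
  have hcong : Cong T ((1 / (4 * d)) • B4) B' := by
    have h0 : Cong T (1 - A) 0 := fun τ hτ => by
      rw [sub_zero, ← neg_sub, (hT τ hτ).tn_neg, hfull τ hτ]
    have := Cong.add hT (Cong.refl T ((1 / (4 * d)) • B4)) (Cong.symm hT h0)
    simpa [hB'] using this
  refine ⟨fun i => Real.sqrt (1 / (4 * d)) • (b i * isq B'), fun i => ?_, ?_⟩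
  · have hBmem : B' ∈ D := by
      have hh' : h ∈ D := mul_mem (star_mem hv) hv
      have hsm : ∀ (r : ℝ) (x : F), x ∈ D → r • x ∈ D := fun r x hx => by
        rw [← Complex.coe_smul]; exact SMulMemClass.smul_mem _ hx
      refine add_mem (hsm _ _ (sum_mem fun i _ => mul_mem (mul_mem (star_mem (hb i))
        (mul_mem (mul_mem hh' hh') (mul_mem hh' hh'))) (hb i))) (sub_mem (one_mem _)
          (sum_mem fun i _ => mul_mem (mul_mem (mul_mem (star_mem (hb i)) hh') hh') (hb i)))
    dsimp only
    rw [← Complex.coe_smul]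
    exact SMulMemClass.smul_mem _ (mul_mem (hb i) (isq_mem hD hBmem))
  · have e : ∑ i, star (Real.sqrt (1 / (4 * d)) • (b i * isq B')) * (h * h * (h * h)) *
        (Real.sqrt (1 / (4 * d)) • (b i * isq B')) = isq B' * ((1 / (4 * d)) • B4) * isq B' := by
      rw [hB4, Finset.smul_sum, Finset.mul_sum, Finset.sum_mul]
      refine Finset.sum_congr rfl fun i _ => ?_
      rw [star_smul, star_trivial, star_mul, (isq_selfAdjoint B').star_eq]
      simp only [smul_mul_assoc, mul_smul_comm, smul_smul, mul_assoc,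
        Real.mul_self_sqrt (by positivity : (0 : ℝ) ≤ 1 / (4 * d))]
    rw [e, ← isq_mul_self_mul_isq hB'pos]
    exact Cong.mul hT (Cong.mul hT (Cong.refl T _) hcong) (Cong.refl T _)

/-- A commutator of two elements of `D`. -/
def IsCommutator (D : StarSubalgebra ℂ F) (x : F) : Prop :=
  ∃ a ∈ D, ∃ b ∈ D, x = a * b - b * a

theorem IsCommutator.mem {D : StarSubalgebra ℂ F} {x : F} (h : IsCommutator D x) : x ∈ D := by
  obtain ⟨a, ha, b, hb, rfl⟩ := h
  exact sub_mem (mul_mem ha hb) (mul_mem hb ha)

theorem exists_commutator_expr (hT : ∀ τ ∈ T, IsTrace τ) (D : StarSubalgebra ℂ F) {v : F}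
    (hv : v ∈ D) {n : ℕ} {b : Fin n → F} (hb : ∀ i, b i ∈ D) (hvv : Cong T (v * v) 0)
    (hfull : Cong T (∑ i, star (b i) *
        ((star v * v) * (star v * v) * ((star v * v) * (star v * v))) * b i) 1)
    {z : F} (hz : z ∈ D) :
    ∃ c : Fin n → Fin 4 → F, (∀ i j, IsCommutator D (c i j)) ∧
      Cong T z (∑ i, (c i 0 + c i 1 - c i 2 * c i 3)) := by
  set h := star v * v with hh
  have hhD : h ∈ D := mul_mem (star_mem hv) hv
  set p := h * star v - star v * h with hp
  set q := v * h - h * v with hq
  have hpD : p ∈ D := sub_mem (mul_mem hhD (star_mem hv)) (mul_mem (star_mem hv) hhD)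
  have hqD : q ∈ D := sub_mem (mul_mem hv hhD) (mul_mem hhD hv)
  set d : Fin n → F := fun i => z * star (b i) * h with hdd
  have hdD : ∀ i, d i ∈ D := fun i => mul_mem (mul_mem hz (star_mem (hb i))) hhD
  let c : Fin n → Fin 4 → F := fun i => ![d i * (p * q - q * p) * b i - b i * (d i * (p * q - q * p)),
    b i * d i * p * q - q * (b i * d i * p), b i * d i * q - q * (b i * d i), p]
  refine ⟨c, ?_, ?_⟩
  · intro i j
    fin_cases j
    · exact ⟨_, mul_mem (hdD i) (sub_mem (mul_mem hpD hqD) (mul_mem hqD hpD)), _, hb i, rfl⟩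
    · exact ⟨_, mul_mem (mul_mem (hb i) (hdD i)) hpD, _, hqD, rfl⟩
    · exact ⟨_, mul_mem (hb i) (hdD i), _, hqD, rfl⟩
    · exact ⟨_, hhD, _, star_mem hv, rfl⟩
  have hid : ∀ i, c i 0 + c i 1 - c i 2 * c i 3 = d i * (p * q - q * p) * b i := fun i => by
    show (d i * (p * q - q * p) * b i - b i * (d i * (p * q - q * p))) +
      (b i * d i * p * q - q * (b i * d i * p)) - (b i * d i * q - q * (b i * d i)) * p = _
    noncomm_ring
  simp only [hid]
  -- `h * (p * q - q * p)` is congruent to `h ^ 4`
  have z0 : Cong T (0 : F) 0 := Cong.refl T 0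
  have hvh : Cong T (h * v) 0 := by
    have := Cong.mul hT (Cong.refl T (star v)) hvv
    rwa [mul_zero, ← mul_assoc] at this
  have hsh : Cong T (star v * h) 0 := by
    have := Cong.star hT hvh
    rwa [star_zero, star_mul, (IsSelfAdjoint.star_mul_self v).star_eq] at this
  have hp' : Cong T p (h * star v) := by
    have := Cong.add hT (Cong.refl T (h * star v)) (Cong.smul hT hsh (-1))
    simpa [hp, sub_eq_add_neg] using this
  have hq' : Cong T q (v * h) := by
    have := Cong.add hT (Cong.refl T (v * h)) (Cong.smul hT hvh (-1))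
    simpa [hq, sub_eq_add_neg] using this
  have hpq : Cong T (h * (p * q - q * p)) (h * h * (h * h)) := by
    have h1 := Cong.mul hT (Cong.refl T h) (Cong.add hT (Cong.mul hT hp' hq')
      (Cong.smul hT (Cong.mul hT hq' hp') (-1)))
    have h2 : Cong T (h * (v * h * (h * star v))) 0 := by
      have := Cong.mul hT hvh (Cong.refl T (h * (h * star v)))
      simpa [mul_assoc] using this
    have h3 : Cong T (h * (h * star v * (v * h)) + (-1 : ℂ) • (h * (v * h * (h * star v))))
        (h * (h * star v * (v * h))) := by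
      have := Cong.add hT (Cong.refl T (h * (h * star v * (v * h)))) (Cong.smul hT h2 (-1))
      simpa using this
    have e : h * (h * star v * (v * h)) = h * h * (h * h) := by simp only [hh, mul_assoc]
    rw [← e]
    refine Cong.trans hT ?_ h3
    simpa [sub_eq_add_neg, mul_add, mul_smul_comm] using h1
  have hsum : Cong T (∑ i, d i * (p * q - q * p) * b i)
      (z * ∑ i, star (b i) * (h * h * (h * h)) * b i) := by
    rw [Finset.mul_sum]
    refine Cong.sum hT _ fun i _ => ?_
    have := Cong.mul hT (Cong.mul hT (Cong.refl T (z * star (b i))) hpq) (Cong.refl T (b i))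
    simpa [hdd, mul_assoc] using this
  have hlast : Cong T (z * ∑ i, star (b i) * (h * h * (h * h)) * b i) z := by
    have := Cong.mul hT (Cong.refl T z) hfull
    rwa [mul_one] at this
  exact Cong.symm hT (Cong.trans hT hsum hlast)

end

end Vale.Agent.P095.Amenable
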