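import Vale.Agent.P095.Amenable.Fam

/-!
# The column of the first accepted trial

Trials are columns which commute with each other. The column of the first accepted trial, with a
fallback, gives a unital map. It moves little when the trials move little, and it is almost
multiplicative when each trial is almost multiplicative on the event that it is the first accepted.
-/

open Finset
open scoped ComplexOrder

namespace Vale.Agent.P095.Amenable

noncomputable section

variable {F : Type*} [CStarAlgebra F] [PartialOrder F] [StarOrderedRing F] {ι : Type*}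
  {τ : F →ₗ[ℂ] ℂ}

/-- The weight of a column. -/
def colQ {ι : Type*} [Fintype ι] (A : ι → F) : F := ∑ i, star (A i) * A i

/-- The square root of the probability of passing the first `t` trials. -/
def passB {ι : Type*} [Fintype ι] (A : ℕ → ι → F) : ℕ → F
  | 0 => 1
  | t + 1 => passB A t * CFC.sqrt (1 - colQ (A t))

/-- Columns of trials which commute with each other. -/
structure TrialFam {ι : Type*} [Fintype ι] (A : ℕ → ι → F) (R : ℕ) : Prop where
  le_one : ∀ t < R, colQ (A t) ≤ 1
  comm : ∀ t < R, ∀ t' < R, t ≠ t' → ∀ i j,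
    Commute (A t i) (A t' j) ∧ Commute (star (A t i)) (A t' j)

/-- The column of the first accepted trial, with the last copy as fallback. -/
def samplerCol {ι : Type*} [Fintype ι] (A : ℕ → ι → F) (R : ℕ) : Option (Fin R × ι) → F
  | some p => A p.1 p.2 * passB A p.1
  | none => passB A R

variable [Fintype ι]

/-! ## Elementary facts -/

omit [StarOrderedRing F] [PartialOrder F] in
theorem colQ_selfAdjoint (A : ι → F) : IsSelfAdjoint (colQ A) := by
  simp [IsSelfAdjoint, colQ, star_sum]

theorem colQ_nonneg (A : ι → F) : 0 ≤ colQ A := sum_nonneg fun _ _ => star_mul_self_nonneg _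

omit [StarOrderedRing F] [PartialOrder F] in
theorem Commute.colQ_right {x : F} {A : ι → F}
    (h : ∀ i, Commute x (A i) ∧ Commute x (star (A i))) : Commute x (colQ A) :=
  Commute.sum_right _ _ _ fun i _ => (h i).2.mul_right (h i).1

omit [Fintype ι] in
theorem Commute.sqrt_right {x a : F} (h : Commute x a) : Commute x (CFC.sqrt a) :=
  (Commute.cfcₙ_nnreal h.symm NNReal.sqrt).symm

omit [Fintype ι] in
theorem norm_le_one_of {a : F} (h0 : 0 ≤ a) (h1 : a ≤ 1) : ‖a‖ ≤ 1 :=
  (CStarAlgebra.norm_le_one_iff_of_nonneg a h0).2 h1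

omit [Fintype ι] in
theorem star_mul_self_le_one {a : F} (h : ‖a‖ ≤ 1) : star a * a ≤ 1 := by
  rw [← CStarAlgebra.norm_le_one_iff_of_nonneg _ (star_mul_self_nonneg a),
    CStarRing.norm_star_mul_self]
  exact mul_le_one₀ h (norm_nonneg _) h

omit [Fintype ι] in
theorem mul_self_le_self_of {a : F} (h0 : 0 ≤ a) (h1 : a ≤ 1) : a * a ≤ a := by
  have h : 0 ≤ a * (1 - a) :=
    ((Commute.one_right a).sub_right (Commute.refl a)).mul_nonneg h0 (sub_nonneg.2 h1)
  rwa [mul_sub, mul_one, sub_nonneg] at h

omit [Fintype ι] in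
/-- The distance of the square root of a positive contraction to it. -/
theorem tn_sqrt_sub_le (hτ : IsTrace τ) {a : F} (h0 : 0 ≤ a) (h1 : a ≤ 1) {κ : ℝ}
    (hκ : (τ (a * (1 - a))).re ≤ κ) : tn τ (CFC.sqrt a - a) ≤ Real.sqrt κ := by
  refine Real.sqrt_le_sqrt (le_trans ?_ hκ)
  set b := CFC.sqrt a with hb
  have hb0 : 0 ≤ b := CFC.sqrt_nonneg a
  have hbs : IsSelfAdjoint b := IsSelfAdjoint.of_nonneg hb0
  have hbb : b * b = a := CFC.sqrt_mul_sqrt_self a h0
  have hb1 : b ≤ 1 := by
    have := CFC.sqrt_le_sqrt a 1 h1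
    rwa [CFC.sqrt_one] at this
  have hcomm : Commute b a := by rw [← hbb]; exact (Commute.refl b).mul_right (Commute.refl b)
  have hsa : IsSelfAdjoint (b - a) := hbs.sub (IsSelfAdjoint.of_nonneg h0)
  rw [hsa.star_eq]
  refine hτ.mono ?_
  have h2 : a * (1 - a) - (b - a) * (b - a) = (a * b + a * b) - (a * a + a * a) := by
    simp only [mul_sub, sub_mul, mul_one, hcomm.eq, hbb]
    abel
  have h3 : 0 ≤ a * (b - a) := by
    refine (hcomm.symm.sub_right (Commute.refl a)).mul_nonneg h0 (sub_nonneg.2 ?_)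
    rw [← hbb]
    exact mul_self_le_self_of hb0 hb1
  rw [← sub_nonneg, h2, show a * b + a * b - (a * a + a * a) = a * (b - a) + a * (b - a) by
    rw [mul_sub]; abel]
  exact add_nonneg h3 h3

omit [Fintype ι] [PartialOrder F] [StarOrderedRing F] in
theorem norm_trace_mul_le (hτ : IsTrace τ) (x y : F) : ‖τ (x * y)‖ ≤ tn τ x * ‖y‖ :=
  (hτ.norm_le_tn _).trans (hτ.tn_mul_le_right x y)

omit [PartialOrder F] [StarOrderedRing F] in
/-- Cauchy-Schwarz for the trace of a pair of columns. -/
theorem norm_trace_col_le (hτ : IsTrace τ) (U V : ι → F) :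
    ‖τ (∑ i, star (U i) * V i)‖ ≤
      Real.sqrt (τ (colQ U)).re * Real.sqrt (τ (colQ V)).re := by
  rw [map_sum]
  refine (norm_sum_le _ _).trans ((sum_le_sum fun i _ => hτ.norm_le (U i) (V i)).trans ?_)
  refine (Real.sum_mul_le_sqrt_mul_sqrt _ _ _).trans (le_of_eq ?_)
  simp only [hτ.tn_sq, ← Complex.re_sum, ← map_sum, colQ]

omit [PartialOrder F] [StarOrderedRing F] in
theorem colQ_mul_right (A : ι → F) (y : F) :
    colQ (fun i => A i * y) = star y * colQ A * y := by
  simp [colQ, star_mul, mul_sum, sum_mul, mul_assoc]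

section Fam

variable {R : ℕ} {A : ℕ → ι → F} (h : TrialFam A R)
include h

theorem one_sub_nonneg' {t : ℕ} (ht : t < R) : 0 ≤ 1 - colQ (A t) := sub_nonneg.2 (h.le_one t ht)

omit h in
theorem one_sub_le_one (t : ℕ) : 1 - colQ (A t) ≤ 1 := sub_le_self _ (colQ_nonneg _)

omit [StarOrderedRing F] in
theorem comm_all {s t : ℕ} (hs : s < R) (ht : t < R) (hne : s ≠ t) (i : ι) :
    ∀ j, Commute (A s i) (A t j) ∧ Commute (A s i) (star (A t j)) :=
  fun j => ⟨(h.comm s hs t ht hne i j).1, (h.comm t ht s hs hne.symm j i).2.symm⟩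

theorem commute_passB {x : F} : ∀ {t : ℕ}, t ≤ R →
    (∀ s < t, Commute x (colQ (A s))) → Commute x (passB A t) := by
  intro t
  induction t with
  | zero => exact fun _ _ => Commute.one_right x
  | succ t ih =>
    intro ht hx
    exact (ih (by omega) fun s hs => hx s (by omega)).mul_right
      (Commute.sqrt_right ((Commute.one_right x).sub_right (hx t (by omega))))

theorem passB_comm_colQ {t u : ℕ} (ht : t ≤ R) (hu : u < R) :
    Commute (colQ (A u)) (passB A t) := by
  refine commute_passB h ht fun s hs => ?_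
  rcases eq_or_ne u s with rfl | hne
  · exact Commute.refl _
  · refine Commute.colQ_right fun j => ?_
    have : ∀ z, (∀ i, Commute (A u i) z ∧ Commute (star (A u i)) z) →
        Commute (colQ (A u)) z := fun z hz =>
      Commute.sum_left _ _ _ fun i _ => (hz i).2.mul_left (hz i).1
    exact ⟨this _ fun i => ⟨(h.comm u hu s (by omega) hne i j).1,
      (h.comm u hu s (by omega) hne i j).2⟩, this _ fun i =>
        ⟨(comm_all h hu (by omega) hne i j).2, (h.comm u hu s (by omega) hne i j).1.star_star⟩⟩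

theorem passB_nonneg {t : ℕ} (ht : t ≤ R) : 0 ≤ passB A t := by
  induction t with
  | zero => exact zero_le_one
  | succ t ih =>
    exact (Commute.sqrt_right ((Commute.one_right _).sub_right
      (passB_comm_colQ h (by omega) (by omega : t < R)).symm)).mul_nonneg (ih (by omega))
      (CFC.sqrt_nonneg _)

theorem passB_norm {t : ℕ} (ht : t ≤ R) : ‖passB A t‖ ≤ 1 := by
  induction t with
  | zero => exact norm_le_one_of zero_le_one le_rfl
  | succ t ih =>
    refine (norm_mul_le _ _).trans (mul_le_one₀ (ih (by omega)) (norm_nonneg _) ?_)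
    refine norm_le_one_of (CFC.sqrt_nonneg _) ?_
    have := CFC.sqrt_le_sqrt _ (1 : F) (one_sub_le_one (A := A) t)
    rwa [CFC.sqrt_one] at this

theorem passB_star {t : ℕ} (ht : t ≤ R) : star (passB A t) = passB A t :=
  (IsSelfAdjoint.of_nonneg (passB_nonneg h ht)).star_eq

/-- The probability of passing. -/
theorem passSq_succ {t : ℕ} (ht : t < R) :
    passB A (t + 1) * passB A (t + 1) = passB A t * passB A t * (1 - colQ (A t)) := by
  have hc : Commute (CFC.sqrt (1 - colQ (A t))) (passB A t) :=
    (Commute.sqrt_right ((Commute.one_right _).sub_right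
      (passB_comm_colQ h ht.le ht).symm)).symm
  calc passB A t * CFC.sqrt (1 - colQ (A t)) * (passB A t * CFC.sqrt (1 - colQ (A t)))
      = passB A t * (CFC.sqrt (1 - colQ (A t)) * passB A t) * CFC.sqrt (1 - colQ (A t)) := by
        simp only [mul_assoc]
    _ = passB A t * passB A t * (CFC.sqrt (1 - colQ (A t)) * CFC.sqrt (1 - colQ (A t))) := by
        rw [hc.eq]; simp only [mul_assoc]
    _ = _ := by rw [CFC.sqrt_mul_sqrt_self _ (one_sub_nonneg' h ht)]

theorem passSq_nonneg {t : ℕ} (ht : t ≤ R) : 0 ≤ passB A t * passB A t :=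
  (Commute.refl _).mul_nonneg (passB_nonneg h ht) (passB_nonneg h ht)

theorem passSq_norm {t : ℕ} (ht : t ≤ R) : ‖passB A t * passB A t‖ ≤ 1 :=
  (norm_mul_le _ _).trans (mul_le_one₀ (passB_norm h ht) (norm_nonneg _) (passB_norm h ht))

theorem passSq_le_one {t : ℕ} (ht : t ≤ R) : passB A t * passB A t ≤ 1 :=
  (CStarAlgebra.norm_le_one_iff_of_nonneg _ (passSq_nonneg h ht)).1 (passSq_norm h ht)

theorem trial_comm_passB {t u : ℕ} (ht : t ≤ u) (hu : u < R) (i : ι) :
    Commute (A u i) (passB A t) ∧ Commute (star (A u i)) (passB A t) := by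
  refine ⟨commute_passB h (by omega) fun s hs => Commute.colQ_right fun j => ?_,
    commute_passB h (by omega) fun s hs => Commute.colQ_right fun j => ?_⟩
  · exact comm_all h hu (by omega) (by omega) i j
  · exact ⟨(h.comm u hu s (by omega) (by omega) i j).2,
      (h.comm u hu s (by omega) (by omega) i j).1.star_star⟩

theorem colQ_passB {t : ℕ} (ht : t < R) :
    colQ (fun i => A t i * passB A t) = passB A t * passB A t * colQ (A t) := by
  rw [colQ_mul_right, passB_star h ht.le, mul_assoc, (passB_comm_colQ h ht.le ht).eq,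
    ← mul_assoc]

theorem samplerCol_sum : ∑ p, star (samplerCol A R p) * samplerCol A R p = 1 := by
  have hstep : ∀ t ≤ R, ∑ s ∈ range t, colQ (fun i => A s i * passB A s) +
      passB A t * passB A t = 1 := by
    intro t
    induction t with
    | zero => simp [passB]
    | succ t ih =>
      intro ht
      rw [sum_range_succ, passSq_succ h (by omega), colQ_passB h (by omega), mul_sub, mul_one,
        add_assoc, add_sub_cancel]
      exact ih (by omega)
  rw [Fintype.sum_option, Fintype.sum_prod_type, add_comm]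
  simp only [samplerCol, passB_star h le_rfl]
  rw [Fin.sum_univ_eq_sum_range (fun s => ∑ i, star (A s i * passB A s) * (A s i * passB A s)) R]
  exact hstep R le_rfl

/-- Passing up to `t` includes failing each earlier trial. -/
theorem passSq_factor {s : ℕ} : ∀ {t : ℕ}, s < t → t ≤ R →
    ∃ W : F, ‖W‖ ≤ 1 ∧ passB A t * passB A t = (1 - colQ (A s)) * W := by
  intro t
  induction t with
  | zero => exact fun hs => absurd hs (Nat.not_lt_zero s)
  | succ t ih =>
    intro hs ht
    rw [passSq_succ h (by omega)]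
    rcases Nat.lt_succ_iff_lt_or_eq.1 hs with hlt | rfl
    · obtain ⟨W, hW, e⟩ := ih hlt (by omega)
      refine ⟨W * (1 - colQ (A t)), ?_, by rw [e, mul_assoc]⟩
      exact (norm_mul_le _ _).trans (mul_le_one₀ hW (norm_nonneg _)
        (norm_le_one_of (one_sub_nonneg' h (by omega)) (one_sub_le_one t)))
    · refine ⟨passB A s * passB A s, passSq_norm h (by omega), ?_⟩
      have hc := passB_comm_colQ h (t := s) (by omega) (by omega : s < R)
      exact ((Commute.one_left _).sub_left (hc.mul_right hc)).eq.symm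

end Fam

/-! ## The shift -/

/-- The overlap of two families, backwards: `k` trials remain. -/
def gam (A A' : ℕ → ι → F) (R : ℕ) : ℕ → F
  | 0 => 1
  | k + 1 => ∑ i, star (A' (R - (k + 1)) i) * A (R - (k + 1)) i +
      CFC.sqrt (1 - colQ (A' (R - (k + 1)))) * gam A A' R k *
        CFC.sqrt (1 - colQ (A (R - (k + 1))))

theorem gam_succ (A A' : ℕ → ι → F) {R t : ℕ} (ht : t < R) :
    gam A A' R (R - t) = ∑ i, star (A' t i) * A t i +
      CFC.sqrt (1 - colQ (A' t)) * gam A A' R (R - (t + 1)) * CFC.sqrt (1 - colQ (A t)) := by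
  have h1 : R - t = (R - (t + 1)) + 1 := by omega
  rw [h1, gam, show R - (R - (t + 1) + 1) = t by omega]

theorem Commute.gam_right {A A' : ℕ → ι → F} {R : ℕ} {x : F} : ∀ (k : ℕ), k ≤ R →
    (∀ s, R - k ≤ s → s < R → ∀ i,
      (Commute x (A s i) ∧ Commute x (star (A s i))) ∧
        (Commute x (A' s i) ∧ Commute x (star (A' s i)))) → Commute x (gam A A' R k) := by
  intro k
  induction k with
  | zero => exact fun _ _ => Commute.one_right x
  | succ k ih =>
    intro hk hx
    have hs := hx (R - (k + 1)) le_rfl (by omega)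
    refine (Commute.sum_right _ _ _ fun i _ => (hs i).2.2.mul_right (hs i).1.1).add_right ?_
    refine ((Commute.sqrt_right ((Commute.one_right x).sub_right
      (Commute.colQ_right fun i => (hs i).2))).mul_right ?_).mul_right
        (Commute.sqrt_right ((Commute.one_right x).sub_right
          (Commute.colQ_right fun i => (hs i).1)))
    exact ih (by omega) fun s h1 h2 => hx s (by omega) h2

theorem gam_norm {A A' : ℕ → ι → F} {R : ℕ} (h : TrialFam A R) (h' : TrialFam A' R) :
    ∀ k, k ≤ R → ‖gam A A' R k‖ ≤ 1 := by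
  intro k
  induction k with
  | zero => exact fun _ => norm_le_one_of zero_le_one le_rfl
  | succ k ih =>
    intro hk
    set t := R - (k + 1) with ht'
    have ht : t < R := by omega
    set Γ := gam A A' R k
    set b := CFC.sqrt (1 - colQ (A t)) with hb
    set b' := CFC.sqrt (1 - colQ (A' t)) with hb'
    have hbs : star b = b := (IsSelfAdjoint.of_nonneg (CFC.sqrt_nonneg _)).star_eq
    have hb's : star b' = b' := (IsSelfAdjoint.of_nonneg (CFC.sqrt_nonneg _)).star_eq
    have hcs := column_cauchy_schwarz (fun o : Option ι => o.elim b' (A' t))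
      (fun o : Option ι => o.elim (Γ * b) (A t)) (s := 1) one_pos ?_
    · simp only [Fintype.sum_option, Option.elim, one_smul, hb's] at hcs
      have hG : gam A A' R (k + 1) = b' * (Γ * b) + ∑ i, star (A' t i) * A t i := by
        rw [gam, add_comm, mul_assoc]
      rw [← hG] at hcs
      have hle : star (Γ * b) * (Γ * b) + ∑ i, star (A t i) * A t i ≤ 1 := by
        have h1 : star (Γ * b) * (Γ * b) ≤ 1 - colQ (A t) := by
          have := star_left_conjugate_le_conjugate (star_mul_self_le_one (ih (by omega))) b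
          rw [mul_one, hbs, hb, CFC.sqrt_mul_sqrt_self _ (one_sub_nonneg' h ht), ← hb] at this
          simpa [star_mul, hbs, mul_assoc] using this
        calc _ ≤ 1 - colQ (A t) + colQ (A t) := add_le_add h1 le_rfl
          _ = 1 := sub_add_cancel _ _
      have hn : ‖star (gam A A' R (k + 1)) * gam A A' R (k + 1)‖ ≤ 1 :=
        norm_le_one_of (star_mul_self_nonneg _) (hcs.trans hle)
      rw [CStarRing.norm_star_mul_self, ← sq] at hn
      exact (pow_le_one_iff_of_nonneg (norm_nonneg _) two_ne_zero).1 hn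
    · simp only [Fintype.sum_option, Option.elim, map_one]
      rw [hb's, hb', CFC.sqrt_mul_sqrt_self _ (one_sub_nonneg' h' ht)]
      exact le_of_eq (sub_add_cancel _ _)

omit [PartialOrder F] [StarOrderedRing F] in
theorem colQ_sub (A A' : ι → F) : colQ A - colQ A' =
    ∑ i, star (A i - A' i) * A i + ∑ i, star (A' i) * (A i - A' i) := by
  simp only [colQ, star_sub, sub_mul, mul_sub, sum_sub_distrib]
  abel

section Shift

variable {R : ℕ} {A A' : ℕ → ι → F} (hτ : IsTrace τ) (h : TrialFam A R) (h' : TrialFam A' R)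
  (hcross : ∀ t < R, ∀ t' < R, t ≠ t' → ∀ i j,
    Commute (A t i) (A' t' j) ∧ Commute (star (A t i)) (A' t' j))
include h h' hcross

/-- Everything in a trial commutes with everything in the others. -/
theorem comm_four {u s : ℕ} (hu : u < R) (hs : s < R) (hne : u ≠ s) (i j : ι) :
    ((Commute (A u i) (A s j) ∧ Commute (A u i) (star (A s j))) ∧
        (Commute (A u i) (A' s j) ∧ Commute (A u i) (star (A' s j)))) ∧
      ((Commute (A' u i) (A s j) ∧ Commute (A' u i) (star (A s j))) ∧
        (Commute (A' u i) (A' s j) ∧ Commute (A' u i) (star (A' s j)))) :=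
  ⟨⟨comm_all h hu hs hne i j, (hcross u hu s hs hne i j).1, by
      simpa using (hcross u hu s hs hne i j).2.star_star⟩,
    ⟨(hcross s hs u hu hne.symm j i).1.symm, (hcross s hs u hu hne.symm j i).2.symm⟩,
    comm_all h' hu hs hne i j⟩

/-- The later overlap commutes with an earlier trial. -/
theorem gam_comm {t : ℕ} (ht : t < R) (i : ι) :
    (Commute (gam A A' R (R - (t + 1))) (A t i) ∧
        Commute (gam A A' R (R - (t + 1))) (star (A t i))) ∧
      (Commute (gam A A' R (R - (t + 1))) (A' t i) ∧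
        Commute (gam A A' R (R - (t + 1))) (star (A' t i))) := by
  have key : ∀ x, (∀ s, s < R → s ≠ t → ∀ j,
      (Commute x (A s j) ∧ Commute x (star (A s j))) ∧
        (Commute x (A' s j) ∧ Commute x (star (A' s j)))) →
      Commute (gam A A' R (R - (t + 1))) x := fun x hx =>
    (Commute.gam_right _ (by omega) fun s h1 h2 => hx s h2 (by omega)).symm
  have hstar : ∀ (x : F) (B : F), Commute x B → Commute (star x) (star B) := fun _ _ e =>
    e.star_star
  refine ⟨⟨key _ fun s hs hne j => (comm_four h h' hcross ht hs hne.symm i j).1,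
    key _ fun s hs hne j => ?_⟩,
    ⟨key _ fun s hs hne j => (comm_four h h' hcross ht hs hne.symm i j).2,
    key _ fun s hs hne j => ?_⟩⟩
  · obtain ⟨⟨a1, a2⟩, a3, a4⟩ := (comm_four h h' hcross ht hs hne.symm i j).1
    exact ⟨⟨by simpa using a2.star_star, a1.star_star⟩, by simpa using a4.star_star, a3.star_star⟩
  · obtain ⟨⟨a1, a2⟩, a3, a4⟩ := (comm_four h h' hcross ht hs hne.symm i j).2
    exact ⟨⟨by simpa using a2.star_star, a1.star_star⟩, by simpa using a4.star_star, a3.star_star⟩

omit hcross in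
/-- The overlap of the two columns is the first backward overlap. -/
theorem overlap_eq :
    ∑ p, star (samplerCol A' R p) * samplerCol A R p = gam A A' R R := by
  have hstep : ∀ t ≤ R, ∑ s ∈ range t, ∑ i, star (A' s i * passB A' s) * (A s i * passB A s) +
      passB A' t * gam A A' R (R - t) * passB A t = gam A A' R R := by
    intro t
    induction t with
    | zero => simp [passB]
    | succ t ih =>
      intro ht
      have e := ih (by omega)
      rw [gam_succ A A' (by omega : t < R)] at e
      have hc : Commute (CFC.sqrt (1 - colQ (A t))) (passB A t) :=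
        (Commute.sqrt_right ((Commute.one_right _).sub_right
          (passB_comm_colQ h (by omega) (by omega : t < R)).symm)).symm
      refine Eq.trans ?_ e
      rw [sum_range_succ, add_assoc]
      congr 1
      simp only [passB, star_mul, passB_star h' (by omega : t ≤ R), mul_add, add_mul, mul_sum,
        sum_mul, mul_assoc, hc.eq]
  rw [Fintype.sum_option, Fintype.sum_prod_type, add_comm]
  simp only [samplerCol, passB_star h' le_rfl]
  rw [Fin.sum_univ_eq_sum_range
    (fun s => ∑ i, star (A' s i * passB A' s) * (A s i * passB A s)) R]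
  have := hstep R le_rfl
  rwa [Nat.sub_self, gam, mul_one] at this

/-- The local error at the trial `t`. -/
def shiftErr (A A' : ℕ → ι → F) (R t : ℕ) : F :=
  ∑ i, star (A' t i) * (A' t i - A t i) +
    CFC.sqrt (1 - colQ (A' t)) *
      (CFC.sqrt (1 - colQ (A' t)) - CFC.sqrt (1 - colQ (A t))) * gam A A' R (R - (t + 1))

theorem one_sub_gam :
    1 - gam A A' R R = ∑ t ∈ range R, passB A' t * passB A' t * shiftErr A A' R t := by
  have hrec : ∀ t, t < R → 1 - gam A A' R (R - t) =
      shiftErr A A' R t + (1 - colQ (A' t)) * (1 - gam A A' R (R - (t + 1))) := by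
    intro t ht
    have hc : Commute (gam A A' R (R - (t + 1))) (CFC.sqrt (1 - colQ (A t))) :=
      Commute.sqrt_right ((Commute.one_right _).sub_right
        (Commute.colQ_right fun i => (gam_comm h h' hcross ht i).1))
    have hbb := CFC.sqrt_mul_sqrt_self _ (one_sub_nonneg' h' ht)
    have e1 : ∑ i, star (A' t i) * (A' t i - A t i) =
        colQ (A' t) - ∑ i, star (A' t i) * A t i := by
      simp only [mul_sub, sum_sub_distrib, colQ]
    rw [gam_succ A A' ht, shiftErr, mul_assoc _ (gam A A' R (R - (t + 1))), hc.eq, e1]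
    simp only [mul_sub, sub_mul, mul_one, one_mul, ← mul_assoc, hbb]
    abel
  have hstep : ∀ t ≤ R, 1 - gam A A' R R =
      ∑ s ∈ range t, passB A' s * passB A' s * shiftErr A A' R s +
        passB A' t * passB A' t * (1 - gam A A' R (R - t)) := by
    intro t
    induction t with
    | zero => simp [passB]
    | succ t ih =>
      intro ht
      rw [ih (by omega), hrec t (by omega), sum_range_succ, passSq_succ h' (by omega),
        add_assoc, mul_add]
      simp only [mul_assoc]
  rw [hstep R le_rfl, Nat.sub_self, gam, sub_self, mul_zero, add_zero]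

include hτ

theorem shiftErr_le {π e κ : ℝ} (hπ : 0 ≤ π) (hπ1 : π ≤ 1) (he : 0 ≤ e) (hκ : 0 ≤ κ) {t : ℕ}
    (ht : t < R)
    (hq : (τ (passB A' t * passB A' t * colQ (A t))).re = π * (1 - π) ^ t)
    (hq' : (τ (passB A' t * passB A' t * colQ (A' t))).re = π * (1 - π) ^ t)
    (hp : (τ (passB A' t * passB A' t * colQ (A t - A' t))).re ≤ e * π * (1 - π) ^ t + κ)
    (hov : (τ (colQ (A t) * (1 - colQ (A t)))).re ≤ κ)
    (hov' : (τ (colQ (A' t) * (1 - colQ (A' t)))).re ≤ κ) :
    (τ (passB A' t * passB A' t * shiftErr A A' R t)).re ≤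
      3 * (Real.sqrt e * (π * (1 - π) ^ t)) + 6 * Real.sqrt κ := by
  set Γ := gam A A' R (R - (t + 1)) with hΓ
  set B := passB A' t with hB
  set q := colQ (A t) with hqdef
  set q' := colQ (A' t) with hq'def
  set b := CFC.sqrt (1 - q) with hb
  set b' := CFC.sqrt (1 - q') with hb'
  set P : ι → F := A t - A' t with hP
  set d := 1 - q' with hd
  set u := π * (1 - π) ^ t with hu
  have hu0 : 0 ≤ u := mul_nonneg hπ (pow_nonneg (sub_nonneg.2 hπ1) _)
  have hu1 : u ≤ 1 := mul_le_one₀ hπ1 (pow_nonneg (sub_nonneg.2 hπ1) _)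
    (pow_le_one₀ (sub_nonneg.2 hπ1) (by linarith))
  have hΓn : ‖Γ‖ ≤ 1 := gam_norm h h' _ (by omega)
  have hΓ1 : star Γ * Γ ≤ 1 := star_mul_self_le_one hΓn
  have hd0 : 0 ≤ d := one_sub_nonneg' h' ht
  have hd1 : d ≤ 1 := one_sub_le_one t
  have hds : star d = d := (IsSelfAdjoint.of_nonneg hd0).star_eq
  have hBs : star B = B := passB_star h' ht.le
  have hdB : Commute d B := (Commute.one_left _).sub_left (passB_comm_colQ h' ht.le ht)
  have hAB : ∀ s < t, ∀ i j, (Commute (A' s j) (A t i) ∧ Commute (A' s j) (star (A t i))) :=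
    fun s hs i j => (comm_four h h' hcross (hs.trans ht) ht hs.ne j i).2.1
  have hBA : ∀ i, Commute (A t i) B ∧ Commute (star (A t i)) B := by
    intro i
    refine ⟨commute_passB h' ht.le fun s hs => Commute.colQ_right fun j => ?_,
      commute_passB h' ht.le fun s hs => Commute.colQ_right fun j => ?_⟩
    · exact (comm_four h h' hcross ht (hs.trans ht) hs.ne' i j).1.2
    · exact ⟨(hAB s hs i j).2.symm, (hAB s hs i j).1.star_star.symm⟩
  have hBq : Commute B q := Commute.colQ_right fun i => ⟨(hBA i).1.symm, (hBA i).2.symm⟩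
  have hBP : Commute B (colQ P) := Commute.colQ_right fun i => by
    have h1 := trial_comm_passB h' le_rfl ht i
    exact ⟨(hBA i).1.symm.sub_right h1.1.symm, by
      rw [hP, Pi.sub_apply, star_sub]; exact (hBA i).2.symm.sub_right h1.2.symm⟩
  have hBΓ : Commute Γ B := commute_passB h' ht.le fun s hs => Commute.colQ_right fun j => by
    have key : ∀ x, (∀ v, t + 1 ≤ v → v < R → ∀ k,
        (Commute x (A v k) ∧ Commute x (star (A v k))) ∧
          (Commute x (A' v k) ∧ Commute x (star (A' v k)))) → Commute Γ x := fun x hx =>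
      (Commute.gam_right _ (by omega) fun v h1 h2 => hx v (by omega) h2).symm
    refine ⟨key _ fun v h1 h2 k => (comm_four h h' hcross (hs.trans ht) h2 (by omega) j k).2,
      key _ fun v h1 h2 k => ?_⟩
    obtain ⟨⟨a1, a2⟩, a3, a4⟩ := (comm_four h h' hcross (hs.trans ht) h2 (by omega) j k).2
    exact ⟨⟨by simpa using a2.star_star, a1.star_star⟩, by simpa using a4.star_star, a3.star_star⟩
  have hqΓ : Commute Γ q := Commute.colQ_right fun i => (gam_comm h h' hcross ht i).1
  have hc0 : 0 ≤ B * B := passSq_nonneg h' ht.le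
  have sq_le : ∀ (Q y : F), 0 ≤ Q → star y * y ≤ B * B →
      (τ (y * Q * star y)).re ≤ (τ (B * B * Q)).re := fun Q y hQ hy => by
    rw [hτ.comm, ← mul_assoc, hτ.comm (star y * y) Q, hτ.comm (B * B) Q]
    exact hτ.mul_le_mul_left hQ hy
  have hΓB : star (star (Γ * B)) * star (Γ * B) ≤ B * B := by
    rw [star_star]
    have h1 : Γ * star Γ ≤ 1 := by
      have := star_mul_self_le_one (a := star Γ) (by rwa [norm_star])
      rwa [star_star] at this
    have h2 : Commute (star Γ) B := by
      have := hBΓ.star_star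
      rwa [hBs] at this
    calc Γ * B * star (Γ * B) = B * (Γ * star Γ) * B := by
          rw [star_mul, hBs, hBΓ.eq, ← h2.eq]
          simp only [mul_assoc]
      _ ≤ B * 1 * B := by
          have := star_left_conjugate_le_conjugate h1 B
          rwa [hBs] at this
      _ = B * B := by rw [mul_one]
  have hdBB : star (star (d * B)) * star (d * B) ≤ B * B := by
    have h1 : d * d ≤ 1 := (mul_self_le_self_of hd0 hd1).trans hd1
    have h2 := star_left_conjugate_le_conjugate h1 B
    rw [hBs, mul_one] at h2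
    refine le_trans (le_of_eq ?_) h2
    rw [star_star, star_mul, hBs, hds, hdB.eq]
    simp only [mul_assoc]
    rw [hdB.eq]
  have bound : ∀ (U : ι → F) (y : F), star (star y) * star y ≤ B * B →
      (τ (colQ (fun i => U i * y))).re ≤ (τ (B * B * colQ U)).re := fun U y hy => by
    rw [colQ_mul_right]
    have := sq_le (colQ U) (star y) (colQ_nonneg _) hy
    rwa [star_star] at this
  have cs : ∀ (U W : ι → F) (y z : F), star (star y) * star y ≤ B * B →
      star (star z) * star z ≤ B * B →
      ‖τ (∑ i, star (U i * y) * (W i * z))‖ ≤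
        Real.sqrt (τ (B * B * colQ U)).re * Real.sqrt (τ (B * B * colQ W)).re :=
    fun U W y z hy hz => (norm_trace_col_le hτ _ _).trans
      (mul_le_mul (Real.sqrt_le_sqrt (bound U y hy)) (Real.sqrt_le_sqrt (bound W z hz))
        (Real.sqrt_nonneg _) (Real.sqrt_nonneg _))
  have hsp : Real.sqrt (τ (B * B * colQ P)).re * Real.sqrt u ≤
      Real.sqrt e * u + Real.sqrt κ := by
    rw [← Real.sqrt_mul' _ hu0]
    calc Real.sqrt ((τ (B * B * colQ P)).re * u) ≤ Real.sqrt (e * u ^ 2 + κ) := by
          refine Real.sqrt_le_sqrt ?_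
          have h1 := mul_le_mul_of_nonneg_right hp hu0
          have h2 : κ * u ≤ κ := mul_le_of_le_one_right hκ hu1
          calc _ ≤ (e * π * (1 - π) ^ t + κ) * u := h1
            _ ≤ e * u ^ 2 + κ := by rw [hu] at h2 ⊢; linarith
      _ ≤ Real.sqrt (e * u ^ 2) + Real.sqrt κ  := by
          refine Real.sqrt_le_iff.2 ⟨by positivity, ?_⟩
          have hA : 0 ≤ e * u ^ 2 := by positivity
          nlinarith [Real.mul_self_sqrt hA, Real.mul_self_sqrt hκ,
            mul_nonneg (Real.sqrt_nonneg (e * u ^ 2)) (Real.sqrt_nonneg κ)]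
      _ = _ := by rw [Real.sqrt_mul he, Real.sqrt_sq hu0]
  have hBB1 : star (star B) * star B ≤ B * B := by rw [star_star, hBs]
  -- the first term
  have t1 : ‖τ (B * B * ∑ i, star (A' t i) * (A' t i - A t i))‖ ≤
      Real.sqrt e * u + Real.sqrt κ := by
    have e1 : τ (B * B * ∑ i, star (A' t i) * (A' t i - A t i)) =
        -τ (∑ i, star (A' t i * B) * (P i * B)) := by
      rw [mul_assoc, hτ.comm B, mul_assoc, ← map_neg]
      congr 1
      simp only [mul_sum, sum_mul, star_mul, hBs, hP, Pi.sub_apply, ← sum_neg_distrib]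
      refine sum_congr rfl fun i _ => ?_
      simp only [mul_sub, sub_mul, mul_assoc, neg_sub]
    rw [e1, norm_neg]
    refine (cs _ _ _ _ hBB1 hBB1).trans (le_trans (le_of_eq ?_) hsp)
    rw [hq', mul_comm]
  -- the main term
  have t2 : ‖τ (B * B * (d * (q - q') * Γ))‖ ≤
      2 * (Real.sqrt e * u + Real.sqrt κ) := by
    have e1 : τ (B * B * (d * (q - q') * Γ)) =
        τ (∑ i, star (P i * (d * B)) * (A t i * (Γ * B))) +
          τ (∑ i, star (A' t i * (d * B)) * (P i * (Γ * B))) := by
      rw [mul_assoc, hτ.comm B, ← map_add, colQ_sub]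
      congr 1
      simp only [star_mul, hBs, hds, hP, Pi.sub_apply, mul_sum, sum_mul, mul_add, add_mul,
        mul_assoc]
    rw [e1, two_mul]
    refine (norm_add_le _ _).trans (add_le_add ?_ ?_)
    · refine (cs _ _ _ _ hdBB hΓB).trans (le_trans (le_of_eq ?_) hsp)
      rw [hq]
    · refine (cs _ _ _ _ hdBB hΓB).trans (le_trans (le_of_eq ?_) hsp)
      rw [hq', mul_comm]
  -- the square roots
  have hb0 : tn τ (b - (1 - q)) ≤ Real.sqrt κ := by
    refine tn_sqrt_sub_le hτ (one_sub_nonneg' h ht) (one_sub_le_one t) ?_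
    rw [sub_sub_cancel, hτ.comm]
    exact hov
  have hb'0 : tn τ (b' - d) ≤ Real.sqrt κ := by
    refine tn_sqrt_sub_le hτ hd0 hd1 ?_
    rw [hd, sub_sub_cancel, hτ.comm]
    exact hov'
  have hnd : ‖d‖ ≤ 1 := norm_le_one_of hd0 hd1
  have hnb : ‖b‖ ≤ 1 := by
    refine norm_le_one_of (CFC.sqrt_nonneg _) ?_
    have := CFC.sqrt_le_sqrt _ (1 : F) (one_sub_le_one (A := A) t)
    rwa [CFC.sqrt_one] at this
  have t3 : ‖τ (B * B * ((b' * (b' - b) - d * (q - q')) * Γ))‖ ≤ 3 * Real.sqrt κ := by
    rw [hτ.comm]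
    refine (norm_trace_mul_le hτ _ _).trans ?_
    refine le_trans (mul_le_of_le_one_right (hτ.tn_nonneg _) (passSq_norm h' ht.le)) ?_
    refine (hτ.tn_mul_le_right _ _).trans
      (le_trans (mul_le_of_le_one_right (hτ.tn_nonneg _) hΓn) ?_)
    have e1 : b' * (b' - b) - d * (q - q') =
        (d - b') * b + (d * ((1 - q) - b) + q' * d) := by
      have hbb : b' * b' = d := CFC.sqrt_mul_sqrt_self _ hd0
      simp only [mul_sub, sub_mul, hbb, hd, mul_one, one_mul]
      abel
    rw [e1]
    have e2 : tn τ (q' * d) ≤ Real.sqrt κ := by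
      refine Real.sqrt_le_sqrt (le_trans ?_ hov')
      have hc : Commute q' d := (Commute.one_right _).sub_right (Commute.refl _)
      have hqd : 0 ≤ q' * d := hc.mul_nonneg (colQ_nonneg _) hd0
      rw [(IsSelfAdjoint.of_nonneg hqd).star_eq]
      refine hτ.mono ?_
      refine mul_self_le_self_of hqd ?_
      refine (CStarAlgebra.norm_le_one_iff_of_nonneg _ hqd).1 ((norm_mul_le _ _).trans ?_)
      exact mul_le_one₀ (norm_le_one_of (colQ_nonneg _) (h'.le_one t ht)) (norm_nonneg _) hnd
    have e3 : tn τ ((d - b') * b) ≤ Real.sqrt κ := by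
      refine (hτ.tn_mul_le_right _ _).trans
        (le_trans (mul_le_of_le_one_right (hτ.tn_nonneg _) hnb) ?_)
      rwa [← hτ.tn_neg, neg_sub]
    have e4 : tn τ (d * ((1 - q) - b)) ≤ Real.sqrt κ := by
      refine (hτ.tn_mul_le_left _ _).trans
        (le_trans (mul_le_of_le_one_left (hτ.tn_nonneg _) hnd) ?_)
      rwa [← hτ.tn_neg, neg_sub]
    refine (hτ.tn_add_le _ _).trans ?_
    refine le_trans (add_le_add le_rfl (hτ.tn_add_le _ _)) ?_
    linarith
  have hsplit : B * B * shiftErr A A' R t = B * B * (∑ i, star (A' t i) * (A' t i - A t i)) +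
      (B * B * (d * (q - q') * Γ) + B * B * ((b' * (b' - b) - d * (q - q')) * Γ)) := by
    rw [shiftErr, ← mul_add, ← mul_add, ← add_mul, add_sub_cancel]
  rw [hsplit, map_add, map_add, Complex.add_re, Complex.add_re]
  have r1 := (Complex.re_le_norm _).trans t1
  have r2 := (Complex.re_le_norm _).trans t2
  have r3 := (Complex.re_le_norm _).trans t3
  linarith

theorem sampler_shift {π e κ : ℝ} (hπ : 0 < π) (hπ1 : π ≤ 1) (he : 0 ≤ e) (hκ : 0 ≤ κ)
    (hq : ∀ t < R, (τ (passB A' t * passB A' t * colQ (A t))).re = π * (1 - π) ^ t)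
    (hq' : ∀ t < R, (τ (passB A' t * passB A' t * colQ (A' t))).re = π * (1 - π) ^ t)
    (hp : ∀ t < R, (τ (passB A' t * passB A' t * colQ (A t - A' t))).re ≤
      e * π * (1 - π) ^ t + κ)
    (hov : ∀ t < R, (τ (colQ (A t) * (1 - colQ (A t)))).re ≤ κ)
    (hov' : ∀ t < R, (τ (colQ (A' t) * (1 - colQ (A' t)))).re ≤ κ)
    (x : Option (Fin R × ι) → F) {C : ℝ} (hC : 0 ≤ C) (hx : ∀ p, ‖x p‖ ≤ C) :
    tn τ (emap (samplerCol A R) x - emap (samplerCol A' R) x) ≤
      2 * C * Real.sqrt (2 * (3 * Real.sqrt e + 8 * R * Real.sqrt κ)) := by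
  set a := samplerCol A R
  set a' := samplerCol A' R
  have ha : ∑ p, star (a p) * a p = 1 := samplerCol_sum h
  have ha' : ∑ p, star (a' p) * a' p = 1 := samplerCol_sum h'
  set K := 3 * Real.sqrt e + 8 * R * Real.sqrt κ
  have hgam : (τ (1 - gam A A' R R)).re ≤ K := by
    rw [one_sub_gam h h' hcross, map_sum, Complex.re_sum]
    refine (sum_le_sum fun t ht => shiftErr_le hτ h h' hcross hπ.le hπ1 he hκ (mem_range.1 ht)
      (hq t (mem_range.1 ht)) (hq' t (mem_range.1 ht)) (hp t (mem_range.1 ht))
      (hov t (mem_range.1 ht)) (hov' t (mem_range.1 ht))).trans ?_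
    rw [sum_add_distrib, ← mul_sum, ← mul_sum, sum_const, card_range, nsmul_eq_mul]
    have hgeo : ∑ t ∈ range R, π * (1 - π) ^ t ≤ 1 := by
      rw [← mul_sum]
      have h1 := mul_neg_geom_sum (1 - π) R
      rw [sub_sub_cancel] at h1
      rw [h1]
      linarith [pow_nonneg (sub_nonneg.2 hπ1) R]
    have h1 := mul_le_mul_of_nonneg_left hgeo (Real.sqrt_nonneg e)
    have h2 : 0 ≤ (R : ℝ) * Real.sqrt κ := mul_nonneg R.cast_nonneg (Real.sqrt_nonneg κ)
    simp only [K]
    linarith
  have hdist : (τ (∑ p, star (a p - a' p) * (a p - a' p))).re ≤ 2 * K := by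
    have e1 : ∑ p, star (a p - a' p) * (a p - a' p) =
        (1 - gam A A' R R) + star (1 - gam A A' R R) := by
      rw [← overlap_eq h h']
      simp only [star_sub, star_one, star_sum, star_mul, star_star, sub_mul, mul_sub,
        sum_sub_distrib, ha, ha', a, a']
      simp only [sub_sub_eq_add_sub]
      abel
    rw [e1, map_add, hτ.map_star, Complex.add_re]
    have : (star (τ (1 - gam A A' R R))).re = (τ (1 - gam A A' R R)).re := by simp
    linarith
  have half : ∀ (u : Option (Fin R × ι) → F) (z : Option (Fin R × ι) → F),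
      ∑ p, star (u p) * u p = 1 → (∀ p, ‖z p‖ ≤ C) →
      tn τ (∑ p, star (z p * u p) * (a p - a' p)) ≤ C * Real.sqrt (2 * K) := by
    intro u z hu hz
    rcases hC.eq_or_lt with rfl | hC'
    · have : ∀ p, z p = 0 := fun p => norm_le_zero_iff.1 (hz p)
      simp [this, tn]
    have hcs := hτ.mono (column_cauchy_schwarz (fun p => z p * u p) (fun p => a p - a' p)
      (sq_pos_of_pos hC') (column_bound hu hz))
    rw [← Complex.coe_smul, map_smul, smul_eq_mul, Complex.re_ofReal_mul] at hcs
    refine (Real.sqrt_le_sqrt (hcs.trans (mul_le_mul_of_nonneg_left hdist (sq_nonneg C)))).trans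
      (le_of_eq ?_)
    rw [Real.sqrt_mul (sq_nonneg C), Real.sqrt_sq hC]
  have e2 : emap a x - emap a' x = star (∑ p, star (x p * a p) * (a p - a' p)) +
      ∑ p, star (star (x p) * a' p) * (a p - a' p) := by
    simp only [emap, star_sum, star_mul, star_star, star_sub, mul_sub, sum_sub_distrib,
      mul_assoc]
    abel
  rw [e2]
  refine (hτ.tn_add_le _ _).trans ?_
  rw [hτ.tn_star]
  have := half a x ha hx
  have := half a' (fun p => star (x p)) ha' (fun p => by rw [norm_star]; exact hx p)
  linarith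

end Shift

/-! ## The defect -/

section Defect

variable {R : ℕ} {A : ℕ → ι → F} (hτ : IsTrace τ) (h : TrialFam A R)
include hτ h

theorem trace_pass_sub_sq {κ : ℝ} (hov : ∀ t < R, (τ (colQ (A t) * (1 - colQ (A t)))).re ≤ κ) :
    ∀ t ≤ R, (τ (passB A t * passB A t -
      passB A t * passB A t * (passB A t * passB A t))).re ≤ t * κ := by
  intro t
  induction t with
  | zero => simp [passB]
  | succ t ih =>
    intro ht
    have ht' : t < R := by omega
    set c := passB A t * passB A t with hc
    set q := colQ (A t)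
    have hcq : Commute q c :=
      (passB_comm_colQ h ht'.le ht').mul_right (passB_comm_colQ h ht'.le ht')
    have hcc : 0 ≤ c - c * c :=
      sub_nonneg.2 (mul_self_le_self_of (passSq_nonneg h ht'.le) (passSq_le_one h ht'.le))
    rw [passSq_succ h ht']
    have e1 : c * (1 - q) - c * (1 - q) * (c * (1 - q)) =
        (c - c * c) * (1 - q) + c * c * (q * (1 - q)) := by
      have hpc : Commute (1 - q) c := (Commute.one_left _).sub_left hcq
      have e0 : c * (1 - q) * (c * (1 - q)) = c * c * ((1 - q) * (1 - q)) := by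
        rw [mul_assoc, ← mul_assoc (1 - q) c, hpc.eq]
        simp only [mul_assoc]
      rw [e0, sub_mul 1 q (1 - q), one_mul, mul_sub (c * c) (1 - q), sub_mul c (c * c)]
      abel
    rw [e1, map_add, Complex.add_re]
    have i1 : (τ ((c - c * c) * (1 - q))).re ≤ (τ (c - c * c)).re := by
      simpa using hτ.mul_le_mul_left hcc (one_sub_le_one (A := A) t)
    have i2 : (τ (c * c * (q * (1 - q)))).re ≤ κ := by
      rw [hτ.comm]
      have hqq : 0 ≤ q * (1 - q) :=
        ((Commute.one_right _).sub_right (Commute.refl _)).mul_nonneg (colQ_nonneg _)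
          (one_sub_nonneg' h ht')
      have := hτ.mul_le_mul_left hqq
        ((mul_self_le_self_of (passSq_nonneg h ht'.le) (passSq_le_one h ht'.le)).trans
          (passSq_le_one h ht'.le))
      rw [mul_one] at this
      linarith [hov t ht']
    have := ih ht'.le
    push_cast
    linarith

theorem trace_pass {π : ℝ}
    (hq : ∀ t < R, (τ (passB A t * passB A t * colQ (A t))).re = π * (1 - π) ^ t) :
    ∀ t ≤ R, (τ (passB A t * passB A t)).re = (1 - π) ^ t := by
  intro t
  induction t with
  | zero => simp [passB, hτ.map_one]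
  | succ t ih =>
    intro ht
    rw [passSq_succ h (by omega), mul_sub, mul_one, map_sub, Complex.sub_re, ih (by omega),
      hq t (by omega), pow_succ]
    ring

theorem sampler_defect (y : Option (Fin R × ι) → F)
    (hy : ∀ p, IsSelfAdjoint (y p)) {C : ℝ} (hC : 0 ≤ C) (hyn : ∀ p, ‖y p‖ ≤ C)
    (hcomm : ∀ t, ∀ ht : t < R, ∀ i, ∀ p : Option (Fin R × ι), (∀ j, p ≠ some (⟨t, ht⟩, j)) →
      Commute (A t i) (y p))
    {π D κ : ℝ} (hπ : 0 < π) (hπ1 : π ≤ 1) (hD : 0 ≤ D) (hκ : 0 ≤ κ)
    (hq : ∀ t < R, (τ (passB A t * passB A t * colQ (A t))).re = π * (1 - π) ^ t)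
    (hdiag : ∀ t, ∀ ht : t < R, (τ (passB A t * passB A t *
        (emap (A t) (fun i => y (some (⟨t, ht⟩, i)) * y (some (⟨t, ht⟩, i))) -
          emap (A t) (fun i => y (some (⟨t, ht⟩, i))) *
            emap (A t) (fun i => y (some (⟨t, ht⟩, i)))))).re ≤ D * π * (1 - π) ^ t + κ)
    (hov : ∀ t < R, (τ (colQ (A t) * (1 - colQ (A t)))).re ≤ κ) :
    (τ (emap (samplerCol A R) (fun p => y p * y p)) -
        τ (emap (samplerCol A R) y * emap (samplerCol A R) y)).re ≤
      D + 10 * (C ^ 2 + 1) * ((R : ℝ) + 1) ^ 2 * (Real.sqrt κ + κ) + C ^ 2 * (1 - π) ^ R := by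
  set c : ℕ → F := fun t => passB A t * passB A t with hc
  set Fm : Fin R → F := fun t => emap (A t) (fun i => y (some (t, i))) with hFm
  set Sm : Fin R → F := fun t => emap (A t) (fun i => y (some (t, i)) * y (some (t, i))) with hSm
  have hycomm : ∀ (s : ℕ) (hs : s < R) (p : Option (Fin R × ι)),
      (∀ j, p ≠ some (⟨s, hs⟩, j)) → Commute (y p) (colQ (A s)) := fun s hs p hp =>
    Commute.colQ_right fun i => by
      have h1 := hcomm s hs i p hp
      refine ⟨h1.symm, ?_⟩
      have h2 := h1.star_star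
      rw [(hy p).star_eq] at h2
      exact h2.symm
  have hyB : ∀ (t : Fin R) (i : ι), Commute (y (some (t, i))) (passB A t) := fun t i =>
    commute_passB h t.2.le fun s hs => hycomm s (hs.trans t.2) _ fun j e => by
      simp only [Option.some.injEq, Prod.mk.injEq, Fin.ext_iff] at e
      omega
  have hyR : Commute (y none) (passB A R) :=
    commute_passB h le_rfl fun s hs => hycomm s hs _ fun j e => by simp at e
  have expand : ∀ z : Option (Fin R × ι) → F,
      (∀ (t : Fin R) (i : ι), Commute (z (some (t, i))) (passB A t)) →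
      Commute (z none) (passB A R) →
      emap (samplerCol A R) z =
        c R * z none + ∑ t : Fin R, c t * emap (A t) fun i => z (some (t, i)) := by
    intro z hz hz'
    simp only [emap, Fintype.sum_option, Fintype.sum_prod_type, samplerCol, hc, mul_sum]
    congr 1
    · rw [passB_star h le_rfl, mul_assoc, hz'.eq, ← mul_assoc]
    · refine sum_congr rfl fun t _ => sum_congr rfl fun i _ => ?_
      obtain ⟨h1, h2⟩ := trial_comm_passB h le_rfl t.2 i
      have h3 : Commute (star (A t i) * z (some (t, i)) * A t i) (passB A t) :=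
        (h2.mul_left (hz t i)).mul_left h1
      calc star (A t i * passB A t) * z (some (t, i)) * (A t i * passB A t)
          = passB A t * (star (A t i) * z (some (t, i)) * A t i * passB A t) := by
            rw [star_mul, passB_star h t.2.le]; simp only [mul_assoc]
        _ = _ := by rw [h3.eq]; simp only [mul_assoc]
  have hE : emap (samplerCol A R) y = c R * y none + ∑ t : Fin R, c t * Fm t :=
    expand y hyB hyR
  have hS : emap (samplerCol A R) (fun p => y p * y p) =
      c R * (y none * y none) + ∑ t : Fin R, c t * Sm t :=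
    expand (fun p => y p * y p) (fun t i => (hyB t i).mul_left (hyB t i)) (hyR.mul_left hyR)
  have hFsa : ∀ t, star (Fm t) = Fm t := fun t => by
    simp [hFm, emap, star_sum, mul_assoc, (hy _).star_eq]
  have hFF : ∀ t : Fin R, star (Fm t) * Fm t ≤ C ^ 2 • colQ (A t) := fun t => by
    have h1 := column_cauchy_schwarz (A t) (fun i => y (some (t, i)) * A t i) (s := 1) one_pos
      (by rw [map_one]; exact h.le_one t t.2)
    rw [one_smul] at h1
    refine le_trans ?_ (h1.trans ?_)
    · simp [hFm, emap, mul_assoc]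
    · simp only [colQ, smul_sum, star_mul]
      refine sum_le_sum fun i _ => ?_
      rw [mul_assoc, ← mul_assoc (star (y _))]
      have hb : star (y (some (t, i))) * y (some (t, i)) ≤ algebraMap ℝ F (C ^ 2) := by
        refine (IsSelfAdjoint.star_mul_self _).le_algebraMap_norm_self.trans (algebraMap_mono F ?_)
        rw [CStarRing.norm_star_mul_self, ← sq]
        gcongr
        exact hyn _
      calc star (A t i) * (star (y (some (t, i))) * y (some (t, i)) * A t i)
          = star (A t i) * (star (y (some (t, i))) * y (some (t, i))) * A t i :=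
            (mul_assoc _ _ _).symm
        _ ≤ star (A t i) * algebraMap ℝ F (C ^ 2) * A t i :=
            star_left_conjugate_le_conjugate hb _
        _ = _ := by simp [Algebra.algebraMap_eq_smul_one]
  have hFn : ∀ t : Fin R, ‖Fm t‖ ≤ C := fun t => by
    have h1 : star (Fm t) * Fm t ≤ algebraMap ℝ F (C ^ 2) := (hFF t).trans (by
      rw [Algebra.algebraMap_eq_smul_one]
      exact smul_le_smul_of_nonneg_left (h.le_one t t.2) (sq_nonneg C))
    rw [← CStarAlgebra.norm_le_iff_le_algebraMap _ (sq_nonneg C) (star_mul_self_nonneg _),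
      CStarRing.norm_star_mul_self, ← sq] at h1
    exact le_of_pow_le_pow_left₀ two_ne_zero hC h1
  have hFq : ∀ t : Fin R, tn τ (Fm t * (1 - colQ (A t))) ≤ C * Real.sqrt κ := fun t => by
    set d := 1 - colQ (A t) with hd
    have hd0 : 0 ≤ d := one_sub_nonneg' h t.2
    have hds : star d = d := (IsSelfAdjoint.of_nonneg hd0).star_eq
    have h1 := star_left_conjugate_le_conjugate (hFF t) d
    rw [mul_smul_comm, smul_mul_assoc] at h1
    have h2 := hτ.mono h1
    rw [← Complex.coe_smul, map_smul, smul_eq_mul, Complex.re_ofReal_mul] at h2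
    have h3 : (τ (star d * colQ (A t) * d)).re ≤ κ := by
      rw [hds, hτ.comm, ← mul_assoc]
      refine le_trans ?_ (hov t t.2)
      rw [hτ.comm, hτ.comm (colQ _)]
      exact le_trans (le_of_eq (by rw [hτ.comm])) (hτ.mul_le_mul_left (colQ_nonneg _)
        (mul_self_le_self_of hd0 (one_sub_le_one _))) |>.trans (le_of_eq (by rw [hτ.comm]))
    refine (Real.sqrt_le_sqrt (le_trans (le_of_eq ?_) (h2.trans
      (mul_le_mul_of_nonneg_left h3 (sq_nonneg C))))).trans (le_of_eq ?_)
    · simp [star_mul, mul_assoc]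
    · rw [Real.sqrt_mul (sq_nonneg C), Real.sqrt_sq hC]
  have hcn : ∀ t ≤ R, ‖c t‖ ≤ 1 := fun t ht => passSq_norm h ht
  have cross : ∀ (s : Fin R) (t : ℕ) (z : F), (s : ℕ) < t → t ≤ R → ‖z‖ ≤ C →
      -(C ^ 2 * Real.sqrt κ) ≤ (τ (c s * Fm s * (c t * z))).re := by
    intro s t z hst ht hz
    obtain ⟨W, hW, e⟩ := passSq_factor h hst ht
    have hb : ‖τ (c s * Fm s * (c t * z))‖ ≤ C * Real.sqrt κ * C := by
      rw [show c t = _ from e, show c s * Fm s * ((1 - colQ (A s)) * W * z) =
        c s * (Fm s * (1 - colQ (A s))) * (W * z) by simp only [mul_assoc]]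
      refine (norm_trace_mul_le hτ _ _).trans (mul_le_mul ?_ ?_ (norm_nonneg _) (by positivity))
      · refine (hτ.tn_mul_le_left _ _).trans
          (le_trans (mul_le_of_le_one_left (hτ.tn_nonneg _) (hcn s s.2.le)) (hFq s))
      · exact (norm_mul_le _ _).trans (le_trans (mul_le_of_le_one_left (norm_nonneg _) hW) hz)
    have := (abs_le.1 ((Complex.abs_re_le_norm _).trans hb)).1
    linarith
  have hsub := trace_pass_sub_sq hτ h hov
  have diag : ∀ t : Fin R, (τ (c t * (Fm t * Fm t))).re - C ^ 2 * (R * κ) ≤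
      (τ (c t * Fm t * (c t * Fm t))).re := fun t => by
    have hcF : Commute (Fm t) (c t) := by
      have hB : Commute (Fm t) (passB A t) := by
        simp only [hFm, emap]
        refine Commute.sum_left _ _ _ fun i _ => ?_
        obtain ⟨h1, h2⟩ := trial_comm_passB h le_rfl t.2 i
        exact (h2.mul_left (hyB t i)).mul_left h1
      exact hB.mul_right hB
    have e1 : c t * Fm t * (c t * Fm t) = c t * c t * (Fm t * Fm t) := by
      rw [mul_assoc, ← mul_assoc (Fm t), hcF.eq]; simp only [mul_assoc]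
    have hFF0 : Fm t * Fm t ≤ algebraMap ℝ F (C ^ 2) := by
      have := (IsSelfAdjoint.star_mul_self (Fm t)).le_algebraMap_norm_self
      rw [hFsa] at this
      refine this.trans (algebraMap_mono F ?_)
      refine (norm_mul_le _ _).trans ?_
      rw [sq]
      exact mul_le_mul (hFn t) (hFn t) (norm_nonneg _) hC
    have hcc : 0 ≤ c t - c t * c t :=
      sub_nonneg.2 (mul_self_le_self_of (passSq_nonneg h t.2.le) (passSq_le_one h t.2.le))
    have h1 := hτ.mul_le_mul_left hcc hFF0
    rw [Algebra.algebraMap_eq_smul_one, mul_smul_comm, mul_one, sub_mul, ← Complex.coe_smul,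
      map_smul, map_sub, Complex.sub_re, smul_eq_mul, Complex.re_ofReal_mul, map_sub] at h1
    have h2 := hsub t t.2.le
    rw [map_sub] at h2
    have h3 : ((t : ℕ) : ℝ) * κ ≤ R * κ := by gcongr; exact_mod_cast t.2.le
    have h4 := mul_le_mul_of_nonneg_left (h2.trans h3) (sq_nonneg C)
    rw [e1]
    linarith
  have last : 0 ≤ (τ (c R * y none * (c R * y none))).re := by
    have hcy : Commute (y none) (c R) := hyR.mul_right hyR
    have hs : IsSelfAdjoint (c R * y none) := (IsSelfAdjoint.of_nonneg
      (passSq_nonneg h le_rfl)).commute_iff (hy none) |>.1 hcy.symm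
    have := hτ.re_nonneg (c R * y none)
    rwa [hs.star_eq] at this
  have pair : ∀ t s : Fin R, (τ (c t * Fm t * (c s * Fm s))).re ≥
      (if s = t then (τ (c t * (Fm t * Fm t))).re - C ^ 2 * (R * κ) else 0) -
        C ^ 2 * Real.sqrt κ := fun t s => by
    have hnn : 0 ≤ C ^ 2 * Real.sqrt κ := by positivity
    rcases lt_trichotomy (t : ℕ) s with hlt | heq | hlt
    · rw [if_neg (by intro e; rw [e] at hlt; exact lt_irrefl _ hlt), zero_sub]
      exact cross t s _ hlt s.2.le (hFn s)
    · obtain rfl : t = s := Fin.ext heq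
      rw [if_pos rfl]
      linarith [diag t]
    · rw [if_neg (by intro e; rw [e] at hlt; exact lt_irrefl _ hlt), zero_sub, hτ.comm]
      exact cross s t _ hlt t.2.le (hFn t)
  have tot : ∑ t : Fin R, (τ (c t * (Fm t * Fm t))).re -
      ((R : ℝ) * (C ^ 2 * (R * κ)) + (R : ℝ) ^ 2 * (C ^ 2 * Real.sqrt κ) +
        2 * R * (C ^ 2 * Real.sqrt κ)) ≤
      (τ (emap (samplerCol A R) y * emap (samplerCol A R) y)).re := by
    rw [hE]
    simp only [add_mul, mul_add, sum_mul, mul_sum, map_add, map_sum, Complex.add_re, Complex.re_sum,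
      sum_add_distrib]
    have a1 : -((R : ℝ) * (C ^ 2 * Real.sqrt κ)) ≤
        ∑ t : Fin R, (τ (c t * Fm t * (c R * y none))).re := by
      have := card_nsmul_le_sum univ (fun t : Fin R => (τ (c t * Fm t * (c R * y none))).re)
        (-(C ^ 2 * Real.sqrt κ)) fun t _ => cross t R _ t.2 le_rfl (hyn none)
      simpa using this
    have a2 : ∑ t : Fin R, (τ (c R * y none * (c t * Fm t))).re =
        ∑ t : Fin R, (τ (c t * Fm t * (c R * y none))).re :=
      sum_congr rfl fun t _ => by rw [hτ.comm]
    have a3 : ∑ t : Fin R, ((τ (c t * (Fm t * Fm t))).re - C ^ 2 * (R * κ)) -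
        (R : ℝ) ^ 2 * (C ^ 2 * Real.sqrt κ) ≤
        ∑ t : Fin R, ∑ s : Fin R, (τ (c t * Fm t * (c s * Fm s))).re := by
      refine le_trans (le_of_eq ?_) (sum_le_sum fun t _ => sum_le_sum fun s _ => pair t s)
      simp [sum_sub_distrib]
      ring
    have a3' : ∑ t : Fin R, ∑ s : Fin R, (τ (c t * Fm t * (c s * Fm s))).re =
        ∑ t : Fin R, ∑ s : Fin R, (τ (c s * Fm s * (c t * Fm t))).re := sum_comm
    simp only [sum_sub_distrib, sum_const, card_univ, Fintype.card_fin, nsmul_eq_mul] at a3
    linarith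
  have hSre : (τ (emap (samplerCol A R) (fun p => y p * y p))).re ≤
      C ^ 2 * (1 - π) ^ R + ∑ t : Fin R, (τ (c t * Sm t)).re := by
    rw [hS, map_add, map_sum, Complex.add_re, Complex.re_sum]
    refine add_le_add ?_ le_rfl
    have h1 : y none * y none ≤ algebraMap ℝ F (C ^ 2) := by
      have := (IsSelfAdjoint.star_mul_self (y none)).le_algebraMap_norm_self
      rw [(hy none).star_eq] at this
      refine this.trans (algebraMap_mono F ?_)
      refine (norm_mul_le _ _).trans ?_
      rw [sq]
      exact mul_le_mul (hyn none) (hyn none) (norm_nonneg _) hC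
    have := hτ.mul_le_mul_left (passSq_nonneg h le_rfl) h1
    rw [Algebra.algebraMap_eq_smul_one, mul_smul_comm, mul_one, ← Complex.coe_smul, map_smul,
      smul_eq_mul, Complex.re_ofReal_mul, trace_pass hτ h hq R le_rfl] at this
    exact this
  have hdg : ∑ t : Fin R, ((τ (c t * Sm t)).re - (τ (c t * (Fm t * Fm t))).re) ≤
      D + R * κ := by
    refine (sum_le_sum fun (t : Fin R) _ => le_trans (le_of_eq ?_) (hdiag t t.2)).trans ?_
    · rw [mul_sub, map_sub, Complex.sub_re]
    · rw [sum_add_distrib, sum_const, card_univ, Fintype.card_fin, nsmul_eq_mul,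
        Fin.sum_univ_eq_sum_range (fun t => D * π * (1 - π) ^ t) R, ← mul_sum, mul_assoc]
      have h1 := mul_neg_geom_sum (1 - π) R
      rw [sub_sub_cancel] at h1
      rw [h1]
      have : D * (1 - (1 - π) ^ R) ≤ D :=
        mul_le_of_le_one_right hD (by linarith [pow_nonneg (sub_nonneg.2 hπ1) R])
      linarith
  rw [sum_sub_distrib] at hdg
  rw [Complex.sub_re]
  have hs0 := Real.sqrt_nonneg κ
  have hR0 : (0 : ℝ) ≤ R := R.cast_nonneg
  have b1 : (R : ℝ) * (C ^ 2 * (R * κ)) ≤ (C ^ 2 + 1) * ((R : ℝ) + 1) ^ 2 * κ := by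
    calc _ = C ^ 2 * (R : ℝ) ^ 2 * κ := by ring
      _ ≤ _ := by gcongr <;> linarith
  have b2 : (R : ℝ) ^ 2 * (C ^ 2 * Real.sqrt κ) ≤
      (C ^ 2 + 1) * ((R : ℝ) + 1) ^ 2 * Real.sqrt κ := by
    calc _ = C ^ 2 * (R : ℝ) ^ 2 * Real.sqrt κ := by ring
      _ ≤ _ := by gcongr <;> linarith
  have b3 : (R : ℝ) * (C ^ 2 * Real.sqrt κ) ≤ (C ^ 2 + 1) * ((R : ℝ) + 1) ^ 2 * Real.sqrt κ := by
    calc _ = C ^ 2 * (R : ℝ) * Real.sqrt κ := by ring
      _ ≤ _ := by
        gcongr
        · linarith
        · nlinarith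
  have b4 : (R : ℝ) * κ ≤ (C ^ 2 + 1) * ((R : ℝ) + 1) ^ 2 * κ := by
    calc _ = 1 * (R : ℝ) * κ := by ring
      _ ≤ _ := by
        gcongr
        · linarith [sq_nonneg C]
        · nlinarith
  have b5 : 0 ≤ (C ^ 2 + 1) * ((R : ℝ) + 1) ^ 2 * Real.sqrt κ := by positivity
  have b6 : 0 ≤ (C ^ 2 + 1) * ((R : ℝ) + 1) ^ 2 * κ := by positivity
  linarith

end Defect

end

end Vale.Agent.P095.Amenable
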