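import Vale.Agent.P095.Amenable.Diag

/-!
# Saturation of the central sequence algebra

Equivariant copies which preserve the null elements, and diagonal limits, keeping the index, of
almost invariant unitaries and of almost multiplicative maps.
-/

set_option linter.unusedSectionVars false
set_option synthInstance.maxHeartbeats 200000
set_option maxHeartbeats 800000

open Filter Topology TopologicalSpace
open Vale.Agent.P101 (CentralSeq Ultrapower BddSeq qmk constSeq)
open scoped ComplexOrder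

namespace Vale.Agent.P095.Amenable

noncomputable section

/-- The scalars used for countable dense subalgebras. -/
def scalars : Set ℂ := insert (-1) (insert 1 (Set.range (denseSeq ℂ)))

lemma countable_scalars : scalars.Countable := ((Set.countable_range _).insert _).insert _

lemma dense_scalars : Dense scalars :=
  Dense.mono ((Set.subset_insert _ _).trans (Set.subset_insert _ _)) (denseRange_denseSeq ℂ)

/-- Every countable set lies in a countable one closed under countably many operations. -/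
theorem exists_countable_closed {E : Type*} [Add E] [Mul E] (ops : Set (E → E))
    (hops : ops.Countable) {s : Set E} (hs : s.Countable) :
    ∃ U : Set E, U.Countable ∧ s ⊆ U ∧ (∀ a ∈ U, ∀ b ∈ U, a + b ∈ U) ∧
      (∀ a ∈ U, ∀ b ∈ U, a * b ∈ U) ∧ ∀ o ∈ ops, ∀ a ∈ U, o a ∈ U := by
  let step : Set E → Set E := fun V =>
    V ∪ Set.image2 (· + ·) V V ∪ Set.image2 (· * ·) V V ∪ Set.image2 (fun o a => o a) ops V
  let lev : ℕ → Set E := fun n => step^[n] s
  have hsucc : ∀ n, lev (n + 1) = step (lev n) := fun n => Function.iterate_succ_apply' step n s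
  have hc : ∀ n, (lev n).Countable := by
    intro n
    induction n with
    | zero => exact hs
    | succ n ih =>
      rw [hsucc]
      exact ((ih.union (ih.image2 ih _)).union (ih.image2 ih _)).union (hops.image2 ih _)
  have hmono : Monotone lev := monotone_nat_of_le_succ fun n => by
    rw [hsucc]
    exact fun a ha => Or.inl (Or.inl (Or.inl ha))
  refine ⟨⋃ n, lev n, Set.countable_iUnion hc, fun a ha => Set.mem_iUnion.2 ⟨0, ha⟩, ?_, ?_, ?_⟩
  · intro a ha b hb
    obtain ⟨n, hn⟩ := Set.mem_iUnion.1 ha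
    obtain ⟨k, hk⟩ := Set.mem_iUnion.1 hb
    refine Set.mem_iUnion.2 ⟨max n k + 1, ?_⟩
    rw [hsucc]
    exact Or.inl (Or.inl (Or.inr
      (Set.mem_image2_of_mem (hmono (le_max_left n k) hn) (hmono (le_max_right n k) hk))))
  · intro a ha b hb
    obtain ⟨n, hn⟩ := Set.mem_iUnion.1 ha
    obtain ⟨k, hk⟩ := Set.mem_iUnion.1 hb
    refine Set.mem_iUnion.2 ⟨max n k + 1, ?_⟩
    rw [hsucc]
    exact Or.inl (Or.inr
      (Set.mem_image2_of_mem (hmono (le_max_left n k) hn) (hmono (le_max_right n k) hk)))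
  · intro o ho a ha
    obtain ⟨n, hn⟩ := Set.mem_iUnion.1 ha
    refine Set.mem_iUnion.2 ⟨n + 1, ?_⟩
    rw [hsucc]
    exact Or.inr (Set.mem_image2_of_mem ho hn)

/-- A contractive map on a dense set, linear over a dense set of scalars, extends linearly. -/
theorem exists_linear_extend {E F : Type*} [NormedAddCommGroup E] [NormedSpace ℂ E]
    [NormedAddCommGroup F] [NormedSpace ℂ F] [CompleteSpace F] {U : Set E} (hU : Dense U)
    {Q : Set ℂ} (hQ : Dense Q) (hneg : (-1 : ℂ) ∈ Q) (hUa : ∀ a ∈ U, ∀ b ∈ U, a + b ∈ U)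
    (hUs : ∀ c ∈ Q, ∀ a ∈ U, c • a ∈ U) (g : U → F)
    (hga : ∀ (a b : U) (h : (a : E) + b ∈ U), g ⟨(a : E) + b, h⟩ = g a + g b)
    (hgs : ∀ c ∈ Q, ∀ (a : U) (h : c • (a : E) ∈ U), g ⟨c • (a : E), h⟩ = c • g a)
    (hgn : ∀ a : U, ‖g a‖ ≤ ‖(a : E)‖) :
    ∃ f : E →ₗ[ℂ] F, Continuous f ∧ (∀ x, ‖f x‖ ≤ ‖x‖) ∧ ∀ a : U, f a = g a := by
  have hd : ∀ a b : U, ‖g a - g b‖ ≤ ‖(a : E) - b‖ := fun a b => by
    have hb : (-1 : ℂ) • (b : E) ∈ U := hUs _ hneg _ b.2
    have h := hgn ⟨(a : E) + (-1 : ℂ) • (b : E), hUa _ a.2 _ hb⟩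
    rw [hga a ⟨_, hb⟩, hgs _ hneg] at h
    simpa [neg_one_smul, ← sub_eq_add_neg] using h
  have hg : LipschitzWith 1 g := LipschitzWith.of_dist_le_mul fun a b => by
    rw [NNReal.coe_one, one_mul, Subtype.dist_eq, dist_eq_norm, dist_eq_norm]
    exact hd a b
  have hind : IsUniformInducing ((↑) : U → E) := isUniformInducing_val _
  have hsd : DenseRange ((↑) : U → E) := hU.denseRange_val
  set f : E → F := (hind.isDenseInducing hsd).extend g with hf
  have hfc : Continuous f :=
    (uniformContinuous_uniformly_extend hind hsd hg.uniformContinuous).continuous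
  have hfg : ∀ a : U, f a = g a := fun a =>
    uniformly_extend_of_ind hind hsd hg.uniformContinuous a
  have hadd : ∀ x y, f (x + y) = f x + f y := fun x y =>
    hsd.induction_on₂ (p := fun x y => f (x + y) = f x + f y)
      (isClosed_eq (by fun_prop) (by fun_prop))
      (fun a b => by
        have := hfg ⟨(a : E) + b, hUa _ a.2 _ b.2⟩
        rw [hfg, hfg, ← hga a b (hUa _ a.2 _ b.2)]
        exact this) x y
  have hsm : ∀ (c : ℂ) x, f (c • x) = c • f x := fun c x =>
    hsd.induction_on (p := fun x => f (c • x) = c • f x) x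
      (isClosed_eq (by fun_prop) (by fun_prop))
      fun a => hQ.induction (P := fun c : ℂ => f (c • (a : E)) = c • f a)
        (fun d hd' => by rw [hfg, ← hgs d hd' a (hUs _ hd' _ a.2), ← hfg])
        (isClosed_eq (by fun_prop) (by fun_prop)) c
  refine ⟨{ toFun := f, map_add' := hadd, map_smul' := hsm }, hfc, fun x => ?_, hfg⟩
  exact hsd.induction_on (p := fun x => ‖f x‖ ≤ ‖x‖) x (isClosed_le (by fun_prop) (by fun_prop))
    fun a => by rw [hfg]; exact hgn a

lemma continuous_tn {F : Type*} [CStarAlgebra F] {τ : F →ₗ[ℂ] ℂ} (hτ : IsTrace τ) :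
    Continuous (tn τ) :=
  (LipschitzWith.of_le_add fun x y => by
    rw [dist_eq_norm]
    calc tn τ x = tn τ ((x - y) + y) := by rw [sub_add_cancel]
      _ ≤ tn τ (x - y) + tn τ y := hτ.tn_add_le _ _
      _ ≤ _ := by linarith [hτ.tn_le_norm (x - y)]).continuous

lemma norm_map_sq {F : Type*} [CStarAlgebra F] {τ : F →ₗ[ℂ] ℂ} (hτ : IsTrace τ) (w : F) :
    ‖τ (star w * w)‖ = tn τ w ^ 2 := by
  obtain ⟨h1, h2⟩ := Complex.nonneg_iff.1 (hτ.nonneg w)
  have e : τ (star w * w) = ((τ (star w * w)).re : ℂ) := Complex.ext (by simp) (by simp [← h2])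
  rw [hτ.tn_sq]
  conv_lhs => rw [e]
  rw [Complex.norm_real, Real.norm_eq_abs, abs_of_nonneg h1]

variable {A : Type} [CStarAlgebra A] [Nontrivial A] {ω : Ultrafilter ℕ}

/-- The family whose limit controls the two-seminorm. -/
def sqFam (X : ℕ → BddSeq A) : ℕ → BddSeq A := fun m => star (X m) * X m

lemma tn_eq_zero_of_rep {p q : ℕ → ℕ} {K : Set (ℕ → BddSeq A)} (hG : Good ω p q K)
    {X : ℕ → BddSeq A} (hX : sqFam X ∈ K) (hT : ∀ τ ∈ limTraces A ω, IsTrace τ)
    {z : CentralSeq A ω} (h : Rep ω p q (z : Ultrapower A ω) X) (v : ℕ → CentralSeq A ω)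
    (hv : ∀ m, qmk ω (X m) = (v m : Ultrapower A ω))
    (hsmall : ∀ ε : ℝ, 0 < ε → ∀ᶠ m in atTop, ∀ τ ∈ limTraces A ω, tn τ (v m) ≤ ε) :
    ∀ τ ∈ limTraces A ω, tn τ z = 0 := by
  intro τ hτ
  have key : ∀ σ ∈ limTraces A ω, ‖σ (star z * z)‖ ≤ 0 :=
    Rep.trace_le hG hX (z := star z * z) (h.star.mul h) (fun m => star (v m) * v m)
      (fun m => by rw [sqFam, map_mul, ← Vale.Agent.P101.star_qmk, hv]; rfl) le_rfl fun ε hε => by
      filter_upwards [hsmall (Real.sqrt ε) (Real.sqrt_pos.2 hε)] with m hm σ hσ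
      rw [norm_map_sq (hT σ hσ), zero_add]
      calc tn σ (v m) ^ 2 ≤ Real.sqrt ε ^ 2 :=
            pow_le_pow_left₀ ((hT σ hσ).tn_nonneg _) (hm σ hσ) 2
        _ = ε := Real.sq_sqrt hε.le
  have := key τ hτ
  rw [norm_map_sq (hT τ hτ)] at this
  exact pow_eq_zero_iff two_ne_zero |>.1 (le_antisymm this (sq_nonneg _))

lemma isClosed_null (D : StarSubalgebra ℂ (CentralSeq A ω)) (hT : ∀ τ ∈ limTraces A ω, IsTrace τ)
    {f : D → CentralSeq A ω} (hf : Continuous f) :
    IsClosed {d : D | ∀ τ ∈ limTraces A ω, tn τ (f d) = 0} := by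
  simp only [Set.ofPred_forall]
  exact isClosed_iInter fun τ => isClosed_iInter fun hτ =>
    isClosed_eq ((continuous_tn (hT τ hτ)).comp hf) continuous_const

lemma rep_constSeq {p q : ℕ → ℕ} (a : A) :
    Rep ω p q (qmk ω (constSeq a)) fun _ => constSeq a := ⟨constSeq a, rfl, fun _ => rfl⟩

section Main

variable [SeparableSpace A] {G : Type} [Group G] [Countable G] (hω : (ω : Filter ℕ) ≤ cofinite)
  {β : G → (A ≃⋆ₐ[ℂ] A)} (h1 : ∀ x, β 1 x = x) (hmul : ∀ g h x, β (g * h) x = β g (β h x))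
include hω h1 hmul

variable {α : G → (CentralSeq A ω ≃⋆ₐ[ℂ] CentralSeq A ω)} (hα : Induced A ω β α)
include hα

omit hω h1 hmul [SeparableSpace A] [Countable G] in
lemma qmk_mapSeq_eq (g : G) {z : CentralSeq A ω} {x : BddSeq A}
    (hx : qmk ω x = (z : Ultrapower A ω)) :
    qmk ω (mapSeq (β g) x) = (α g z : Ultrapower A ω) := hα g z x _ hx fun _ => rfl

omit hω h1 hmul [SeparableSpace A] [Countable G] in
lemma rep_act (g : G) {p q : ℕ → ℕ} {z : CentralSeq A ω} {X : ℕ → BddSeq A}
    (h : Rep ω p q (z : Ultrapower A ω) X) :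
    Rep ω p q (α g z : Ultrapower A ω) fun m => mapSeq (β g) (X m) := by
  obtain ⟨u, hu, hun⟩ := h
  exact ⟨mapSeq (β g) u, qmk_mapSeq_eq hα g hu,
    fun n => show β g (u n) = β g (X (p n) (q n)) by rw [hun]⟩

omit hω h1 hmul [Group G] [SeparableSpace A] [Countable G] hα in
lemma continuous_act (g : G) : Continuous (α g) :=
  (NonUnitalStarAlgHom.isometry (α g) (α g).injective).continuous

theorem saturated_copies (D : StarSubalgebra ℂ (CentralSeq A ω))
    (hsep : IsSeparable (D : Set (CentralSeq A ω)))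
    (hinv : ∀ g, ∀ d ∈ D, α g d ∈ D) (S : Set (CentralSeq A ω)) (hS : S.Countable) :
    ∃ θ : D →⋆ₐ[ℂ] CentralSeq A ω, (∀ d, ∀ t ∈ S, Commute (θ d) t) ∧
      (∀ g (d : D) (h : α g (d : CentralSeq A ω) ∈ D), α g (θ d) = θ ⟨α g (d : CentralSeq A ω), h⟩) ∧
      ∀ d : D, Cong (limTraces A ω) (d : CentralSeq A ω) 0 → Cong (limTraces A ω) (θ d) 0 := by
  classical
  have hT := (sys_central hω h1 hmul hα).isTrace
  have : SeparableSpace D := hsep.separableSpace
  set N : Set D := {d | ∀ τ ∈ limTraces A ω, tn τ (d : CentralSeq A ω) = 0} with hN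
  obtain ⟨N0, hN0s, hN0c, hN0d⟩ := (IsSeparable.of_separableSpace N).exists_countable_dense_subset
  let actD : G → D → D := fun g d => ⟨α g (d : CentralSeq A ω), hinv g _ d.2⟩
  obtain ⟨U, hUc, hU0, hUa, hUm, hUo⟩ := exists_countable_closed
    (E := D) (Set.range actD ∪ {star} ∪ (fun c : ℂ => fun d : D => c • d) '' scalars)
    (((Set.countable_range _).union (Set.countable_singleton _)).union (countable_scalars.image _))
    (s := insert 1 (Set.range (denseSeq D) ∪ N0))
    (((Set.countable_range _).union hN0c).insert 1)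
  have hU1 : (1 : D) ∈ U := hU0 (Set.mem_insert _ _)
  have hUd : Dense U :=
    Dense.mono (fun x hx => hU0 (Or.inr (Or.inl hx))) (denseRange_denseSeq D)
  have hUg : ∀ g, ∀ a ∈ U, actD g a ∈ U := fun g => hUo _ (Or.inl (Or.inl ⟨g, rfl⟩))
  have hUstar : ∀ a ∈ U, star a ∈ U := hUo _ (Or.inl (Or.inr rfl))
  have hUs : ∀ c ∈ scalars, ∀ a ∈ U, c • a ∈ U := fun c hc =>
    hUo _ (Or.inr (Set.mem_image_of_mem _ hc))
  choose r hr hrb using exists_rep_bound (A := A) (ω := ω)
  choose t ht using exists_rep (A := A) (ω := ω)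
  obtain ⟨R, hR, hRb⟩ : ∃ R : D → ℕ → BddSeq A,
      (∀ a m, qmk ω (R a m) = ((a : CentralSeq A ω) : Ultrapower A ω)) ∧
        ∀ a m n, ‖R a m n‖ ≤ ‖(a : CentralSeq A ω)‖ + 1 :=
    ⟨fun a _ => r (a : CentralSeq A ω), fun a _ => hr _, fun a _ n => hrb _ n⟩
  set K : Set (ℕ → BddSeq A) := R '' U ∪
    Set.image2 (fun a b => fun m => R a m + R b m - R (a + b) m) U U ∪
    Set.image2 (fun a b => fun m => R a m * R b m - R (a * b) m) U U ∪
    ((fun a => fun m => star (R a m) - R (star a) m) '' U) ∪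
    Set.image2 (fun c a => fun m => c • R a m - R (c • a) m) scalars U ∪
    {fun m => R 1 m - 1} ∪
    Set.image2 (fun a x => fun m => R a m * constSeq x - constSeq x * R a m)
      U (Set.range (denseSeq A)) ∪
    Set.image2 (fun a z => fun m => R a m * constSeq (t z m) - constSeq (t z m) * R a m) U S ∪
    Set.image2 (fun g a => fun m => mapSeq (β g) (R a m) - R (actD g a) m) Set.univ U ∪
    ((fun a => sqFam (R a)) '' U) with hK
  have hKc : K.Countable := by
    repeat' apply Set.Countable.union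
    all_goals
      first
      | exact hUc.image _
      | exact hUc.image2 hUc _
      | exact countable_scalars.image2 hUc _
      | exact Set.countable_singleton _
      | exact hUc.image2 (Set.countable_range _) _
      | exact hUc.image2 hS _
      | exact Set.countable_univ.image2 hUc _
  have mR : ∀ a ∈ U, R a ∈ K := fun a ha => by simp [hK, Set.mem_image_of_mem _ ha]
  have mAdd : ∀ a ∈ U, ∀ b ∈ U, (fun m => R a m + R b m - R (a + b) m) ∈ K := fun a ha b hb => by
    simp only [hK, Set.mem_union]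
    left; left; left; left; left; left; left; left; right
    exact Set.mem_image2_of_mem ha hb
  have mMul : ∀ a ∈ U, ∀ b ∈ U, (fun m => R a m * R b m - R (a * b) m) ∈ K := fun a ha b hb => by
    simp only [hK, Set.mem_union]
    left; left; left; left; left; left; left; right
    exact Set.mem_image2_of_mem ha hb
  have mStar : ∀ a ∈ U, (fun m => star (R a m) - R (star a) m) ∈ K := fun a ha => by
    simp only [hK, Set.mem_union]
    left; left; left; left; left; left; right
    exact Set.mem_image_of_mem _ ha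
  have mSmul : ∀ c ∈ scalars, ∀ a ∈ U, (fun m => c • R a m - R (c • a) m) ∈ K := fun c hc a ha => by
    simp only [hK, Set.mem_union]
    left; left; left; left; left; right
    exact Set.mem_image2_of_mem hc ha
  have mOne : (fun m => R 1 m - 1) ∈ K := by
    simp only [hK, Set.mem_union]
    left; left; left; left; right
    exact rfl
  have mConst : ∀ a ∈ U, ∀ x ∈ Set.range (denseSeq A),
      (fun m => R a m * constSeq x - constSeq x * R a m) ∈ K := fun a ha x hx => by
    simp only [hK, Set.mem_union]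
    left; left; left; right
    exact Set.mem_image2_of_mem ha hx
  have mComm : ∀ a ∈ U, ∀ z ∈ S,
      (fun m => R a m * constSeq (t z m) - constSeq (t z m) * R a m) ∈ K := fun a ha z hz => by
    simp only [hK, Set.mem_union]
    left; left; right
    exact Set.mem_image2_of_mem ha hz
  have mAct : ∀ g, ∀ a ∈ U, (fun m => mapSeq (β g) (R a m) - R (actD g a) m) ∈ K := fun g a ha => by
    simp only [hK, Set.mem_union]
    left; right
    exact Set.mem_image2_of_mem (Set.mem_univ g) ha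
  have mSq : ∀ a ∈ U, sqFam (R a) ∈ K := fun a ha => by
    simp only [hK, Set.mem_union]
    right
    exact Set.mem_image_of_mem _ ha
  obtain ⟨i, hG⟩ := exists_good_reindex hω hKc
  have hrep : ∀ a : D, ∃ z : Ultrapower A ω, Rep ω id i z (R a) := fun a =>
    Rep.exists_of_bound id i (C := ‖(a : CentralSeq A ω)‖ + 1) fun m n => hRb a m n
  choose θ0 hθ0 using hrep
  have hcen : ∀ a ∈ U, θ0 a ∈
      StarSubalgebra.centralizer ℂ (Set.range fun a : A => qmk ω (constSeq a)) := fun a ha =>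
    mem_central_of_dense (denseRange_denseSeq A) (by
      rintro _ ⟨k, rfl⟩
      refine Rep.eq_of_qmk hG (mConst a ha _ (Set.mem_range_self k)) ((hθ0 a).mul (rep_constSeq _))
        ((rep_constSeq _).mul (hθ0 a)) fun m => ?_
      rw [map_mul, map_mul, hR]
      exact (Vale.Agent.P101.qmk_constSeq_comm _ _).eq)
  let g : U → CentralSeq A ω := fun a => ⟨θ0 a, hcen a a.2⟩
  obtain ⟨f, hfc, hfn, hfg⟩ := exists_linear_extend hUd dense_scalars (Set.mem_insert _ _) hUa hUs g
    (fun a b h => Subtype.ext (Rep.eq_of_qmk hG (mAdd a a.2 b b.2) ((hθ0 a).add (hθ0 b)) (hθ0 _)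
      fun m => by simp only [map_add, hR]; rfl).symm)
    (fun c hc a h => Subtype.ext (Rep.eq_of_qmk hG (mSmul c hc a a.2) ((hθ0 a).smul c) (hθ0 _)
      fun m => by
        rw [show qmk ω (c • R (a : D) m) = c • qmk ω (R (a : D) m) from rfl]
        simp only [hR]; rfl).symm)
    (fun a => (hθ0 a).norm_le hG (mR a a.2) fun ε hε => Eventually.of_forall fun m => by
        rw [hR]
        exact le_add_of_le_of_nonneg le_rfl hε.le)
  have hval : ∀ a : U, (f a : Ultrapower A ω) = θ0 a := fun a => by rw [hfg]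
  have hmulU : ∀ a b : U, f ((a : D) * b) = f a * f b := fun a b => by
    have hab : (a : D) * b ∈ U := hUm _ a.2 _ b.2
    refine Subtype.ext ?_
    show (f ((a : D) * b) : Ultrapower A ω) = (f a : Ultrapower A ω) * (f b : Ultrapower A ω)
    rw [hval ⟨_, hab⟩, hval, hval]
    symm
    exact Rep.eq_of_qmk hG (mMul a a.2 b b.2) ((hθ0 a).mul (hθ0 b)) (hθ0 _) fun m => by
      simp only [map_mul, hR]; rfl
  have hdr : DenseRange ((↑) : U → D) := hUd.denseRange_val
  have hfmul : ∀ x y, f (x * y) = f x * f y := fun x y =>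
    hdr.induction_on₂ (p := fun x y => f (x * y) = f x * f y)
      (isClosed_eq (by fun_prop) (by fun_prop)) hmulU x y
  have hfstar : ∀ x, f (star x) = star (f x) := fun x =>
    hdr.induction_on (p := fun x => f (star x) = star (f x)) x
      (isClosed_eq (by fun_prop) (by fun_prop)) fun a => Subtype.ext (by
      show (f (star (a : D)) : Ultrapower A ω) = star (f a : Ultrapower A ω)
      rw [hval ⟨_, hUstar _ a.2⟩, hval]
      symm
      exact Rep.eq_of_qmk hG (mStar a a.2) (hθ0 a).star (hθ0 _) fun m => by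
        rw [← Vale.Agent.P101.star_qmk, hR, hR]; rfl)
  have hf1 : f 1 = 1 := Subtype.ext (by
    show (f ((⟨1, hU1⟩ : U) : D) : Ultrapower A ω) = 1
    rw [hval]
    exact Rep.eq_of_qmk hG mOne (hθ0 _) Rep.one fun m => by rw [hR, map_one]; rfl)
  let φ : D →⋆ₐ[ℂ] CentralSeq A ω :=
    { toFun := f
      map_one' := hf1
      map_mul' := hfmul
      map_zero' := map_zero f
      map_add' := map_add f
      commutes' := fun c => by
        simp only [Algebra.algebraMap_eq_smul_one, map_smul, hf1]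
      map_star' := hfstar }
  refine ⟨φ, fun d z hz => ?_, fun g d h => ?_, fun d hd => ?_⟩
  · show f d * z = z * f d
    refine hdr.induction_on (p := fun d => f d * z = z * f d) d
      (isClosed_eq (by fun_prop) (by fun_prop)) fun a => Subtype.ext ?_
    show (f a : Ultrapower A ω) * (z : Ultrapower A ω) = (z : Ultrapower A ω) * (f a : Ultrapower A ω)
    rw [hval]
    have hz' : Rep ω id i (z : Ultrapower A ω) fun m => constSeq (t z m) :=
      ⟨t z, ht z, fun n => rfl⟩
    exact Rep.eq_of_qmk hG (mComm a a.2 z hz) ((hθ0 a).mul hz') (hz'.mul (hθ0 a)) fun m => by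
      rw [map_mul, map_mul, hR]
      exact (Vale.Agent.P101.qmk_constSeq_comm _ _).eq
  · show α g (f d) = f (actD g d)
    have hac : Continuous (actD g) :=
      ((continuous_act g).comp continuous_subtype_val).subtype_mk _
    refine hdr.induction_on (p := fun d => α g (f d) = f (actD g d)) d
      (isClosed_eq ((continuous_act g).comp hfc) (hfc.comp hac)) fun a => Subtype.ext ?_
    rw [hval ⟨_, hUg g _ a.2⟩]
    exact Rep.eq_of_qmk hG (mAct g a a.2) (rep_act hα g (z := f a) (by rw [hval]; exact hθ0 a))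
      (hθ0 _) fun m => by rw [qmk_mapSeq_eq hα g (hR a m), hR]
  · have hd' : d ∈ N := fun τ hτ => by simpa [Cong] using hd τ hτ
    have hcl := (isClosed_null D hT hfc).closure_subset_iff.2 (fun a ha τ hτ => ?_) (hN0d hd')
    · intro τ hτ
      rw [sub_zero]
      exact hcl τ hτ
    · have haU : a ∈ U := hU0 (Or.inr (Or.inr ha))
      exact tn_eq_zero_of_rep hG (mSq a haU) hT (z := f a) (by rw [hval ⟨a, haU⟩]; exact hθ0 a)
        (fun _ => (a : CentralSeq A ω)) (hR a) (fun ε hε => Eventually.of_forall fun m σ hσ =>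
          (hN0s ha σ hσ).le.trans hε.le) τ hτ

theorem saturated_diag_unitary (H : Subgroup G) (S : Set (CentralSeq A ω)) (hS : S.Countable)
    (u : ℕ → CentralSeq A ω) (hu : ∀ m, u m ∈ unitary (CentralSeq A ω))
    (hc : ∀ m, ∀ t ∈ S, Commute (u m) t)
    (hfix : ∀ g ∈ H, ∀ ε : ℝ, 0 < ε → ∀ᶠ m in atTop, ∀ τ ∈ limTraces A ω,
      tn τ (α g (u m) - u m) ≤ ε)
    (htr : ∀ t ∈ S, ∀ n : ℕ, n ≠ 0 → ∀ ε : ℝ, 0 < ε → ∀ᶠ m in atTop, ∀ τ ∈ limTraces A ω,
      ‖τ (t * u m ^ n)‖ ≤ ε) :
    ∃ v ∈ unitary (CentralSeq A ω), (∀ t ∈ S, Commute v t) ∧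
      (∀ g ∈ H, Cong (limTraces A ω) (α g v) v) ∧
      ∀ t ∈ S, ∀ n : ℕ, n ≠ 0 → ∀ τ ∈ limTraces A ω, τ (t * v ^ n) = 0 := by
  classical
  have hT := (sys_central hω h1 hmul hα).isTrace
  obtain ⟨R, hR, hRb⟩ : ∃ R : ℕ → BddSeq A, (∀ m, qmk ω (R m) = (u m : Ultrapower A ω)) ∧
      ∀ m n, ‖R m n‖ ≤ 2 := by
    choose r hr hrb using exists_rep_bound (A := A) (ω := ω)
    refine ⟨fun m => r (u m), fun m => hr _, fun m n => (hrb _ n).trans ?_⟩
    rw [CStarRing.norm_of_mem_unitary (hu m)]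
    norm_num
  choose t ht using exists_rep (A := A) (ω := ω)
  set F : Set (ℕ → BddSeq A) := {fun m => star (R m) * R m - 1, fun m => R m * star (R m) - 1} ∪
    (fun x => fun m => R m * constSeq x - constSeq x * R m) '' Set.range (denseSeq A) ∪
    (fun z => fun m => R m * t z - t z * R m) '' S ∪
    (fun g => sqFam fun m => mapSeq (β g) (R m) - R m) '' Set.univ ∪
    Set.image2 (fun z k => fun m => t z * R m ^ k) S (Set.univ : Set ℕ) with hF
  have hFc : F.Countable := by
    refine Set.Countable.union (Set.Countable.union (Set.Countable.union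
      (Set.Countable.union ?_ ?_) ?_) ?_) ?_
    · exact (Set.countable_singleton _).insert _
    · exact (Set.countable_range _).image _
    · exact hS.image _
    · exact Set.countable_univ.image _
    · exact hS.image2 Set.countable_univ _
  obtain ⟨L, hG⟩ := exists_good_diag hω hFc
  obtain ⟨v0, hv0⟩ : ∃ z : Ultrapower A ω, Rep ω L id z R := Rep.exists_of_bound L id hRb
  have hcen : v0 ∈ StarSubalgebra.centralizer ℂ (Set.range fun a : A => qmk ω (constSeq a)) :=
    mem_central_of_dense (denseRange_denseSeq A) (by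
      rintro _ ⟨k, rfl⟩
      refine Rep.eq_of_qmk hG ?_ (hv0.mul (rep_constSeq _)) ((rep_constSeq _).mul hv0) fun m => ?_
      · exact Or.inl (Or.inl (Or.inl (Or.inr ⟨_, Set.mem_range_self k, rfl⟩)))
      · rw [map_mul, map_mul, hR]
        exact (Vale.Agent.P101.qmk_constSeq_comm _ _).eq)
  let v : CentralSeq A ω := ⟨v0, hcen⟩
  have hv : Rep ω L id (v : Ultrapower A ω) R := hv0
  have htR : ∀ z : CentralSeq A ω, Rep ω L id (z : Ultrapower A ω) fun _ => t z := fun z =>
    ⟨t z, ht z, fun n => rfl⟩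
  refine ⟨v, Unitary.mem_iff.2 ⟨Subtype.ext ?_, Subtype.ext ?_⟩, fun z hz => Subtype.ext ?_,
    fun g hg => ?_, fun z hz k hk τ hτ => ?_⟩
  · show star v0 * v0 = 1
    refine Rep.eq_of_qmk hG ?_ (hv0.star.mul hv0) Rep.one fun m => ?_
    · exact Or.inl (Or.inl (Or.inl (Or.inl (Or.inl rfl))))
    · rw [map_mul, map_one, ← Vale.Agent.P101.star_qmk, hR]
      exact congrArg Subtype.val (Unitary.star_mul_self_of_mem (hu m))
  · show v0 * star v0 = 1
    refine Rep.eq_of_qmk hG ?_ (hv0.mul hv0.star) Rep.one fun m => ?_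
    · exact Or.inl (Or.inl (Or.inl (Or.inl (Or.inr rfl))))
    · rw [map_mul, map_one, ← Vale.Agent.P101.star_qmk, hR]
      exact congrArg Subtype.val (Unitary.mul_star_self_of_mem (hu m))
  · show v0 * (z : Ultrapower A ω) = (z : Ultrapower A ω) * v0
    refine Rep.eq_of_qmk hG ?_ (hv0.mul (htR z)) ((htR z).mul hv0) fun m => ?_
    · exact Or.inl (Or.inl (Or.inr (Set.mem_image_of_mem _ hz)))
    · rw [map_mul, map_mul, hR, ht]
      exact congrArg Subtype.val (hc m z hz).eq
  · exact tn_eq_zero_of_rep hG (z := α g v - v)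
      (Or.inl (Or.inr (Set.mem_image_of_mem _ (Set.mem_univ g)))) hT
      ((rep_act hα g (z := v) hv).sub hv) (fun m => α g (u m) - u m)
      (fun m => by rw [map_sub, qmk_mapSeq_eq hα g (hR m), hR]; rfl) (hfix g hg)
  · refine norm_le_zero_iff.1 (Rep.trace_le hG (z := z * v ^ k)
      (Or.inr (Set.mem_image2_of_mem hz (Set.mem_univ k))) ((htR z).mul (hv.pow k))
      (fun m => z * u m ^ k) (fun m => ?_) le_rfl (fun ε hε => ?_) τ hτ)
    · rw [map_mul, map_pow, ht, hR]; rfl
    · filter_upwards [htr z hz k hk ε hε] with m hm σ hσ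
      rw [zero_add]
      exact hm σ hσ

theorem saturated_diag_map (H : Subgroup G) (D : StarSubalgebra ℂ (CentralSeq A ω))
    (hsep : IsSeparable (D : Set (CentralSeq A ω))) (S : Set (CentralSeq A ω)) (hS : S.Countable)
    (Φ : ℕ → (D →ₗ[ℂ] CentralSeq A ω)) (hΦ1 : ∀ m, Φ m 1 = 1)
    (hΦn : ∀ m d, ‖Φ m d‖ ≤ ‖(d : CentralSeq A ω)‖)
    (hΦs : ∀ m d, Φ m (star d) = star (Φ m d)) (hΦc : ∀ m d, ∀ t ∈ S, Commute (Φ m d) t)
    (hΦm : ∀ d e, ∀ ε : ℝ, 0 < ε → ∀ᶠ m in atTop, ∀ τ ∈ limTraces A ω,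
      tn τ (Φ m (d * e) - Φ m d * Φ m e) ≤ ε)
    (hΦ0 : ∀ d : D, Cong (limTraces A ω) (d : CentralSeq A ω) 0 → ∀ ε : ℝ, 0 < ε →
      ∀ᶠ m in atTop, ∀ τ ∈ limTraces A ω, tn τ (Φ m d) ≤ ε)
    (hΦf : ∀ g ∈ H, ∀ d, ∀ ε : ℝ, 0 < ε → ∀ᶠ m in atTop, ∀ τ ∈ limTraces A ω,
      tn τ (α g (Φ m d) - Φ m d) ≤ ε) :
    ∃ Ψ : D →ₗ[ℂ] CentralSeq A ω, AbsMap (limTraces A ω) α H D S Ψ := by
  classical
  have hT := (sys_central hω h1 hmul hα).isTrace
  have : SeparableSpace D := hsep.separableSpace
  set N : Set D := {d | ∀ τ ∈ limTraces A ω, tn τ (d : CentralSeq A ω) = 0} with hN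
  obtain ⟨N0, hN0s, hN0c, hN0d⟩ := (IsSeparable.of_separableSpace N).exists_countable_dense_subset
  obtain ⟨U, hUc, hU0, hUa, hUm, hUo⟩ := exists_countable_closed
    (E := D) ({star} ∪ (fun c : ℂ => fun d : D => c • d) '' scalars)
    ((Set.countable_singleton _).union (countable_scalars.image _))
    (s := insert 1 (Set.range (denseSeq D) ∪ N0))
    (((Set.countable_range _).union hN0c).insert 1)
  have hU1 : (1 : D) ∈ U := hU0 (Set.mem_insert _ _)
  have hUd : Dense U :=
    Dense.mono (fun x hx => hU0 (Or.inr (Or.inl hx))) (denseRange_denseSeq D)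
  have hUstar : ∀ a ∈ U, star a ∈ U := hUo _ (Or.inl rfl)
  have hUs : ∀ c ∈ scalars, ∀ a ∈ U, c • a ∈ U := fun c hc =>
    hUo _ (Or.inr (Set.mem_image_of_mem _ hc))
  obtain ⟨R, hR, hRb⟩ : ∃ R : D → ℕ → BddSeq A,
      (∀ a m, qmk ω (R a m) = (Φ m a : Ultrapower A ω)) ∧
        ∀ a m n, ‖R a m n‖ ≤ ‖(a : CentralSeq A ω)‖ + 1 := by
    choose r hr hrb using exists_rep_bound (A := A) (ω := ω)
    exact ⟨fun a m => r (Φ m a), fun a m => hr _,
      fun a m n => (hrb _ n).trans (by linarith [hΦn m a])⟩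
  choose t ht using exists_rep (A := A) (ω := ω)
  set K1 : Set (ℕ → BddSeq A) := R '' U with hK1
  set K2 := Set.image2 (fun a b => fun m => R a m + R b m - R (a + b) m) U U with hK2
  set K3 := Set.image2 (fun a b => sqFam fun m => R (a * b) m - R a m * R b m) U U with hK3
  set K4 := (fun a => fun m => star (R a m) - R (star a) m) '' U with hK4
  set K5 := Set.image2 (fun c a => fun m => c • R a m - R (c • a) m) scalars U with hK5
  set K6 : Set (ℕ → BddSeq A) := {fun m => R 1 m - 1} with hK6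
  set K7 := Set.image2 (fun a x => fun m => R a m * constSeq x - constSeq x * R a m)
      U (Set.range (denseSeq A)) with hK7
  set K8 := Set.image2 (fun a z => fun m => R a m * t z - t z * R a m) U S with hK8
  set K9 := Set.image2 (fun g a => sqFam fun m => mapSeq (β g) (R a m) - R a m) Set.univ U with hK9
  set K10 := (fun a => sqFam (R a)) '' U with hK10
  have hKc : (⋃₀ ({K1, K2, K3, K4, K5, K6, K7, K8, K9, K10} : Set (Set (ℕ → BddSeq A)))).Countable := by
    refine (Set.toFinite _).countable.sUnion ?_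
    simp only [Set.mem_insert_iff, Set.mem_singleton_iff]
    rintro s (rfl | rfl | rfl | rfl | rfl | rfl | rfl | rfl | rfl | rfl)
    exacts [hUc.image _, hUc.image2 hUc _, hUc.image2 hUc _, hUc.image _,
      countable_scalars.image2 hUc _, Set.countable_singleton _,
      hUc.image2 (Set.countable_range _) _, hUc.image2 hS _, Set.countable_univ.image2 hUc _,
      hUc.image _]
  obtain ⟨L, hG⟩ := exists_good_diag hω hKc
  choose θ0 hθ0 using fun a : D =>
    Rep.exists_of_bound (ω := ω) L id (X := R a) (fun m n => hRb a m n)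
  have hcen : ∀ a ∈ U, θ0 a ∈
      StarSubalgebra.centralizer ℂ (Set.range fun a : A => qmk ω (constSeq a)) := fun a ha =>
    mem_central_of_dense (denseRange_denseSeq A) (by
      rintro _ ⟨k, rfl⟩
      refine Rep.eq_of_qmk hG ⟨K7, by simp, Set.mem_image2_of_mem ha (Set.mem_range_self k)⟩
        ((hθ0 a).mul (rep_constSeq _)) ((rep_constSeq _).mul (hθ0 a)) fun m => ?_
      rw [map_mul, map_mul, hR]
      exact (Vale.Agent.P101.qmk_constSeq_comm _ _).eq)
  let g : U → CentralSeq A ω := fun a => ⟨θ0 a, hcen a a.2⟩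
  obtain ⟨f, hfc, hfn, hfg⟩ := exists_linear_extend hUd dense_scalars (Set.mem_insert _ _) hUa hUs g
    (fun a b h => Subtype.ext (Rep.eq_of_qmk hG ⟨K2, by simp, Set.mem_image2_of_mem a.2 b.2⟩
      ((hθ0 a).add (hθ0 b)) (hθ0 _) fun m => by simp only [map_add, hR]; rfl).symm)
    (fun c hc a h => Subtype.ext (Rep.eq_of_qmk hG ⟨K5, by simp, Set.mem_image2_of_mem hc a.2⟩
      ((hθ0 a).smul c) (hθ0 _) fun m => by
        rw [show qmk ω (c • R (a : D) m) = c • qmk ω (R (a : D) m) from rfl]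
        simp only [hR, map_smul]; rfl).symm)
    (fun a => (hθ0 a).norm_le hG ⟨K1, by simp, Set.mem_image_of_mem _ a.2⟩ fun ε hε =>
      Eventually.of_forall fun m => by
        rw [hR]
        exact (hΦn m a).trans (le_add_of_nonneg_right hε.le))
  have hval : ∀ a : U, (f a : Ultrapower A ω) = θ0 a := fun a => by rw [hfg]
  have hdr : DenseRange ((↑) : U → D) := hUd.denseRange_val
  refine ⟨f, ?_, hfn, ?_, ?_, ?_, ?_, ?_⟩
  · refine Subtype.ext ?_
    show (f ((⟨1, hU1⟩ : U) : D) : Ultrapower A ω) = 1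
    rw [hval]
    exact Rep.eq_of_qmk hG ⟨K6, by simp, rfl⟩ (hθ0 _) Rep.one fun m => by
      rw [hR, hΦ1, map_one]; rfl
  · intro d
    refine hdr.induction_on (p := fun x => f (star x) = star (f x)) d
      (isClosed_eq (by fun_prop) (by fun_prop)) fun a => Subtype.ext ?_
    show (f (star (a : D)) : Ultrapower A ω) = star (f a : Ultrapower A ω)
    rw [hval ⟨_, hUstar _ a.2⟩, hval]
    symm
    exact Rep.eq_of_qmk hG ⟨K4, by simp, Set.mem_image_of_mem _ a.2⟩ (hθ0 a).star (hθ0 _) fun m => by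
      rw [← Vale.Agent.P101.star_qmk, hR, hR, hΦs]; rfl
  · intro d z hz
    show f d * z = z * f d
    refine hdr.induction_on (p := fun d => f d * z = z * f d) d
      (isClosed_eq (by fun_prop) (by fun_prop)) fun a => Subtype.ext ?_
    show (f a : Ultrapower A ω) * (z : Ultrapower A ω) = (z : Ultrapower A ω) * (f a : Ultrapower A ω)
    rw [hval]
    have hz' : Rep ω L id (z : Ultrapower A ω) fun _ => t z := ⟨t z, ht z, fun n => rfl⟩
    exact Rep.eq_of_qmk hG ⟨K8, by simp, Set.mem_image2_of_mem a.2 hz⟩ ((hθ0 a).mul hz')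
      (hz'.mul (hθ0 a)) fun m => by
      rw [map_mul, map_mul, hR, ht]
      exact congrArg Subtype.val (hΦc m a z hz).eq
  · intro d e τ hτ
    refine hdr.induction_on₂ (p := fun d e => tn τ (f (d * e) - f d * f e) = 0)
      (isClosed_eq ((continuous_tn (hT τ hτ)).comp (by fun_prop)) continuous_const) (fun a b => ?_) d e
    have hab : (a : D) * b ∈ U := hUm _ a.2 _ b.2
    refine tn_eq_zero_of_rep hG ⟨K3, by simp, Set.mem_image2_of_mem a.2 b.2⟩ hT
      (z := f ((a : D) * b) - f a * f b) ?_ (fun m => Φ m ((a : D) * b) - Φ m a * Φ m b)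
      (fun m => by rw [map_sub, map_mul, hR, hR, hR]; rfl) (hΦm a b) τ hτ
    show Rep ω L id ((f ((a : D) * b) : Ultrapower A ω) - (f a : Ultrapower A ω) * (f b : Ultrapower A ω)) _
    rw [hval ⟨_, hab⟩, hval, hval]
    exact (hθ0 _).sub ((hθ0 a).mul (hθ0 b))
  · intro d hd
    have hd' : d ∈ N := fun τ hτ => by simpa [Cong] using hd τ hτ
    have hcl := (isClosed_null D hT hfc).closure_subset_iff.2 (fun a ha τ hτ => ?_) (hN0d hd')
    · intro τ hτ
      rw [sub_zero]
      exact hcl τ hτ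
    · have haU : a ∈ U := hU0 (Or.inr (Or.inr ha))
      exact tn_eq_zero_of_rep hG ⟨K10, by simp, Set.mem_image_of_mem _ haU⟩ hT (z := f a)
        (by rw [hval ⟨a, haU⟩]; exact hθ0 a) (fun m => Φ m a) (hR a)
        (hΦ0 a fun σ hσ => by rw [sub_zero]; exact hN0s ha σ hσ) τ hτ
  · intro k hk d τ hτ
    refine hdr.induction_on (p := fun d => tn τ (α k (f d) - f d) = 0) d
      (isClosed_eq ((continuous_tn (hT τ hτ)).comp
        (((continuous_act k).comp hfc).sub hfc)) continuous_const) fun a => ?_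
    have ha : Rep ω L id (f a : Ultrapower A ω) (R a) := by rw [hval]; exact hθ0 a
    exact tn_eq_zero_of_rep hG ⟨K9, by simp, Set.mem_image2_of_mem (Set.mem_univ k) a.2⟩ hT
      (z := α k (f a) - f a) ((rep_act hα k (z := f a) ha).sub ha)
      (fun m => α k (Φ m a) - Φ m a)
      (fun m => by rw [map_sub, qmk_mapSeq_eq hα k (hR a m), hR]; rfl) (hΦf k hk a) τ hτ

theorem saturated_central : Saturated (limTraces A ω) α where
  copies D _ hsep hinv S hS := saturated_copies hω h1 hmul hα D hsep hinv S hS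
  diag_unitary H S hS u := saturated_diag_unitary hω h1 hmul hα H S hS u
  diag_map H D _ hsep S hS Φ := saturated_diag_map hω h1 hmul hα H D hsep S hS Φ

end Main

end

end Vale.Agent.P095.Amenable
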