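import Mathlib

/-!
# The scale lemma for weights needing only a Folner set

`M` is a Gram matrix of unit vectors indexed by a finite type. At the scale `K = Q ^ (2 j)` the
averaged power of `M g h` is, up to `2 / Q`, one or zero for all but few `j`, and is then an
equivalence relation. With the weights `(∑ h in B, |R g h|) ^ (-1/2)` the quadratic form is `|B|`
and the difference for `B ⊆ B'` is at most `|B'| - |B|`.
-/

open Finset
open scoped ComplexConjugate

namespace Vale.Agent.P095.Amenable.Scale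

/-- The average of the first `K` powers. -/
noncomputable def powAvg (z : ℂ) (K : ℕ) : ℂ := (K : ℂ)⁻¹ * ∑ k ∈ range K, z ^ (k + 1)

variable {ι : Type*} [Fintype ι] [DecidableEq ι]

/-- The weight of `g` for the set `B`, zero outside `B`. -/
noncomputable def wt (M : ι → ι → ℂ) (K : ℕ) (B : Finset ι) (g : ι) : ℝ :=
  if g ∈ B then (Real.sqrt (∑ h ∈ B, ‖powAvg (M g h) K‖))⁻¹ else 0

/-- The quadratic form of real weights at one scale. -/
noncomputable def form (M : ι → ι → ℂ) (K : ℕ) (x : ι → ℝ) : ℝ :=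
  ∑ g, ∑ h, x g * x h * (powAvg (M g h) K).re

lemma norm_powAvg_le {z : ℂ} (hz : ‖z‖ ≤ 1) (K : ℕ) : ‖powAvg z K‖ ≤ 1 := by
  rcases Nat.eq_zero_or_pos K with rfl | hK
  · simp [powAvg]
  rw [powAvg, norm_mul, norm_inv, Complex.norm_natCast, inv_mul_le_iff₀ (by positivity), mul_one]
  refine (norm_sum_le _ _).trans ?_
  refine (sum_le_card_nsmul _ _ 1 fun k _ => ?_).trans (by simp)
  rw [norm_pow]
  exact pow_le_one₀ (norm_nonneg z) hz

lemma powAvg_one {K : ℕ} (hK : 0 < K) : powAvg 1 K = 1 := by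
  have : (K : ℂ) ≠ 0 := by exact_mod_cast hK.ne'
  simp [powAvg, this]

/-- Near one all powers are near one. -/
lemma powAvg_near_one {z : ℂ} (hz : ‖z‖ ≤ 1) {K : ℕ} (hK : 0 < K) :
    ‖powAvg z K - 1‖ ≤ K * ‖1 - z‖ := by
  have hKC : (K : ℂ) ≠ 0 := by exact_mod_cast hK.ne'
  have h1 : powAvg z K - 1 = (K : ℂ)⁻¹ * ∑ k ∈ range K, (z ^ (k + 1) - 1) := by
    rw [sum_sub_distrib, mul_sub, powAvg]
    simp [hKC]
  rw [h1, norm_mul, norm_inv, Complex.norm_natCast, inv_mul_le_iff₀ (by positivity)]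
  refine (norm_sum_le _ _).trans ?_
  refine (sum_le_card_nsmul _ _ ((K : ℝ) * ‖1 - z‖) fun k hk => ?_).trans (by simp)
  have h2 : z ^ (k + 1) - 1 = (∑ i ∈ range (k + 1), z ^ i) * (z - 1) := (geom_sum_mul z _).symm
  rw [h2, norm_mul, norm_sub_rev z 1]
  refine mul_le_mul_of_nonneg_right ?_ (norm_nonneg _)
  refine (norm_sum_le _ _).trans ((sum_le_card_nsmul _ _ 1 fun i _ => ?_).trans ?_)
  · rw [norm_pow]; exact pow_le_one₀ (norm_nonneg z) hz
  · rw [card_range, nsmul_eq_mul, mul_one]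
    exact_mod_cast mem_range.1 hk

/-- Far from one the powers average out. -/
lemma powAvg_far {z : ℂ} (hz : ‖z‖ ≤ 1) (K : ℕ) : K * ‖1 - z‖ * ‖powAvg z K‖ ≤ 2 := by
  rcases Nat.eq_zero_or_pos K with rfl | hK
  · simp
  have hKC : (K : ℂ) ≠ 0 := by exact_mod_cast hK.ne'
  have h1 : (K : ℂ) * (1 - z) * powAvg z K = z * (1 - z ^ K) := by
    rw [powAvg]
    field_simp
    rw [← mul_neg_geom_sum z K]
    simp only [pow_succ', ← mul_sum]
    ring
  calc (K : ℝ) * ‖1 - z‖ * ‖powAvg z K‖ = ‖z * (1 - z ^ K)‖ := by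
        rw [← h1, norm_mul, norm_mul, Complex.norm_natCast]
    _ ≤ 1 * 2 := by
        rw [norm_mul]
        refine mul_le_mul hz ((norm_sub_le _ _).trans ?_) (norm_nonneg _) zero_le_one
        rw [norm_one, norm_pow]
        linarith [pow_le_one₀ (n := K) (norm_nonneg z) hz]
    _ = 2 := one_mul 2

/-- A scale is good when every entry is clearly near or clearly far from one. -/
def Good (M : ι → ι → ℂ) (Q : ℕ) (K : ℕ) : Prop :=
  ∀ g h, (Q : ℝ) * K * ‖1 - M g h‖ ≤ 1 ∨ (Q : ℝ) ≤ K * ‖1 - M g h‖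

lemma abs_inv_sqrt_sub {s m : ℝ} (hs : 1 ≤ s) (hm : 1 ≤ m) :
    |(Real.sqrt s)⁻¹ - (Real.sqrt m)⁻¹| ≤ |s - m| := by
  set a := Real.sqrt s with ha
  set b := Real.sqrt m with hb
  have ha1 : 1 ≤ a := Real.one_le_sqrt.2 hs
  have hb1 : 1 ≤ b := Real.one_le_sqrt.2 hm
  have hs' : s = a * a := (Real.mul_self_sqrt (by linarith)).symm
  have hm' : m = b * b := (Real.mul_self_sqrt (by linarith)).symm
  have hpos : 0 < a * b := by positivity
  rw [inv_sub_inv (by positivity) (by positivity), abs_div, abs_of_pos hpos,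
    div_le_iff₀ hpos, hs', hm', show a * a - b * b = (a - b) * (a + b) by ring, abs_mul,
    abs_of_nonneg (by linarith : 0 ≤ a + b), abs_sub_comm b a, mul_assoc]
  refine le_mul_of_one_le_right (abs_nonneg _) ?_
  exact one_le_mul_of_one_le_of_one_le (by linarith) (one_le_mul_of_one_le_of_one_le ha1 hb1)

section Gram

variable {H : Type*} [NormedAddCommGroup H] [InnerProductSpace ℂ H] {v : ι → H}
  {M : ι → ι → ℂ} (hv : ∀ g, ‖v g‖ = 1) (hM : ∀ g h, M g h = inner ℂ (v g) (v h))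

include hv hM

omit [Fintype ι] [DecidableEq ι] in
lemma norm_entry_le (g h : ι) : ‖M g h‖ ≤ 1 := by
  rw [hM]
  refine (norm_inner_le_norm _ _).trans (le_of_eq ?_)
  rw [hv, hv, mul_one]

omit [Fintype ι] [DecidableEq ι] in
lemma entry_self (g : ι) : M g g = 1 := by
  rw [hM, inner_self_eq_norm_sq_to_K, hv]
  simp

omit [Fintype ι] [DecidableEq ι] hv in
lemma norm_one_sub_symm (g h : ι) : ‖1 - M g h‖ = ‖1 - M h g‖ := by
  rw [← Complex.norm_conj, map_sub, map_one, hM g h, hM h g, inner_conj_symm]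

omit [Fintype ι] [DecidableEq ι] in
lemma norm_one_sub_trans (g h k : ι) : ‖1 - M g k‖ ≤ 2 * ‖1 - M g h‖ + 2 * ‖1 - M h k‖ := by
  have he : inner ℂ (v g - v h) (v h - v k) = (1 - M g k) - (1 - M g h) - (1 - M h k) := by
    simp only [inner_sub_left, inner_sub_right, ← hM, entry_self hv hM]
    ring
  have hd : ∀ a b, ‖v a - v b‖ ^ 2 ≤ 2 * ‖1 - M a b‖ := fun a b => by
    rw [norm_sub_sq (𝕜 := ℂ), hv, hv, ← hM]
    have := Complex.re_le_norm (1 - M a b)
    simp only [Complex.sub_re, Complex.one_re] at this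
    change (1 : ℝ) ^ 2 - 2 * (M a b).re + 1 ^ 2 ≤ _
    linarith
  have h1 := norm_inner_le_norm (𝕜 := ℂ) (v g - v h) (v h - v k)
  rw [he] at h1
  have h2 := two_mul_le_add_sq ‖v g - v h‖ ‖v h - v k‖
  have h3 : ‖1 - M g k‖ ≤
      ‖(1 - M g k) - (1 - M g h) - (1 - M h k)‖ + ‖1 - M g h‖ + ‖1 - M h k‖ := by
    refine le_of_eq_of_le ?_ (norm_add₃_le)
    congr 1
    ring
  linarith [hd g h, hd h k]

omit [Fintype ι] [DecidableEq ι] in
/-- At a good scale the averaged powers are an equivalence relation, up to `2 / Q`. -/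
lemma good_relation {Q K : ℕ} (hQ : 3 ≤ Q) (hK : 0 < K) (hg : Good M Q K) :
    ∃ r : ι → ι → Prop, Equivalence r ∧
      ∀ g h, (r g h → ‖powAvg (M g h) K - 1‖ ≤ 2 / Q) ∧ (¬ r g h → ‖powAvg (M g h) K‖ ≤ 2 / Q) := by
  have hQr : (3 : ℝ) ≤ Q := by exact_mod_cast hQ
  have hQ0 : (0 : ℝ) < Q := by linarith
  refine ⟨fun g h => (Q : ℝ) * K * ‖1 - M g h‖ ≤ 1,
    ⟨fun g => by simp [entry_self hv hM], fun {g h} e => by rwa [norm_one_sub_symm hM],
      fun {g h k} e1 e2 => ?_⟩, fun g h => ⟨fun e => ?_, fun e => ?_⟩⟩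
  · rcases hg g k with h1 | h1
    · exact h1
    · exfalso
      have h2 := mul_le_mul_of_nonneg_left (norm_one_sub_trans hv hM g h k)
        (show (0 : ℝ) ≤ Q * K by positivity)
      have h3 : (Q : ℝ) * Q ≤ Q * (K * ‖1 - M g k‖) := mul_le_mul_of_nonneg_left h1 hQ0.le
      nlinarith
  · refine (powAvg_near_one (norm_entry_le hv hM g h) hK).trans ?_
    rw [le_div_iff₀ hQ0]
    linarith
  · have h1 := (hg g h).resolve_left e
    have h2 := powAvg_far (norm_entry_le hv hM g h) K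
    rw [le_div_iff₀ hQ0]
    calc ‖powAvg (M g h) K‖ * Q ≤ ‖powAvg (M g h) K‖ * (K * ‖1 - M g h‖) :=
          mul_le_mul_of_nonneg_left h1 (norm_nonneg _)
      _ ≤ 2 := by linarith

omit [Fintype ι] [DecidableEq ι] in
lemma one_le_rowSum {K : ℕ} (hK : 0 < K) {B : Finset ι} {g : ι} (hg : g ∈ B) :
    1 ≤ ∑ h ∈ B, ‖powAvg (M g h) K‖ := by
  refine le_trans ?_ (single_le_sum (fun h _ => norm_nonneg _) hg)
  rw [entry_self hv hM, powAvg_one hK, norm_one]

omit [Fintype ι] in
lemma abs_wt_le {K : ℕ} (hK : 0 < K) (B : Finset ι) (g : ι) : |wt M K B g| ≤ 1 := by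
  unfold wt
  split_ifs with hg
  · rw [abs_inv, abs_of_nonneg (Real.sqrt_nonneg _)]
    exact inv_le_one_of_one_le₀ (Real.one_le_sqrt.2 (one_le_rowSum hv hM hK hg))
  · simp

omit [DecidableEq ι] in
lemma abs_form_le {K : ℕ} {x : ι → ℝ} {A : ℝ} (hA : 0 ≤ A) (hx : ∀ g, |x g| ≤ A) :
    |form M K x| ≤ A ^ 2 * (Fintype.card ι : ℝ) ^ 2 := by
  refine (abs_sum_le_sum_abs _ _).trans ?_
  refine (sum_le_card_nsmul _ _ (A ^ 2 * (Fintype.card ι : ℝ)) fun g _ => ?_).trans
    (le_of_eq (by simp; ring))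
  refine (abs_sum_le_sum_abs _ _).trans ?_
  refine (sum_le_card_nsmul _ _ (A ^ 2) fun h _ => ?_).trans (le_of_eq (by simp; ring))
  rw [abs_mul, abs_mul]
  calc |x g| * |x h| * |(powAvg (M g h) K).re| ≤ A * A * 1 := by
        gcongr
        · exact hx g
        · exact hx h
        · exact (Complex.abs_re_le_norm _).trans (norm_powAvg_le (norm_entry_le hv hM g h) K)
    _ = _ := by ring

open Classical in
/-- At a good scale both quantities have the values of the equivalence relation. -/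
theorem good_scale {Q K : ℕ} (hQ : 3 ≤ Q) (hK : 0 < K) (hg : Good M Q K) {B B' : Finset ι}
    (hBB : B ⊆ B') :
    (B.card : ℝ) - 24 * (Fintype.card ι : ℝ) ^ 3 / Q ≤ form M K (wt M K B) ∧
      form M K (fun g => wt M K B g - wt M K B' g) ≤
        (B'.card : ℝ) - B.card + 96 * (Fintype.card ι : ℝ) ^ 3 / Q := by
  obtain ⟨r, hr, happ⟩ := good_relation hv hM hQ hK hg
  have hQr : (3 : ℝ) ≤ Q := by exact_mod_cast hQ
  set n : ℝ := (Fintype.card ι : ℝ) with hn
  have hn0 : 0 ≤ n := by positivity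
  set δ : ℝ := 2 / Q with hδ
  have hδ0 : 0 ≤ δ := by positivity
  set E : ι → ι → ℝ := fun g h => if r g h then 1 else 0 with hE
  have hre : ∀ g h, |(powAvg (M g h) K).re - E g h| ≤ δ := fun g h => by
    by_cases e : r g h
    · have := (Complex.abs_re_le_norm (powAvg (M g h) K - 1)).trans ((happ g h).1 e)
      simpa [hE, e] using this
    · have := (Complex.abs_re_le_norm (powAvg (M g h) K)).trans ((happ g h).2 e)
      simpa [hE, e] using this
  have habs : ∀ g h, |‖powAvg (M g h) K‖ - E g h| ≤ δ := fun g h => by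
    by_cases e : r g h
    · have := (abs_norm_sub_norm_le (powAvg (M g h) K) 1).trans ((happ g h).1 e)
      simpa [hE, e] using this
    · have := (happ g h).2 e
      simpa [hE, e] using this
  set cnt : Finset ι → ι → ℝ := fun C g => ∑ h ∈ C, E g h with hcnt
  set w0 : Finset ι → ι → ℝ := fun C g => if g ∈ C then (Real.sqrt (cnt C g))⁻¹ else 0 with hw0
  have hcnt1 : ∀ C g, g ∈ C → 1 ≤ cnt C g := fun C g hgC => by
    refine le_trans ?_ (single_le_sum (fun h _ => by simp [hE]; split_ifs <;> simp) hgC)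
    simp [hE, hr.refl g]
  have hcntpos : ∀ C g, g ∈ C → 0 < Real.sqrt (cnt C g) := fun C g h =>
    Real.sqrt_pos.2 (zero_lt_one.trans_le (hcnt1 C g h))
  have hw0le : ∀ C g, |w0 C g| ≤ 1 := fun C g => by
    simp only [hw0]
    split_ifs with h
    · rw [abs_inv, abs_of_nonneg (Real.sqrt_nonneg _)]
      exact inv_le_one_of_one_le₀ (Real.one_le_sqrt.2 (hcnt1 C g h))
    · simp
  have hwapp : ∀ C g, |wt M K C g - w0 C g| ≤ n * δ := fun C g => by
    simp only [wt, hw0]
    split_ifs with h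
    · refine (abs_inv_sqrt_sub (one_le_rowSum hv hM hK h) (hcnt1 C g h)).trans ?_
      rw [hcnt, ← sum_sub_distrib]
      refine (abs_sum_le_sum_abs _ _).trans ?_
      refine (sum_le_card_nsmul _ _ δ fun k _ => habs g k).trans ?_
      rw [nsmul_eq_mul, hn]
      exact mul_le_mul_of_nonneg_right (by exact_mod_cast card_le_univ C) hδ0
    · simpa using mul_nonneg hn0 hδ0
  -- perturbation of the quadratic form
  have hpert : ∀ (A : ℝ) (x y : ι → ℝ), 1 ≤ A → (∀ g, |x g| ≤ A) → (∀ g, |y g| ≤ A) →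
      (∀ g, |x g - y g| ≤ A * (n * δ)) →
      |form M K x - ∑ g, ∑ h, y g * y h * E g h| ≤ A ^ 2 * (2 * n + 1) * δ * n ^ 2 := by
    intro A x y hA hx hy hxy
    simp only [form, ← sum_sub_distrib]
    refine (abs_sum_le_sum_abs _ _).trans ?_
    refine (sum_le_card_nsmul _ _ (A ^ 2 * (2 * n + 1) * δ * n) fun g _ => ?_).trans
      (le_of_eq (by simp [hn]; ring))
    refine (abs_sum_le_sum_abs _ _).trans ?_
    refine (sum_le_card_nsmul _ _ (A ^ 2 * (2 * n + 1) * δ) fun h _ => ?_).trans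
      (le_of_eq (by simp [hn]; ring))
    have hR : |(powAvg (M g h) K).re| ≤ 1 :=
      (Complex.abs_re_le_norm _).trans (norm_powAvg_le (norm_entry_le hv hM g h) K)
    have e1 : x g * x h * (powAvg (M g h) K).re - y g * y h * E g h =
        (x g - y g) * x h * (powAvg (M g h) K).re + y g * (x h - y h) * (powAvg (M g h) K).re
          + y g * y h * ((powAvg (M g h) K).re - E g h) := by ring
    rw [e1]
    refine (abs_add_three _ _ _).trans ?_
    simp only [abs_mul]
    have t1 : |x g - y g| * |x h| * |(powAvg (M g h) K).re| ≤ A * (n * δ) * A * 1 := by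
      gcongr
      · exact hxy g
      · exact hx h
    have t2 : |y g| * |x h - y h| * |(powAvg (M g h) K).re| ≤ A * (A * (n * δ)) * 1 := by
      gcongr
      · exact hy g
      · exact hxy h
    have t3 : |y g| * |y h| * |(powAvg (M g h) K).re - E g h| ≤ A * A * δ := by
      gcongr
      · exact hy g
      · exact hy h
      · exact hre g h
    linarith
  -- the values for the relation
  have hinner : ∀ C' g, ∑ h, w0 C' h * E g h = ∑ h ∈ C', (Real.sqrt (cnt C' g))⁻¹ * E g h :=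
      fun C' g => by
    rw [← sum_subset (subset_univ C') fun h _ hh => by simp [hw0, hh]]
    refine sum_congr rfl fun h hh => ?_
    by_cases e : r g h
    · simp only [hw0, if_pos hh]
      rw [show cnt C' h = cnt C' g from sum_congr rfl fun k _ => by
        simp only [hE]
        exact if_congr ⟨fun a => hr.trans e a, fun a => hr.trans (hr.symm e) a⟩ rfl rfl]
    · simp [hE, e]
  have hcross : ∀ C C', ∑ g, ∑ h, w0 C g * w0 C' h * E g h =
      ∑ g ∈ C, (Real.sqrt (cnt C g))⁻¹ * ((Real.sqrt (cnt C' g))⁻¹ * cnt C' g) := fun C C' => by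
    rw [← sum_subset (subset_univ C) fun g _ hg' => by simp [hw0, hg']]
    refine sum_congr rfl fun g hg' => ?_
    simp only [mul_assoc]
    rw [← mul_sum, hinner, ← mul_sum]
    simp [hw0, hg', hcnt]
  have hdiag : ∀ C, ∑ g, ∑ h, w0 C g * w0 C h * E g h = C.card := fun C => by
    rw [hcross, sum_congr rfl fun g hg' => ?_, sum_const, nsmul_eq_mul, mul_one]
    have := hcntpos C g hg'
    have h2 := Real.mul_self_sqrt (zero_le_one.trans (hcnt1 C g hg'))
    field_simp
    linarith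
  have hlow : (B.card : ℝ) ≤ ∑ g, ∑ h, w0 B g * w0 B' h * E g h := by
    rw [hcross, ← nsmul_one B.card]
    refine card_nsmul_le_sum _ _ _ fun g hg' => ?_
    have h1 := hcntpos B g hg'
    have h2 := hcntpos B' g (hBB hg')
    have h3 := Real.mul_self_sqrt (zero_le_one.trans (hcnt1 B' g (hBB hg')))
    have h4 : Real.sqrt (cnt B g) ≤ Real.sqrt (cnt B' g) :=
      Real.sqrt_le_sqrt (sum_le_sum_of_subset_of_nonneg hBB fun h _ _ => by
        simp [hE]; split_ifs <;> simp)
    have h5 : (Real.sqrt (cnt B' g))⁻¹ * cnt B' g = Real.sqrt (cnt B' g) := by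
      field_simp; linarith
    rw [h5, inv_mul_eq_div, one_le_div h1]
    exact h4
  have hsym : ∑ g, ∑ h, w0 B' g * w0 B h * E g h = ∑ g, ∑ h, w0 B g * w0 B' h * E g h := by
    rw [sum_comm]
    refine sum_congr rfl fun g _ => sum_congr rfl fun h _ => ?_
    simp only [hE]
    rw [if_congr ⟨fun a => hr.symm a, fun a => hr.symm a⟩ rfl rfl]
    ring
  have hbound : ∀ A : ℝ, 0 ≤ A → A * (2 * n + 1) * δ * n ^ 2 ≤ A * (24 * n ^ 3 / Q) := by
    intro A hA
    rw [mul_assoc A, mul_assoc A]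
    refine mul_le_mul_of_nonneg_left ?_ hA
    rcases Nat.eq_zero_or_pos (Fintype.card ι) with h0 | h0
    · simp [hn, h0]
    · have hn1 : 1 ≤ n := by rw [hn]; exact_mod_cast h0
      rw [hδ, show (2 * n + 1) * (2 / (Q : ℝ)) * n ^ 2 = (2 * n + 1) * 2 * n ^ 2 / Q by ring]
      refine div_le_div_of_nonneg_right ?_ (Nat.cast_nonneg Q)
      nlinarith [sq_nonneg n, mul_le_mul_of_nonneg_left hn1 (sq_nonneg n)]
  constructor
  · have h1 := hpert 1 (wt M K B) (w0 B) le_rfl (abs_wt_le hv hM hK B) (hw0le B)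
      (fun g => by rw [one_mul]; exact hwapp B g)
    rw [hdiag, one_pow] at h1
    have h2 := (abs_le.1 h1).1
    linarith [hbound 1 zero_le_one]
  · have hd : ∀ g, |(wt M K B g - wt M K B' g) - (w0 B g - w0 B' g)| ≤ 2 * (n * δ) := fun g => by
      rw [sub_sub_sub_comm]
      exact (abs_sub _ _).trans (by linarith [hwapp B g, hwapp B' g])
    have h1 := hpert 2 (fun g => wt M K B g - wt M K B' g) (fun g => w0 B g - w0 B' g) one_le_two
      (fun g => (abs_sub _ _).trans (by
        linarith [abs_wt_le hv hM hK B g, abs_wt_le hv hM hK B' g]))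
      (fun g => (abs_sub _ _).trans (by linarith [hw0le B g, hw0le B' g])) hd
    have hval : ∑ g, ∑ h, (w0 B g - w0 B' g) * (w0 B h - w0 B' h) * E g h ≤
        (B'.card : ℝ) - B.card := by
      have e : ∀ g h, (w0 B g - w0 B' g) * (w0 B h - w0 B' h) * E g h =
          w0 B g * w0 B h * E g h + w0 B' g * w0 B' h * E g h
            - w0 B g * w0 B' h * E g h - w0 B' g * w0 B h * E g h := fun g h => by ring
      simp only [e, sum_sub_distrib, sum_add_distrib, hdiag, hsym]
      linarith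
    have h2 := (abs_le.1 h1).2
    have h3 := hbound ((2 : ℝ) ^ 2) (by norm_num)
    have h4 : (2 : ℝ) ^ 2 * (24 * n ^ 3 / Q) = 96 * n ^ 3 / Q := by ring
    linarith

omit [Fintype ι] [DecidableEq ι] hv hM in
/-- At most one scale in a geometric sequence is bad for each entry. -/
lemma card_bad_le {Q : ℕ} (hQ : 3 ≤ Q) (J : ℕ) (x : ℝ) :
    ({j ∈ range J | ¬ ((Q : ℝ) * (Q ^ (2 * j) : ℕ) * x ≤ 1 ∨
      (Q : ℝ) ≤ (Q ^ (2 * j) : ℕ) * x)}).card ≤ 1 := by
  have hQ0 : (0 : ℝ) < Q := by positivity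
  refine card_le_one.2 fun i hi j hj => ?_
  simp only [mem_filter, not_or, not_le, Nat.cast_pow] at hi hj
  by_contra hne
  rcases lt_or_gt_of_ne hne with h | h
  · have hx : 0 < x := by
      by_contra hx
      nlinarith [hi.2.1, mul_nonneg (mul_nonneg hQ0.le (pow_nonneg hQ0.le (2 * i)))
        (neg_nonneg.2 (not_lt.1 hx))]
    have hp : (Q : ℝ) ^ (2 * i) * (Q * Q) ≤ (Q : ℝ) ^ (2 * j) := by
      rw [← sq, ← pow_add]
      exact pow_le_pow_right₀ (by exact_mod_cast (by omega : 1 ≤ Q)) (by omega)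
    nlinarith [hi.2.1, hj.2.2, mul_le_mul_of_nonneg_right hp hx.le,
      mul_lt_mul_of_pos_left hi.2.1 hQ0]
  · have hx : 0 < x := by
      by_contra hx
      nlinarith [hj.2.1, mul_nonneg (mul_nonneg hQ0.le (pow_nonneg hQ0.le (2 * j)))
        (neg_nonneg.2 (not_lt.1 hx))]
    have hp : (Q : ℝ) ^ (2 * j) * (Q * Q) ≤ (Q : ℝ) ^ (2 * i) := by
      rw [← sq, ← pow_add]
      exact pow_le_pow_right₀ (by exact_mod_cast (by omega : 1 ≤ Q)) (by omega)
    nlinarith [hj.2.1, hi.2.2, mul_le_mul_of_nonneg_right hp hx.le,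
      mul_lt_mul_of_pos_left hj.2.1 hQ0]

/-- The scale lemma: averaged over `J` scales, the quadratic form of the weights of `B` is `|B|`
and that of the difference to the weights of `B'` is at most `|B'| - |B|`, up to small errors. -/
theorem scale_lemma {Q J : ℕ} (hQ : 3 ≤ Q) {B B' : Finset ι} (hBB : B ⊆ B') :
    (J : ℝ) * B.card - (J * (24 * (Fintype.card ι : ℝ) ^ 3 / Q) + 2 * (Fintype.card ι : ℝ) ^ 4) ≤
        ∑ j ∈ range J, form M (Q ^ (2 * j)) (wt M (Q ^ (2 * j)) B) ∧
      ∑ j ∈ range J,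
          form M (Q ^ (2 * j)) (fun g => wt M (Q ^ (2 * j)) B g - wt M (Q ^ (2 * j)) B' g) ≤
        (J : ℝ) * ((B'.card : ℝ) - B.card)
          + (J * (96 * (Fintype.card ι : ℝ) ^ 3 / Q) + 4 * (Fintype.card ι : ℝ) ^ 4) := by
  classical
  set n : ℝ := (Fintype.card ι : ℝ) with hn
  set bad := {j ∈ range J | ¬ Good M Q (Q ^ (2 * j))} with hbad
  have hcard : (bad.card : ℝ) ≤ n ^ 2 := by
    have hsub : bad ⊆ (univ : Finset (ι × ι)).biUnion fun p => {j ∈ range J |
        ¬ ((Q : ℝ) * (Q ^ (2 * j) : ℕ) * ‖1 - M p.1 p.2‖ ≤ 1 ∨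
          (Q : ℝ) ≤ (Q ^ (2 * j) : ℕ) * ‖1 - M p.1 p.2‖)} := by
      intro j hj
      simp only [hbad, Good, mem_filter, not_forall] at hj
      obtain ⟨hj1, g, h, hgh⟩ := hj
      exact mem_biUnion.2 ⟨(g, h), mem_univ _, mem_filter.2 ⟨hj1, hgh⟩⟩
    have h1 := (card_le_card hsub).trans (card_biUnion_le.trans
      (sum_le_card_nsmul _ _ 1 fun p _ => card_bad_le hQ J _))
    rw [card_univ, Fintype.card_prod, smul_eq_mul, mul_one] at h1
    have h2 : (bad.card : ℝ) ≤ ((Fintype.card ι * Fintype.card ι : ℕ) : ℝ) := by exact_mod_cast h1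
    rw [hn, sq]
    exact_mod_cast h2
  have hpos : ∀ j, 0 < Q ^ (2 * j) := fun j => pow_pos (by omega) _
  have hn0 : 0 ≤ n := by positivity
  have hBn : (B.card : ℝ) ≤ n ∧ (B'.card : ℝ) ≤ n :=
    ⟨by rw [hn]; exact_mod_cast card_le_univ B, by rw [hn]; exact_mod_cast card_le_univ B'⟩
  have hBB' : (B.card : ℝ) ≤ B'.card := by exact_mod_cast card_le_card hBB
  have hn2 : n ≤ n ^ 2 := by
    rw [hn]; exact_mod_cast Nat.le_self_pow two_ne_zero _
  constructor
  · have hpt : ∀ j ∈ range J, (B.card : ℝ) - 24 * n ^ 3 / Q - (if j ∈ bad then 2 * n ^ 2 else 0)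
        ≤ form M (Q ^ (2 * j)) (wt M (Q ^ (2 * j)) B) := fun j hj => by
      split_ifs with hb
      · have h1 := (abs_le.1 (abs_form_le (K := Q ^ (2 * j)) hv hM zero_le_one
          (abs_wt_le hv hM (hpos j) B))).1
        rw [one_pow, one_mul] at h1
        have : 0 ≤ 24 * n ^ 3 / Q := by positivity
        linarith [hBn.1]
      · have hgood : Good M Q (Q ^ (2 * j)) := by
          by_contra hng
          exact hb (mem_filter.2 ⟨hj, hng⟩)
        linarith [(good_scale hv hM hQ (hpos j) hgood hBB).1]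
    refine le_trans ?_ (sum_le_sum hpt)
    rw [sum_sub_distrib, ← sum_filter, sum_const, sum_const, card_range, nsmul_eq_mul,
      nsmul_eq_mul, show {j ∈ range J | j ∈ bad} = bad from by
        ext j; simp [hbad]]
    have := mul_le_mul_of_nonneg_right hcard (show 0 ≤ 2 * n ^ 2 by positivity)
    linarith
  · have hpt : ∀ j ∈ range J,
        form M (Q ^ (2 * j)) (fun g => wt M (Q ^ (2 * j)) B g - wt M (Q ^ (2 * j)) B' g) ≤
          (B'.card : ℝ) - B.card + 96 * n ^ 3 / Q + (if j ∈ bad then 4 * n ^ 2 else 0) :=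
        fun j hj => by
      split_ifs with hb
      · have h1 := (abs_le.1 (abs_form_le (A := 2) (K := Q ^ (2 * j)) hv hM zero_le_two
          (x := fun g => wt M (Q ^ (2 * j)) B g - wt M (Q ^ (2 * j)) B' g)
          (fun g => (abs_sub _ _).trans (by
            linarith [abs_wt_le hv hM (hpos j) B g, abs_wt_le hv hM (hpos j) B' g])))).2
        have : 0 ≤ 96 * n ^ 3 / Q := by positivity
        rw [← hn] at h1
        linarith
      · have hgood : Good M Q (Q ^ (2 * j)) := by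
          by_contra hng
          exact hb (mem_filter.2 ⟨hj, hng⟩)
        linarith [(good_scale hv hM hQ (hpos j) hgood hBB).2]
    refine le_trans (sum_le_sum hpt) ?_
    rw [sum_add_distrib, ← sum_filter, sum_const, sum_const, card_range, nsmul_eq_mul,
      nsmul_eq_mul, show {j ∈ range J | j ∈ bad} = bad from by
        ext j; simp [hbad]]
    have := mul_le_mul_of_nonneg_right hcard (show 0 ≤ 4 * n ^ 2 by positivity)
    linarith

end Gram

end Vale.Agent.P095.Amenable.Scale
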