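import Vale.Agent.P101.Defs
import Vale.Agent.P095.Amenable.Trace

/-!
# Maps into the fixed tracial central sequence algebra, in terms of sequences
-/

open Filter Topology Vale.Agent.P101
open scoped Matrix.Norms.L2Operator

namespace Vale.Agent.P095.Amenable

noncomputable section

variable {A : Type} [CStarAlgebra A] (ω : Ultrafilter ℕ)

/-- A sequence tending to zero along `ω` in the two-norms of all tracial states, uniformly. -/
def TraceNull (a : ℕ → A) : Prop :=
  ∀ ε : ℝ, 0 < ε → ∀ᶠ n in (ω : Filter ℕ), ∀ τ : A →ₗ[ℂ] ℂ, IsTrace τ → tn τ (a n) ≤ ε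

/-- A sequence tending to zero in norm along `ω`. -/
def NormNull (a : ℕ → A) : Prop := Tendsto (fun n => ‖a n‖) ω (𝓝 0)

/-- Continuous functions on the interval with values in matrices. -/
abbrev DropFun (p q : ℕ) : Type := C(unitInterval, Matrix (Fin p × Fin q) (Fin p × Fin q) ℂ)

/-- The dimension drop algebra maps unitally into the central sequences of `A` fixed by `β`, modulo
sequences null in all traces. -/
def TracialMaps {G : Type} (β : G → A → A) (p q : ℕ) : Prop :=
  ∃ Φ : ℕ → DropFun p q → A,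
    (∀ f ∈ dimDropSet p q, ∀ n, ‖Φ n f‖ ≤ ‖f‖ + 1) ∧
    NormNull ω (fun n => Φ n 1 - 1) ∧
    (∀ f ∈ dimDropSet p q, ∀ h ∈ dimDropSet p q, ∀ c : ℂ,
      NormNull ω fun n => Φ n (c • f + h) - (c • Φ n f + Φ n h)) ∧
    (∀ f ∈ dimDropSet p q, NormNull ω fun n => Φ n (star f) - star (Φ n f)) ∧
    (∀ f ∈ dimDropSet p q, ∀ a : A, NormNull ω fun n => Φ n f * a - a * Φ n f) ∧
    (∀ f ∈ dimDropSet p q, ∀ h ∈ dimDropSet p q,
      TraceNull ω fun n => Φ n (f * h) - Φ n f * Φ n h) ∧
    ∀ g, ∀ f ∈ dimDropSet p q, TraceNull ω fun n => β g (Φ n f) - Φ n f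

end

end Vale.Agent.P095.Amenable
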