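import Vale.Agent.P101.Stage2
import Vale.Agent.P095.Amenable.Diag
import Vale.Agent.P095.Amenable.TracialDefs
import Vale.Agent.Results.P101.NoCharacters

/-!
# From absorption to sequences
-/

open Filter Topology TopologicalSpace Vale.Agent.P101
open scoped Matrix.Norms.L2Operator ComplexOrder

namespace Vale.Agent.P095.Amenable

noncomputable section

set_option synthInstance.maxHeartbeats 200000
set_option maxHeartbeats 1000000

variable {A : Type} [CStarAlgebra A] [Nontrivial A] {ω : Ultrafilter ℕ}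

/-- An element null for all limit traces is represented by sequences null in all traces. -/
theorem traceNull_of_cong {z w : CentralSeq A ω}
    {x : BddSeq A} (hx : qmk ω x = ((z - w : CentralSeq A ω) : Ultrapower A ω))
    (h : Cong (limTraces A ω) z w) {T' : Set (CentralSeq A ω →ₗ[ℂ] ℂ)}
    (hT' : T' = limTraces A ω) (hs : ∀ τ ∈ T', IsTrace τ) : TraceNull ω fun n => x n := by
  subst hT'
  intro ε hε
  set u := z - w
  have hxx : qmk ω (star x * x) = ((star u * u : CentralSeq A ω) : Ultrapower A ω) := by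
    rw [map_mul, ← Vale.Agent.P101.star_qmk, hx]; rfl
  have h0 : tbl ω (star x * x) ≤ 0 := tbl_le hxx le_rfl fun τ hτ =>
    ((hs τ hτ).norm_le u u).trans (by rw [h τ hτ, mul_zero])
  filter_upwards [(tendsto_tbl (star x * x)).eventually_le_const
    (lt_of_le_of_lt h0 (by positivity : (0 : ℝ) < ε ^ 2))] with n hn τ hτ
  have h1 : ‖τ (star (x n) * x n)‖ ≤ ε ^ 2 := (norm_le_tb hτ _).trans hn
  exact Real.sqrt_le_iff.2 ⟨hε.le, (Complex.re_le_norm _).trans h1⟩

/-- Absorption by the whole group gives maps of the prime dimension drop algebras. -/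
theorem tracialMaps_of_absorbs [SeparableSpace A] (hω : (ω : Filter ℕ) ≤ cofinite) {G : Type}
    [Group G] {β : G → (A ≃⋆ₐ[ℂ] A)} {α : G → (CentralSeq A ω ≃⋆ₐ[ℂ] CentralSeq A ω)}
    (hs : Sys (limTraces A ω) α) (hα : Induced A ω β α)
    (habs : Absorbs (limTraces A ω) α (⊤ : Subgroup G)) (hchar : NoCharacter A ω) {p q : ℕ}
    (hp : 2 ≤ p) (hq : 2 ≤ q) (hpq : Nat.Coprime p q) :
    TracialMaps ω (fun g a => β g a) p q := by
  classical
  obtain ⟨Ψ, hΨ⟩ := Vale.Agent.Results.P101.NoCharacters.exists_contractive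
    (reindex_centralSeq hω) hchar hp hq hpq
  have hc : Continuous Ψ := AddMonoidHomClass.continuous_of_bound Ψ 1 fun f => by
    rw [one_mul]; exact hΨ f
  obtain ⟨Φ₀, hΦ⟩ := habs (genAlg (Set.range Ψ)) (isClosed_genAlg _)
    (isSeparable_genAlg (isSeparable_range hc)) ∅ Set.countable_empty
  let Ψ' : dimDrop p q →⋆ₐ[ℂ] genAlg (Set.range Ψ) :=
    Ψ.codRestrict _ fun f => subset_genAlg _ ⟨f, rfl⟩
  let v : dimDrop p q → CentralSeq A ω := fun f => Φ₀ (Ψ' f)
  have hv : ∀ f : dimDrop p q, ‖v f‖ ≤ ‖(f : DropFun p q)‖ := fun f => (hΦ.norm_le _).trans (hΨ f)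
  choose r hr hrn using fun z : CentralSeq A ω => exists_rep_bound z
  let x : DropFun p q → BddSeq A := fun f =>
    if hf : f ∈ dimDropSet p q then r (v ⟨f, hf⟩) else 0
  have hx : ∀ (f : DropFun p q) (hf : f ∈ dimDropSet p q),
      qmk ω (x f) = ((v ⟨f, hf⟩ : CentralSeq A ω) : Ultrapower A ω) := fun f hf => by
    simp only [x, dif_pos hf, hr]
  have hnull : ∀ {a b : BddSeq A}, qmk ω a = qmk ω b → NormNull ω fun n => a n - b n :=
    fun h => (qmk_eq_iff ω).1 h
  refine ⟨fun n f => x f n, fun f hf n => ?_, ?_, fun f hf h hh c => ?_, fun f hf => ?_,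
    fun f hf a => ?_, fun f hf h hh => ?_, fun g f hf => ?_⟩
  · simp only [x, dif_pos hf]
    exact (hrn _ n).trans (by linarith [hv ⟨f, hf⟩])
  · refine hnull (a := x 1) (b := 1) ?_
    rw [hx 1 dimDropSet_one, map_one]
    show ((Φ₀ (Ψ' 1) : CentralSeq A ω) : Ultrapower A ω) = 1
    rw [map_one, hΦ.map_one]; rfl
  · refine hnull (a := x (c • f + h)) (b := c • x f + x h) ?_
    have hm : c • f + h ∈ dimDropSet p q :=
      (c • (⟨f, hf⟩ : dimDrop p q) + (⟨h, hh⟩ : dimDrop p q)).2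
    rw [hx _ hm, map_add, show qmk ω (c • x f) = c • qmk ω (x f) from rfl, hx f hf, hx h hh]
    show ((v (c • (⟨f, hf⟩ : dimDrop p q) + ⟨h, hh⟩) : CentralSeq A ω) : Ultrapower A ω) = _
    simp only [v, map_add, map_smul]
    rfl
  · refine hnull (a := x (star f)) (b := star (x f)) ?_
    rw [hx _ (dimDropSet_star hf), ← Vale.Agent.P101.star_qmk, hx f hf]
    show ((v (star (⟨f, hf⟩ : dimDrop p q)) : CentralSeq A ω) : Ultrapower A ω) = _
    simp only [v, map_star, hΦ.map_star]
    rfl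
  · refine hnull (a := x f * constSeq a) (b := constSeq a * x f) ?_
    rw [map_mul, map_mul, hx f hf]
    exact (((StarSubalgebra.mem_centralizer_iff ℂ).1 (v ⟨f, hf⟩).2 _ ⟨a, rfl⟩).1).symm
  · refine traceNull_of_cong (z := v (⟨f, hf⟩ * ⟨h, hh⟩)) (w := v ⟨f, hf⟩ * v ⟨h, hh⟩)
      (x := x (f * h) - x f * x h) ?_ ?_ rfl hs.isTrace
    · rw [map_sub, map_mul, hx f hf, hx h hh, hx _ (dimDropSet_mul hf hh)]
      rfl
    · simp only [v, map_mul]
      exact hΦ.map_mul _ _
  · let y : BddSeq A := BddSeq.mk (fun n => β g (x f n)) ‖x f‖ fun n =>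
      (NonUnitalStarAlgHom.norm_map (β g) (β g).injective (x f n)).trans_le
        ((x f).norm_apply_le n)
    refine traceNull_of_cong (z := α g (v ⟨f, hf⟩)) (w := v ⟨f, hf⟩) (x := y - x f) ?_
      (hΦ.fixed g (Subgroup.mem_top g) _) rfl hs.isTrace
    rw [map_sub, hα g _ (x f) y (hx f hf) fun _ => rfl, hx f hf]
    rfl

end

end Vale.Agent.P095.Amenable
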