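import Vale.Agent.P095.Amenable.AvgAlg
import Vale.Agent.P095.Amenable.Core
import Vale.Agent.P095.Amenable.Sites

/-!
# The entropy bound for signed site increments
-/

set_option linter.unusedSectionVars false

open scoped ComplexOrder
open Vale.Agent.P101 (genAlg isClosed_genAlg subset_genAlg genAlg_le)

namespace Vale.Agent.P095.Amenable

noncomputable section

variable {G : Type} [Group G] {F : Type*} [CStarAlgebra F] [PartialOrder F] [StarOrderedRing F]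
  {T : Set (F →ₗ[ℂ] ℂ)} {α : G → (F ≃⋆ₐ[ℂ] F)} {K : Subgroup G} {Q : Type} [Group Q]
  (π : K →* Q) (hπ : Function.Surjective π) {D : StarSubalgebra ℂ F}
  (hinv : ∀ g, ∀ d ∈ D, α g d ∈ D)

variable (α) in
/-- The signed sum of the sites of the elements `y i` at step `l`. -/
def stepFun (θ : ℕ → (D →⋆ₐ[ℂ] F)) (ρ : ℕ → F) {r : ℕ} (y : Fin r → D) (l : ℕ) (q : Q) : F :=
  ∑ i : Fin r, ρ (l * r + i) * site α π hπ hinv (θ l) (y i) q

/-- The algebra of the first `l` copies and the signs used before step `l`. -/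
def past (θ : ℕ → (D →⋆ₐ[ℂ] F)) (ρ : ℕ → F) (r l : ℕ) : StarSubalgebra ℂ F :=
  genAlg ({x | ∃ i, i < l ∧ ∃ d, θ i d = x} ∪ ρ '' {j | j < l * r})

theorem site_mem_past (θ : ℕ → (D →⋆ₐ[ℂ] F)) (ρ : ℕ → F) (r : ℕ) {l l' : ℕ} (hl : l < l') (d : D)
    (q : Q) : site α π hπ hinv (θ l) d q ∈ past θ ρ r l' :=
  subset_genAlg _ (Or.inl ⟨l, hl, _, rfl⟩)

theorem rho_mem_past (θ : ℕ → (D →⋆ₐ[ℂ] F)) (ρ : ℕ → F) (r : ℕ) {l j : ℕ} (hj : j < l * r) :
    ρ j ∈ past θ ρ r l :=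
  subset_genAlg _ (Or.inr ⟨j, hj, rfl⟩)

theorem index_lt {r l l' : ℕ} (hl : l < l') (i : Fin r) : l * r + i < l' * r :=
  calc l * r + i < l * r + r := by omega
    _ = (l + 1) * r := by ring
    _ ≤ l' * r := Nat.mul_le_mul_right r hl

variable (hD : IsClosed (D : Set F)) {θ : ℕ → (D →⋆ₐ[ℂ] F)}
  (hθθ : ∀ i j, i ≠ j → ∀ d e, Commute (θ i d) (θ j e)) {ρ : ℕ → F}
  (hρ : ∀ j, IsSelfAdjoint (ρ j) ∧ ‖ρ j‖ ≤ 2) (hρρ : ∀ i j, Commute (ρ i) (ρ j))
  (hρθ : ∀ j i d, Commute (ρ j) (θ i d))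
include hD hθθ hρ hρρ hρθ

theorem steps_stepFun {τ : F →ₗ[ℂ] ℂ} {r : ℕ} (y : Fin r → D)
    (hy : ∀ i, IsSelfAdjoint (y i : F))
    (hcent : ∀ i g (φ : D →⋆ₐ[ℂ] F) (X : F), (∀ d, Commute X (φ d)) →
      τ (X * φ ⟨α g (y i : F), hinv g _ (y i).2⟩) = 0)
    {s : Finset Q} (k : ℕ) :
    Steps τ s (stepFun α π hπ hinv θ ρ y) (past θ ρ r) (1 + 2 * ∑ i, ‖(y i : F)‖) k where
  closed _ := isClosed_genAlg _
  mono _ _ h := genAlg_le (isClosed_genAlg _) (by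
    rintro x (⟨i, hi, hx⟩ | ⟨j, hj, rfl⟩)
    · exact subset_genAlg _ (Or.inl ⟨i, hi.trans_le h, hx⟩)
    · exact subset_genAlg _ (Or.inr ⟨j, lt_of_lt_of_le hj (Nat.mul_le_mul_right _ h), rfl⟩))
  selfAdjoint l _ q _ := by
    rw [stepFun, isSelfAdjoint_iff, star_sum]
    refine Finset.sum_congr rfl fun i _ => ?_
    rw [star_mul, ← site_star, (hρ _).1.star_eq, show star (y i) = y i from Subtype.ext (hy i)]
    exact ((hρθ _ _ _).eq).symm
  norm_le l _ q _ := by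
    have h1 : ‖∑ i : Fin r, ρ (l * r + i) * site α π hπ hinv (θ l) (y i) q‖ ≤
        ∑ i, 2 * ‖(y i : F)‖ :=
      (norm_sum_le _ _).trans (Finset.sum_le_sum fun i _ => (norm_mul_le _ _).trans
        (mul_le_mul (hρ _).2 (norm_site_le α π hπ hinv (θ l) hD _ _) (norm_nonneg _) (by norm_num)))
    rw [← Finset.mul_sum] at h1
    rw [stepFun]
    linarith
  mem l _ q _ := sum_mem fun i _ => mul_mem
    (rho_mem_past θ ρ r (index_lt (Nat.lt_succ_self l) i))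
    (site_mem_past π hπ hinv θ ρ r (Nat.lt_succ_self l) _ _)
  commute l _ X hX q _ := by
    refine Commute.sum_right _ _ _ fun i _ => Commute.mul_right ?_ ?_
    · refine commute_genAlg (Y := {ρ (l * r + i)}) (fun y hy => ?_) ?_ hX
        (subset_genAlg _ rfl)
      · rw [Set.mem_singleton_iff] at hy ⊢
        rw [hy, (hρ _).1.star_eq]
      · rintro x (⟨i', -, d, rfl⟩ | ⟨j, -, rfl⟩) y rfl
        · exact (hρθ _ _ _).symm
        · exact hρρ _ _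
    · refine commute_genAlg (Y := Set.range (θ l)) (fun y hy => ?_) ?_ hX
        (subset_genAlg _ ⟨_, rfl⟩)
      · obtain ⟨d, rfl⟩ := hy
        exact ⟨star d, map_star _ _⟩
      · rintro x (⟨i', hi', d, rfl⟩ | ⟨j, -, rfl⟩) y ⟨e, rfl⟩
        · exact hθθ _ _ hi'.ne _ _
        · exact hρθ _ _ _
  centred l _ X hX q _ := by
    rw [stepFun, Finset.mul_sum, map_sum]
    refine Finset.sum_eq_zero fun i _ => ?_
    rw [← mul_assoc]
    refine hcent i _ (θ l) _ fun d => Commute.mul_left ?_ (hρθ _ _ _)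
    refine commute_genAlg (Y := Set.range (θ l)) (fun y hy => ?_) ?_ hX (subset_genAlg _ ⟨d, rfl⟩)
    · obtain ⟨e, rfl⟩ := hy
      exact ⟨star e, map_star _ _⟩
    · rintro x (⟨i', hi', e, rfl⟩ | ⟨j, -, rfl⟩) y ⟨e', rfl⟩
      · exact hθθ _ _ hi'.ne _ _
      · exact hρθ _ _ _

/-- The total defect of the sites of the `y i` over `k` steps. -/
theorem sum_site_defect_le {τ : F →ₗ[ℂ] ℂ} (hτ : IsTrace τ) {r : ℕ} (y : Fin r → D)
    (hy : ∀ i, IsSelfAdjoint (y i : F))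
    (hcent : ∀ i g (φ : D →⋆ₐ[ℂ] F) (X : F), (∀ d, Commute X (φ d)) →
      τ (X * φ ⟨α g (y i : F), hinv g _ (y i).2⟩) = 0)
    (hsig : ∀ l j, ∀ X ∈ genAlg ({x | ∃ i, i < l ∧ ∃ d, θ i d = x} ∪ ρ '' {i | i < j}),
      τ (X * ρ j) = 0 ∧ τ (X * (ρ j * ρ j)) = 2 * τ X)
    {s : Finset Q} {w : Q → ℝ} (hw : ∀ q ∈ s, 0 ≤ w q) {q₀ : Q} (hq₀ : q₀ ∈ s) (hone : 1 ≤ w q₀)
    {ε : ℝ} (hε0 : ε ≠ 0) (hε : |ε| * (1 + 2 * ∑ i, ‖(y i : F)‖) ≤ 1 / 8) {t : ℝ} (ht : 0 < t)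
    (ht1 : t ≤ 1) (k : ℕ) :
    2 * ∑ l ∈ Finset.range k, ∑ i,
        ((τ (avg s w ε (stepFun α π hπ hinv θ ρ y) l fun q =>
            site α π hπ hinv (θ l) (y i) q * site α π hπ hinv (θ l) (y i) q)).re -
          (τ (avg s w ε (stepFun α π hπ hinv θ ρ y) l (site α π hπ hinv (θ l) (y i)) *
            avg s w ε (stepFun α π hπ hinv θ ρ y) l (site α π hπ hinv (θ l) (y i)))).re) ≤
      2 * Real.log (∑ q ∈ s, w q ^ t) / (t * ε ^ 2)
        + 2 * k * (t * (1 + 2 * ∑ i, ‖(y i : F)‖) ^ 2)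
        + 100 * k * (|ε| * (1 + 2 * ∑ i, ‖(y i : F)‖) ^ 3) := by
  set f := stepFun α π hπ hinv θ ρ y with hf
  set S := fun l i => site α π hπ hinv (θ l) (y i) with hS
  have hsteps := steps_stepFun π hπ hinv hD hθθ hρ hρρ hρθ y hy hcent (s := s) k
  refine le_trans (le_of_eq ?_) (sum_defect_le hsteps hτ hw hq₀ hone hε0
    (by positivity) hε ht ht1)
  rw [Finset.mul_sum]
  refine Finset.sum_congr rfl fun l hl => ?_
  rw [Finset.mem_range] at hl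
  -- averages at step `l` lie in the algebra of the copies up to `l` and the signs before `l`
  set C := genAlg ({x | ∃ i, i < l + 1 ∧ ∃ d, θ i d = x} ∪ ρ '' {j | j < l * r}) with hC
  have hfC : ∀ i < l, ∀ q ∈ s, f i q ∈ C := fun i hi q _ => sum_mem fun j _ => mul_mem
    (subset_genAlg _ (Or.inr ⟨_, index_lt hi j, rfl⟩))
    (subset_genAlg _ (Or.inl ⟨i, by omega, _, rfl⟩))
  have hSC : ∀ i, ∀ q, S l i q ∈ C := fun i q =>
    subset_genAlg _ (Or.inl ⟨l, by omega, _, rfl⟩)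
  have hup : ∀ n, ∀ X ∈ C, X ∈ genAlg ({x | ∃ i, i < l + 1 ∧ ∃ d, θ i d = x} ∪
      ρ '' {j | j < l * r + n}) := fun n X hX => by
    refine genAlg_le (isClosed_genAlg _) ?_ hX
    rintro x (h | ⟨j, hj, rfl⟩)
    · exact subset_genAlg _ (Or.inl h)
    · exact subset_genAlg _ (Or.inr ⟨j, Nat.lt_of_lt_of_le hj (Nat.le_add_right _ _), rfl⟩)
  have hsq : ∀ i : Fin r, ∀ X ∈ C, τ (X * (ρ (l * r + i) * ρ (l * r + i))) = 2 * τ X :=
    fun i X hX => (hsig (l + 1) (l * r + i) X (hup i X hX)).2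
  have hoff : ∀ i j : Fin r, i ≠ j → ∀ X ∈ C, τ (X * (ρ (l * r + i) * ρ (l * r + j))) = 0 := by
    intro i j hij X hX
    rcases lt_or_gt_of_ne (fun e => hij (Fin.ext e) : (i : ℕ) ≠ j) with h | h
    · rw [← mul_assoc]
      exact (hsig (l + 1) (l * r + j) _ (mul_mem (hup j X hX)
        (subset_genAlg _ (Or.inr ⟨_, by simp only [Set.mem_ofPred_eq]; omega, rfl⟩)))).1
    · rw [(hρρ (l * r + i) (l * r + j)).eq, ← mul_assoc]
      exact (hsig (l + 1) (l * r + i) _ (mul_mem (hup i X hX)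
        (subset_genAlg _ (Or.inr ⟨_, by simp only [Set.mem_ofPred_eq]; omega, rfl⟩)))).1
  have hA : ∀ x : Q → F, (∀ q ∈ s, x q ∈ C) → avg s w ε f l x ∈ C :=
    fun x hx => avg_mem_of_closed (isClosed_genAlg _) hfC hx
  have hρf : ∀ i : Fin r, ∀ i' < l, ∀ q ∈ s, Commute (ρ (l * r + i)) (f i' q) :=
    fun i i' _ q _ => Commute.sum_right _ _ _ fun j _ =>
      Commute.mul_right (hρρ _ _) (hρθ _ _ _)
  rw [defect_signed τ (fun i : Fin r => ρ (l * r + i)) (S l) (fun q _ => rfl) hρf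
    (fun i j q _ => hρθ _ _ _)
    (fun i => hsq i _ (hA _ fun q _ => mul_mem (hSC i q) (hSC i q)))
    (fun i => hsq i _ (mul_mem (hA _ fun q _ => hSC i q) (hA _ fun q _ => hSC i q)))
    (fun i j h => hoff i j h _ (hA _ fun q _ => mul_mem (hSC i q) (hSC j q)))
    (fun i j h => hoff i j h _ (mul_mem (hA _ fun q _ => hSC i q) (hA _ fun q _ => hSC j q)))]

end

end Vale.Agent.P095.Amenable
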