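import Vale.Agent.P095.Amenable.Balls
import Vale.Agent.P095.Amenable.Bits
import Vale.Agent.P095.Amenable.Invariance
import Vale.Agent.P095.Amenable.Mult
import Vale.Agent.P095.Amenable.SiteSteps
import Vale.Agent.P095.Amenable.StepTools

/-!
# Almost multiplicative almost invariant averages

Gibbs averages over the sites of commuting copies, mixed over the steps by a selection, have small
defect on finitely many given self-adjoint elements and are almost invariant under the generators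
of the quotient.
-/

set_option linter.unusedSectionVars false

open TopologicalSpace
open scoped ComplexOrder
open Vale.Agent.P101 (genAlg isClosed_genAlg subset_genAlg genAlg_le)

namespace Vale.Agent.P095.Amenable

noncomputable section

variable {G : Type} [Group G] {F : Type*} [CStarAlgebra F] [PartialOrder F] [StarOrderedRing F]
  {T : Set (F →ₗ[ℂ] ℂ)} {α : G → (F ≃⋆ₐ[ℂ] F)}

/-- The defect of an average on the square of a self-adjoint element is nonnegative. -/
theorem avg_defect_nonneg {τ : F →ₗ[ℂ] ℂ} (hτ : IsTrace τ) {ι : Type*} {s : Finset ι} {w : ι → ℝ}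
    {ε : ℝ} {f : ℕ → ι → F} {l : ℕ} (hw : ∀ g ∈ s, 0 ≤ w g)
    (hf : ∀ g ∈ s, IsSelfAdjoint (psum f l g)) (hS : IsStrictlyPositive (part s w ε f l))
    {x : ι → F} (hx : ∀ g, star (x g) = x g) :
    0 ≤ (τ (avg s w ε f l fun g => x g * x g)).re -
      (τ (avg s w ε f l x * avg s w ε f l x)).re := by
  obtain ⟨a, ha, he⟩ := avg_eq_emap hw hf hS
  have h := hτ.mono (emap_schwarz ha fun g : s => x g)
  rw [← he x, star_avg, funext hx] at h
  simp only [hx] at h
  rw [← he fun g => x g * x g] at h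
  linarith

section MixMap

variable {K : Subgroup G} {Q : Type} [Group Q] (π : K →* Q) (hπ : Function.Surjective π)
  {D : StarSubalgebra ℂ F} (hinv : ∀ g, ∀ d ∈ D, α g d ∈ D) (θ : ℕ → (D →⋆ₐ[ℂ] F))
  {κ : Type*} [Fintype κ] (r : κ → F) (L : κ → ℕ) (s : Finset Q) (w : Q → ℝ) (ε : ℝ)
  (f : ℕ → Q → F)

/-- The mixture over the steps `L j` of the averages of the sites of `d`. -/
def mixMap : D →ₗ[ℂ] F where
  toFun d := mix r fun j => avg s w ε f (L j) (site α π hπ hinv (θ (L j)) d)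
  map_add' d e := by
    simp only [mix, ← Finset.sum_add_distrib, ← add_mul, ← mul_add, ← avg_add]
    exact Finset.sum_congr rfl fun j _ => by
      rw [show site α π hπ hinv (θ (L j)) (d + e) = site α π hπ hinv (θ (L j)) d +
        site α π hπ hinv (θ (L j)) e from funext fun q => site_add α π hπ hinv (θ (L j)) d e q]
  map_smul' c d := by
    simp only [mix, Finset.smul_sum, RingHom.id_apply]
    exact Finset.sum_congr rfl fun j _ => by
      rw [show site α π hπ hinv (θ (L j)) (c • d) = c • site α π hπ hinv (θ (L j)) d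
        from funext fun q => site_smul α π hπ hinv (θ (L j)) c d q, avg_smul, mul_smul_comm,
        smul_mul_assoc]

theorem mixMap_apply (d : D) : mixMap π hπ hinv θ r L s w ε f d =
    mix r fun j => avg s w ε f (L j) (site α π hπ hinv (θ (L j)) d) := rfl

variable {π hπ hinv θ r L s w ε f}

theorem mixMap_star (hr : ∀ j, IsSelfAdjoint (r j)) (d : D) :
    mixMap π hπ hinv θ r L s w ε f (star d) = star (mixMap π hπ hinv θ r L s w ε f d) := by
  simp only [mixMap_apply, mix, star_sum, star_mul, (hr _).star_eq, star_avg, mul_assoc]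
  exact Finset.sum_congr rfl fun j _ => by
    rw [show site α π hπ hinv (θ (L j)) (star d) =
      fun q => star (site α π hπ hinv (θ (L j)) d q)
      from funext fun q => site_star α π hπ hinv (θ (L j)) d q]

theorem mixMap_commute {t : F} (htr : ∀ j, Commute t (r j))
    (htf : ∀ i, ∀ q ∈ s, Commute t (f i q)) (htθ : ∀ i d, Commute t (θ i d)) (d : D) :
    Commute (mixMap π hπ hinv θ r L s w ε f d) t :=
  (Commute.sum_right _ _ _ fun j _ => ((htr j).mul_right
    (commute_avg (fun i _ => htf i) fun _ _ => htθ _ _)).mul_right (htr j)).symm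

variable (hw : ∀ q ∈ s, 0 ≤ w q) {q₀ : Q} (hq₀ : q₀ ∈ s) (hpos : 0 < w q₀)
  (hf : ∀ j, ∀ q ∈ s, IsSelfAdjoint (psum f (L j) q)) (hr : ∀ j, IsSelfAdjoint (r j))
  (hr1 : ∑ j, r j * r j = 1)
include hw hq₀ hpos hf hr hr1

theorem mixMap_one : mixMap π hπ hinv θ r L s w ε f 1 = 1 := by
  simp only [mixMap_apply, mix]
  refine Eq.trans (Finset.sum_congr rfl fun j _ => ?_) hr1
  rw [avg_congr s w ε f (L j) (fun q _ => site_one α π hπ hinv (θ (L j)) q),
    avg_one ε f (L j) (hf j) (part_isStrictlyPositive hw hq₀ hpos ε f (L j) (hf j q₀ hq₀)), mul_one]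

theorem mixMap_norm_le (hD : IsClosed (D : Set F)) (d : D) :
    ‖mixMap π hπ hinv θ r L s w ε f d‖ ≤ ‖(d : F)‖ :=
  mix_norm_le (x := fun j => site α π hπ hinv (θ (L j)) d) hw hf
    (fun j => part_isStrictlyPositive hw hq₀ hpos ε f (L j) (hf j q₀ hq₀)) hr hr1 (norm_nonneg _)
    fun _ _ _ => norm_site_le α π hπ hinv _ hD _ _

theorem mixMap_null (hs : Sys T α) (hnull : ∀ i (d : D), Cong T (d : F) 0 → Cong T (θ i d) 0)
    {d : D} (hd : Cong T (d : F) 0) : Cong T (mixMap π hπ hinv θ r L s w ε f d) 0 := by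
  have e : (0 : F) = ∑ j, r j * avg s w ε f (L j) (fun _ => 0) * r j := by simp [avg, mom]
  rw [e]
  exact Cong.sum hs.isTrace _ fun j _ => Cong.mul hs.isTrace (Cong.mul hs.isTrace (Cong.refl T _)
    (avg_cong hs.isTrace hw hq₀ hpos ε (L j) (hf j) (hf j) (fun _ _ _ _ => Cong.refl T _)
      fun q _ => cong_site_zero α π hπ hinv _ hs (hnull _) hd q)) (Cong.refl T _)

theorem mixMap_mul_le (hD : IsClosed (D : Set F)) {τ : F →ₗ[ℂ] ℂ} (hτ : IsTrace τ) (d e : D) :
    tn τ (mixMap π hπ hinv θ r L s w ε f (d * e) -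
        mixMap π hπ hinv θ r L s w ε f d * mixMap π hπ hinv θ r L s w ε f e) ≤
      ‖(e : F)‖ * Real.sqrt (τ (mixMap π hπ hinv θ r L s w ε f (d * star d) -
        mixMap π hπ hinv θ r L s w ε f d * mixMap π hπ hinv θ r L s w ε f (star d))).re := by
  have h := mix_mult_defect (L := L) hw hf
    (fun j => part_isStrictlyPositive hw hq₀ hpos ε f (L j) (hf j q₀ hq₀)) hr hr1 hτ
    (fun j => site α π hπ hinv (θ (L j)) d) (fun j => site α π hπ hinv (θ (L j)) e)
    (norm_nonneg (e : F)) fun _ _ _ => norm_site_le α π hπ hinv _ hD _ _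
  rw [mixMap_star hr]
  simp only [mixMap_apply]
  simp only [← site_star, ← site_mul] at h
  exact h

end MixMap

/-- Maps into the commutant of `S` with small defect on the `y i`, almost invariant under the
generators. -/
theorem exists_average [Countable G] (hs : Sys T α) (hsat : Saturated T α) {K : Subgroup G}
    {Q : Type} [Group Q] [DecidableEq Q] (π : K →* Q) (hπ : Function.Surjective π)
    (hc : Coins T α K) {W : Finset Q} {B : ℕ → Finset Q} (hone : ∀ R, 1 ∈ B R) (hmono : Monotone B)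
    (hstep : ∀ u ∈ W, ∀ R, ∀ q ∈ B R, u * q ∈ B (R + 1))
    (hweight : ∀ η : ℝ, 0 < η → ∃ w : Q → ℝ, w 1 = 1 ∧ (∀ q, 0 ≤ w q) ∧
      (∀ t : ℝ, 0 < t → ∃ C, ∀ R, ∑ q ∈ B R, w q ^ t ≤ C) ∧
      ∀ M δ : ℝ, 0 < M → 0 < δ → ∀ᶠ R in Filter.atTop, ∃ δ', 0 ≤ δ' ∧
        δ' * (B (R + 1)).card * M ≤ δ ∧ ∀ u ∈ W, ∀ q ∈ B (R + 1),
          |(if u⁻¹ * q ∈ B R then w (u⁻¹ * q) else 0) - (if q ∈ B R then w q else 0)|
            ≤ (Real.exp η - 1) * (if q ∈ B R then w q else 0) + δ') :
    HasAverages T α (π.ker.map K.subtype) {g | ∃ k : K, (k : G) = g ∧ π k ∈ W} := by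
  intro D hD hsep hinv n y hy hyfix hcent S hS δ hδ
  classical
  -- constants
  set c : ℝ := 1 + 2 * ∑ i, ‖(y i : F)‖ with hc'
  have hc1 : 1 ≤ c := le_add_of_nonneg_right (by positivity)
  have hc0 : 0 < c := zero_lt_one.trans_le hc1
  set e : ℝ := min (1 / 4) ((δ / 50) ^ 2) with he
  have he0 : 0 < e := lt_min (by norm_num) (by positivity)
  obtain ⟨w, hw1, hw0, hwC, hedge⟩ := hweight (Real.log (1 + e / 2)) (Real.log_pos (by linarith))
  set t : ℝ := min 1 (δ / (4 * c ^ 2)) with ht'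
  have ht0 : 0 < t := lt_min one_pos (by positivity)
  have htc : t * c ^ 2 ≤ δ / 4 := by
    have h := mul_le_mul_of_nonneg_right (min_le_right 1 (δ / (4 * c ^ 2))) (sq_nonneg c)
    rw [← ht', div_mul_eq_mul_div, mul_div_mul_right _ _ (by positivity)] at h
    linarith
  set ε : ℝ := min (1 / (8 * c)) (δ / (200 * c ^ 3)) with hε'
  have hε0 : 0 < ε := lt_min (by positivity) (by positivity)
  have hεa : |ε| = ε := abs_of_pos hε0
  have hε8 : |ε| * c ≤ 1 / 8 := by
    rw [hεa]
    have h := mul_le_mul_of_nonneg_right (min_le_left (1 / (8 * c)) (δ / (200 * c ^ 3))) hc0.le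
    rw [← hε', div_mul_eq_mul_div, mul_div_mul_right _ _ hc0.ne'] at h
    exact h
  have hεc : ε * c ^ 3 ≤ δ / 200 := by
    have h := mul_le_mul_of_nonneg_right (min_le_right (1 / (8 * c)) (δ / (200 * c ^ 3)))
      (pow_nonneg hc0.le 3)
    rw [← hε', div_mul_eq_mul_div, mul_div_mul_right _ _ (by positivity)] at h
    exact h
  obtain ⟨C, hC⟩ := hwC t ht0
  obtain ⟨J, hJ⟩ := pow_unbounded_of_one_lt (Real.log C / (t * ε ^ 2 * (δ / 4))) one_lt_two
  set k : ℕ := 2 ^ J with hk
  obtain ⟨R, δ', hδ', hδ'card, hdiff⟩ := (hedge (Real.exp (2 * |ε| * (k * c))) (e / 2)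
    (Real.exp_pos _) (half_pos he0)).exists
  -- copies, signs, selection
  obtain ⟨θ, hθS, hθθ, hθeq, hθnull⟩ := exists_copies hsat D hD hsep hinv S hS
  have : SeparableSpace D := hsep.separableSpace
  set P : Set F := S ∪ Set.range fun p : ℕ × ℕ => θ p.1 (denseSeq D p.2) with hP
  have hPc : P.Countable := hS.union (Set.countable_range _)
  have hθcont : ∀ i, Continuous (θ i) := fun i => by
    refine AddMonoidHomClass.continuous_of_bound (θ i) 1 fun a => ?_
    let := Vale.Agent.P101.subCStar D hD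
    rw [one_mul]
    exact NonUnitalStarAlgHom.norm_apply_le (θ i) a
  have hθP : ∀ i d, θ i d ∈ genAlg P := fun i d => by
    refine ((isClosed_genAlg P).preimage (hθcont i)).closure_subset_iff.2 ?_ (denseRange_denseSeq D d)
    rintro _ ⟨m, rfl⟩
    exact subset_genAlg _ (Or.inr ⟨(i, m), rfl⟩)
  obtain ⟨ρ, hρ, hρρ, hsig⟩ := exists_signs hs hc P hPc
  have hρθ : ∀ j i d, Commute (ρ j) (θ i d) := fun j i d => by
    refine (isClosed_eq (continuous_const.mul (hθcont i))
      ((hθcont i).mul continuous_const)).closure_subset_iff.2 ?_ (denseRange_denseSeq D d)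
    rintro _ ⟨m, rfl⟩
    exact (hρ j).2.2.2 _ (Or.inr ⟨(i, m), rfl⟩)
  set P' : Set F := ⋃ g, α g '' (P ∪ Set.range ρ) with hP'
  have hP'c : P'.Countable :=
    Set.countable_iUnion fun g => (hPc.union (Set.countable_range ρ)).image _
  have hP'1 : P ∪ Set.range ρ ⊆ P' := fun x hx =>
    Set.mem_iUnion.2 ⟨1, x, hx, hs.act_one x⟩
  have hP'inv : ∀ g, ∀ x ∈ genAlg P', α g x ∈ genAlg P' := fun g x hx =>
    map_mem_genAlg (α g : F →⋆ₐ[ℂ] F) (fun z hz => by
      obtain ⟨h, z', hz', rfl⟩ := Set.mem_iUnion.1 hz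
      exact subset_genAlg _ (Set.mem_iUnion.2 ⟨g * h, z', hz', hs.act_mul g h z'⟩)) hx
  have hθP' : ∀ i d, θ i d ∈ genAlg P' := fun i d =>
    genAlg_le (isClosed_genAlg _) (fun x hx => subset_genAlg _ (hP'1 (Or.inl hx))) (hθP i d)
  obtain ⟨sel, hsel, hselsel, hsel1, hselτ⟩ :=
    exists_selection hs hc P' hP'c J (δ := δ / (8 * c ^ 2)) (by positivity)
  set eJ : (Fin J → Bool) ≃ Fin k := Fintype.equivFinOfCardEq (by simp [hk])
  set f := stepFun α π hπ hinv θ ρ y with hf'
  have hρ' : ∀ j, IsSelfAdjoint (ρ j) ∧ ‖ρ j‖ ≤ 2 := fun j => ⟨(hρ j).1, (hρ j).2.1⟩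
  have hsteps : Steps (0 : F →ₗ[ℂ] ℂ) (B (R + 1)) f (past θ ρ n) c k :=
    steps_stepFun π hπ hinv hD hθθ hρ' hρρ hρθ y hy (fun _ _ _ _ _ => rfl) k
  have hfs : ∀ l < k, ∀ q ∈ B (R + 1), IsSelfAdjoint (f l q) := hsteps.selfAdjoint
  have hfb : ∀ l < k, ∀ q ∈ B (R + 1), ‖f l q‖ ≤ c := hsteps.norm_le
  have hps : ∀ l ≤ k, ∀ q ∈ B R, IsSelfAdjoint (psum f l q) := fun l hl q hq =>
    isSelfAdjoint_psum fun i hi => hfs i (hi.trans_le hl) q (hmono (Nat.le_succ R) hq)
  set L : (Fin J → Bool) → ℕ := fun j => (eJ j : ℕ) with hL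
  have hLk : ∀ j, L j < k := fun j => (eJ j).2
  have hpos : (0 : ℝ) < w 1 := hw1 ▸ one_pos
  have hpsL : ∀ j, ∀ q ∈ B R, IsSelfAdjoint (psum f (L j) q) := fun j => hps _ (hLk j).le
  have hrsa : ∀ j, IsSelfAdjoint (sel j) := fun j => (hsel j).1
  have hfP' : ∀ l q, f l q ∈ genAlg P' := fun l q => sum_mem fun i _ =>
    mul_mem (subset_genAlg _ (hP'1 (Or.inr ⟨_, rfl⟩))) (hθP' _ _)
  have hAP' : ∀ j (x : D), avg (B R) w ε f (L j) (site α π hπ hinv (θ (L j)) x) ∈ genAlg P' :=
    fun j x => avg_mem_of_closed (isClosed_genAlg _) (fun l _ q _ => hfP' l q)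
      fun q _ => hθP' _ _
  refine ⟨mixMap π hπ hinv θ sel L (B R) w ε f,
    mixMap_one (fun q _ => hw0 q) (hone R) hpos hpsL hrsa hsel1,
    mixMap_norm_le (fun q _ => hw0 q) (hone R) hpos hpsL hrsa hsel1 hD, mixMap_star hrsa,
    fun d t ht => ?_, fun d => mixMap_null (fun q _ => hw0 q) (hone R) hpos hpsL hrsa hsel1 hs hθnull,
    fun τ hτ i => ?_,
    fun τ hτ => mixMap_mul_le (fun q _ => hw0 q) (hone R) hpos hpsL hrsa hsel1 hD (hs.isTrace τ hτ),
    fun τ hτ g₀ ⟨g, hgg, hg⟩ d hd => hgg ▸ ?_⟩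
  · refine mixMap_commute (fun j => ?_) (fun l q _ => ?_) (fun l x => (hθS l x t ht).symm) d
    · exact ((hsel j).2.2.2 t (subset_genAlg _ (hP'1 (Or.inl (Or.inl ht))))).symm
    · exact Commute.sum_right _ _ _ fun i _ =>
        (((hρ _).2.2.2 t (Or.inl ht)).symm).mul_right (hθS _ _ t ht).symm
  · -- defect
    have hτt := hs.isTrace τ hτ
    set X : ℕ → Q → F := fun l => site α π hπ hinv (θ l) (y i) with hX
    set Df : ℕ → Fin n → ℝ := fun l i' =>
      (τ (avg (B R) w ε f l fun q => site α π hπ hinv (θ l) (y i') q *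
        site α π hπ hinv (θ l) (y i') q)).re -
      (τ (avg (B R) w ε f l (site α π hπ hinv (θ l) (y i')) *
        avg (B R) w ε f l (site α π hπ hinv (θ l) (y i')))).re with hDf
    have hDnn : ∀ l < k, ∀ i', 0 ≤ Df l i' := fun l hl i' =>
      avg_defect_nonneg hτt (fun q _ => hw0 q) (hps l hl.le)
        (part_isStrictlyPositive (fun q _ => hw0 q) (hone R) hpos ε f l (hps l hl.le 1 (hone R)))
        fun q => by rw [← site_star, show star (y i') = y i' from Subtype.ext (hy i')]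
    have hsig' : ∀ l j, ∀ Z ∈ genAlg ({x | ∃ m, m < l ∧ ∃ d, θ m d = x} ∪ ρ '' {m | m < j}),
        τ (Z * ρ j) = 0 ∧ τ (Z * (ρ j * ρ j)) = 2 * τ Z := fun l j Z hZ =>
      hsig j Z (genAlg_le (isClosed_genAlg _) (by
        rintro x (⟨m, -, x', rfl⟩ | hx)
        · exact genAlg_le (isClosed_genAlg _) (fun z hz => subset_genAlg _ (Or.inl hz)) (hθP m x')
        · exact subset_genAlg _ (Or.inr hx)) hZ) τ hτ
    have hsum := sum_site_defect_le π hπ hinv hD hθθ hρ' hρρ hρθ hτt y hy (hcent τ hτ) hsig'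
      (s := B R) (w := w) (fun q _ => hw0 q) (hone R) hw1.ge hε0.ne' hε8 ht0 (min_le_left _ _) k
    have hlog : Real.log (∑ q ∈ B R, w q ^ t) ≤ Real.log C := by
      refine Real.log_le_log ?_ (hC R)
      exact Finset.sum_pos' (fun q _ => Real.rpow_nonneg (hw0 q) t)
        ⟨1, hone R, Real.rpow_pos_of_pos hpos t⟩
    have hk0 : (0 : ℝ) < k := by rw [hk]; positivity
    have hkR : Real.log C / (t * ε ^ 2) ≤ k * (δ / 4) := by
      rw [div_le_iff₀ (by positivity)]
      rw [div_lt_iff₀ (by positivity)] at hJ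
      rw [hk]
      push_cast
      linarith
    have hsum' : ∑ l ∈ Finset.range k, Df l i ≤ 3 * k * δ / 4 := by
      refine le_trans (Finset.sum_le_sum fun l hl => Finset.single_le_sum
        (fun i' _ => hDnn l (Finset.mem_range.1 hl) i') (Finset.mem_univ i)) ?_
      have h2 : 2 * Real.log (∑ q ∈ B R, w q ^ t) / (t * ε ^ 2) ≤ 2 * (k * (δ / 4)) := by
        rw [mul_div_assoc]
        refine mul_le_mul_of_nonneg_left (le_trans ?_ hkR) (by norm_num)
        exact div_le_div_of_nonneg_right hlog (by positivity)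
      have h3 : 2 * (k : ℝ) * (t * c ^ 2) ≤ 2 * k * (δ / 4) := by gcongr
      have h4 : 100 * (k : ℝ) * (|ε| * c ^ 3) ≤ 100 * k * (δ / 200) := by rw [hεa]; gcongr
      rw [hεa] at h4 hsum
      rw [← hc'] at hsum
      linarith
    have hM : ‖(y i : F)‖ ≤ c := by
      have := Finset.single_le_sum (fun i' _ => norm_nonneg (y i' : F)) (Finset.mem_univ i)
      linarith [norm_nonneg (y i : F)]
    have hd := mix_defect_le (L := L) (fun q _ => hw0 q) hpsL
      (fun j => part_isStrictlyPositive (fun q _ => hw0 q) (hone R) hpos ε f (L j)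
        (hpsL j 1 (hone R))) hrsa hsel1 hτt (fun j => X (L j)) hc0.le
      (fun j q _ => (norm_site_le α π hπ hinv _ hD _ _).trans hM) hselsel
      (fun j j' => (hsel j').2.2.2 _ (hAP' j (y i)))
    have hterm : ∀ j, (τ (sel j * sel j * (avg (B R) w ε f (L j) (fun q => X (L j) q * X (L j) q) -
        avg (B R) w ε f (L j) (X (L j)) * avg (B R) w ε f (L j) (X (L j))))).re =
        ((2 : ℝ) ^ J)⁻¹ * Df (L j) i := fun j => by
      have hX2 : avg (B R) w ε f (L j) (fun q => X (L j) q * X (L j) q) ∈ genAlg P' :=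
        avg_mem_of_closed (isClosed_genAlg _) (fun l _ q _ => hfP' l q)
          fun q _ => mul_mem (hθP' _ _) (hθP' _ _)
      rw [(hselτ τ hτ).1 _ (sub_mem hX2 (mul_mem (hAP' j (y i)) (hAP' j (y i)))) j,
        show ((2 : ℂ) ^ J)⁻¹ = ((((2 : ℝ) ^ J)⁻¹ : ℝ) : ℂ) by push_cast; rfl,
        Complex.re_ofReal_mul, map_sub, Complex.sub_re]
    simp only [hterm, ← Finset.mul_sum] at hd
    have hsumJ : ∑ j, Df (L j) i = ∑ l ∈ Finset.range k, Df l i := by
      rw [← Fin.sum_univ_eq_sum_range, ← eJ.sum_comp]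
    rw [hsumJ] at hd
    have hov := mul_le_mul_of_nonneg_left (hselτ τ hτ).2 (by positivity : (0 : ℝ) ≤ 2 * c ^ 2)
    have hk' : ((2 : ℝ) ^ J)⁻¹ * (3 * k * δ / 4) = 3 * δ / 4 := by
      rw [hk]; push_cast; field_simp
    have h1 := mul_le_mul_of_nonneg_left hsum' (by positivity : (0 : ℝ) ≤ ((2 : ℝ) ^ J)⁻¹)
    rw [hk'] at h1
    have h2 : 2 * c ^ 2 * (δ / (8 * c ^ 2)) = δ / 4 := by field_simp; norm_num
    rw [h2] at hov
    simp only [mixMap_apply, map_sub]
    simp only [hX, ← site_mul] at hd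
    linarith
  · -- invariance
    have hτt := hs.isTrace τ hτ
    set A := fun j => avg (B R) w ε f (L j) (site α π hπ hinv (θ (L j)) d) with hA
    have hM0 : 0 ≤ δ * ‖(d : F)‖ := by positivity
    have hA1 : ∀ j, ∀ σ ∈ T, tn σ (α (g : G) (A j) - A j) ≤ δ * ‖(d : F)‖ := fun j σ hσ => by
      have hexp : Real.exp (2 * |ε| * (L j * c)) ≤ Real.exp (2 * |ε| * (k * c)) := by
        refine Real.exp_le_exp.2 ?_
        have : (L j : ℝ) ≤ k := by exact_mod_cast (hLk j).le
        gcongr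
      have hη : Real.exp (Real.log (1 + e / 2)) - 1 = e / 2 := by
        rw [Real.exp_log (by linarith)]; ring
      have h := avg_invariant hs (g : G) (Equiv.mulLeft (π g)) (hmono (Nat.le_succ R))
        (hstep _ hg R) hw0 (hone R) hw1.ge (η := Real.exp (Real.log (1 + e / 2)) - 1) (by rw [hη]; linarith) hδ'
        (fun q hq => by simpa using hdiff _ hg q hq)
        (l := L j) (f := f) (ε := ε) (b := c) (M := ‖(d : F)‖) (e := e)
        (x := site α π hπ hinv (θ (L j)) d)
        (fun l hl q hq => hfs l (hl.trans (hLk j)) q hq)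
        (fun l hl q hq => hfb l (hl.trans (hLk j)) q hq)
        (fun q _ => norm_site_le α π hπ hinv _ hD _ _)
        (fun l _ q _ => ?_)
        (fun q _ => map_site α π hπ hinv _ hs (hθnull _) (hθeq _) hd g q)
        (by
          have := (mul_le_mul_of_nonneg_left hexp
            (mul_nonneg hδ' (Nat.cast_nonneg (B (R + 1)).card))).trans hδ'card
          linarith)
        (min_le_left _ _) σ hσ
      · refine h.trans ?_
        have : Real.sqrt e ≤ δ / 50 := by
          refine (Real.sqrt_le_sqrt (min_le_right _ _)).trans_eq ?_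
          exact Real.sqrt_sq (by positivity)
        have h5 := mul_le_mul_of_nonneg_left this (by positivity : (0 : ℝ) ≤ 50 * ‖(d : F)‖)
        linarith
      · show Cong T (α (g : G) (stepFun α π hπ hinv θ ρ y l q)) _
        rw [stepFun, map_sum]
        refine Cong.sum hs.isTrace _ fun m _ => ?_
        rw [map_mul]
        exact Cong.mul hs.isTrace ((hρ _).2.2.1 _ g.2)
          (map_site α π hπ hinv _ hs (hθnull _) (hθeq _) (hyfix m) g q)
    have hc2 : Cong T (α (g : G) (mix sel A)) (mix sel fun j => α (g : G) (A j)) := by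
      simp only [mix, map_sum, map_mul]
      exact Cong.sum hs.isTrace _ fun j _ => Cong.mul hs.isTrace (Cong.mul hs.isTrace
        ((hsel j).2.2.1 _ g.2) (Cong.refl T _)) ((hsel j).2.2.1 _ g.2)
    have hsub : mix sel (fun j => α (g : G) (A j)) - mix sel A =
        mix sel fun j => α (g : G) (A j) - A j := by
      simp [mix, mul_sub, sub_mul, Finset.sum_sub_distrib]
    have hDP : ∀ j, α (g : G) (A j) - A j ∈ genAlg P' := fun j =>
      sub_mem (hP'inv _ _ (hAP' j d)) (hAP' j d)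
    have hmix := mix_tn_le hτt hrsa hsel1 (fun j => α (g : G) (A j) - A j)
      fun j => (hsel j).2.2.2 _ (hDP j)
    have hmix' : tn τ (mix sel fun j => α (g : G) (A j) - A j) ^ 2 ≤ (δ * ‖(d : F)‖) ^ 2 := by
      refine hmix.trans ?_
      calc _ ≤ ∑ _j : Fin J → Bool, ((2 : ℝ) ^ J)⁻¹ * (δ * ‖(d : F)‖) ^ 2 := by
            refine Finset.sum_le_sum fun j _ => ?_
            rw [(hselτ τ hτ).1 _ (mul_mem (star_mem (hDP j)) (hDP j)) j,
              show ((2 : ℂ) ^ J)⁻¹ = ((((2 : ℝ) ^ J)⁻¹ : ℝ) : ℂ) by push_cast; rfl,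
              Complex.re_ofReal_mul, ← hτt.tn_sq]
            gcongr
            · exact hτt.tn_nonneg _
            · exact hA1 j τ hτ
        _ = _ := by
          rw [Finset.sum_const, Finset.card_univ, Fintype.card_fun, Fintype.card_bool,
            Fintype.card_fin, nsmul_eq_mul]
          push_cast
          field_simp
    rw [mixMap_apply, show α (g : G) (mix sel A) - mix sel A =
      (α (g : G) (mix sel A) - mix sel fun j => α (g : G) (A j)) +
        (mix sel (fun j => α (g : G) (A j)) - mix sel A) by abel, hsub]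
    refine (hτt.tn_add_le _ _).trans ?_
    rw [hc2 τ hτ, zero_add]
    exact (pow_le_pow_iff_left₀ (hτt.tn_nonneg _) hM0 two_ne_zero).1 hmix'

end

end Vale.Agent.P095.Amenable
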