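import Vale.Agent.P095.Amenable.Coin
import Vale.Agent.P095.Amenable.StageTwo

/-!
# Absorption passes through quotients of subexponential growth
-/

set_option linter.unusedSectionVars false

open TopologicalSpace Filter
open scoped ComplexOrder

namespace Vale.Agent.P095.Amenable

noncomputable section

variable {G : Type} [Group G] {F : Type*} [CStarAlgebra F]
  {T : Set (F →ₗ[ℂ] ℂ)} {α : G → (F ≃⋆ₐ[ℂ] F)}

/-- Absorption for a normal subgroup with quotient of subexponential growth passes to the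
group. -/
theorem growth_step [PartialOrder F] [StarOrderedRing F] [Countable G] (hs : Sys T α)
    (hsat : Saturated T α) (hfull : Full T) (K : Subgroup G) (Q : Type) [Group Q] (π : K →* Q)
    (hπ : Function.Surjective π) (hQ : SubexpGrowth Q)
    (hN : Absorbs T α (π.ker.map K.subtype)) : Absorbs T α K := by
  classical
  obtain ⟨W₀, B, hW₀, hone, hmono, hstep₀, hweight₀⟩ := hQ.exists_weights
  have hstep : ∀ u ∈ insert 1 W₀, ∀ R, ∀ q ∈ B R, u * q ∈ B (R + 1) := fun u hu R q hq => by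
    rcases Finset.mem_insert.1 hu with rfl | hu
    · rw [one_mul]; exact hmono (Nat.le_succ R) hq
    · exact hstep₀ u hu R q hq
  have hweight : ∀ η : ℝ, 0 < η → ∃ w : Q → ℝ, w 1 = 1 ∧ (∀ q, 0 ≤ w q) ∧
      (∀ t : ℝ, 0 < t → ∃ C, ∀ R, ∑ q ∈ B R, w q ^ t ≤ C) ∧
      ∀ M δ : ℝ, 0 < M → 0 < δ → ∀ᶠ R in Filter.atTop, ∃ δ', 0 ≤ δ' ∧
        δ' * (B (R + 1)).card * M ≤ δ ∧ ∀ u ∈ insert 1 W₀, ∀ q ∈ B (R + 1),
          |(if u⁻¹ * q ∈ B R then w (u⁻¹ * q) else 0) - (if q ∈ B R then w q else 0)|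
            ≤ (Real.exp η - 1) * (if q ∈ B R then w q else 0) + δ' := fun η hη => by
    obtain ⟨w, h1, h2, h3, h4⟩ := hweight₀ η hη
    refine ⟨w, h1, h2, h3, fun M δ hM hδ => (h4 M δ hM hδ).mono fun R ⟨δ', d1, d2, d3⟩ =>
      ⟨δ', d1, d2, fun u hu q hq => ?_⟩⟩
    rcases Finset.mem_insert.1 hu with rfl | hu
    · simp only [inv_one, one_mul, sub_self, abs_zero]
      have : 0 ≤ if q ∈ B R then w q else 0 := by split_ifs <;> simp [h2]
      nlinarith [Real.one_le_exp hη.le]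
    · exact d3 u hu q hq
  refine absorbs_of_averages hs hsat hfull hN
    (V := fun _ => {g | ∃ k : K, (k : G) = g ∧ π k ∈ insert 1 W₀}) monotone_const ?_
    fun D hD hsep hinv v n b hv hb hvfix _ _ =>
      exists_average hs hsat π hπ
        (coins_of_growth hs hsat π hπ hQ D hD hsep hinv v b hv hb hvfix) hone hmono hstep
        hweight
  set V : Set G := ⋃ _ : ℕ, {g | ∃ k : K, (k : G) = g ∧ π k ∈ insert 1 W₀}
  have hQtop : ((Subgroup.closure V).comap K.subtype).map π = ⊤ := by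
    refine top_le_iff.1 (hW₀ ▸ (Subgroup.closure_le _).2 fun u hu => ?_)
    obtain ⟨k, rfl⟩ := hπ u
    exact ⟨k, Subgroup.subset_closure
      (Set.mem_iUnion.2 ⟨0, k, rfl, Finset.mem_insert_of_mem hu⟩), rfl⟩
  intro g hg
  obtain ⟨k, hk, he⟩ : π ⟨g, hg⟩ ∈ ((Subgroup.closure V).comap K.subtype).map π :=
    hQtop ▸ Subgroup.mem_top _
  have h1 : π (k⁻¹ * ⟨g, hg⟩) = 1 := by rw [map_mul, map_inv, he, inv_mul_cancel]
  have h2 : ((k⁻¹ * ⟨g, hg⟩ : K) : G) ∈ Subgroup.closure V := Subgroup.subset_closure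
    (Set.mem_iUnion.2 ⟨0, _, rfl, h1 ▸ Finset.mem_insert_self 1 W₀⟩)
  simpa using (Subgroup.closure V).mul_mem hk h2

end

end Vale.Agent.P095.Amenable
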