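import Vale.Agent.P095.Amenable.Bits

/-!
# Signs and selections for a sequence of trials

Each trial gets its own signs and its own selection, independent of the fixed countable set and of
everything that the earlier trials use, so that all of them commute.
-/

set_option linter.unusedSectionVars false

open scoped ComplexOrder
open Vale.Agent.P101 (genAlg genAlg_le isClosed_genAlg subset_genAlg)

namespace Vale.Agent.P095.Amenable

noncomputable section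

variable {F : Type*} [CStarAlgebra F] [PartialOrder F] [StarOrderedRing F]

/-- A self-adjoint element commuting with a set commutes with the algebra that it generates. -/
theorem commute_genAlg_of_selfAdjoint {r : F} (hr : IsSelfAdjoint r) {S : Set F}
    (h : ∀ t ∈ S, Commute r t) : ∀ X ∈ genAlg S, Commute r X := by
  intro X hX
  have hcl : IsClosed ((StarSubalgebra.centralizer ℂ {r} : StarSubalgebra ℂ F) : Set F) := by
    rw [StarSubalgebra.coe_centralizer]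
    exact Set.isClosed_centralizer _
  have hsub : S ⊆ (StarSubalgebra.centralizer ℂ {r} : StarSubalgebra ℂ F) := fun t ht => by
    rw [SetLike.mem_coe, StarSubalgebra.mem_centralizer_iff]
    rintro _ rfl
    exact ⟨h t ht, by rw [hr.star_eq]; exact h t ht⟩
  exact ((StarSubalgebra.mem_centralizer_iff ℂ).1 (genAlg_le hcl hsub hX) r rfl).1

/-- The signs and selection pieces of the trials before `t`. -/
def coinsBefore {γ : Type*} (ρ : ℕ → ℕ → F) (r : ℕ → γ → F) (t : ℕ) : Set F :=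
  {x | ∃ t', t' < t ∧ ((∃ i, ρ t' i = x) ∨ ∃ j, r t' j = x)}

theorem coinsBefore_mono {γ : Type*} (ρ : ℕ → ℕ → F) (r : ℕ → γ → F) {s t : ℕ} (h : s ≤ t) :
    coinsBefore ρ r s ⊆ coinsBefore ρ r t :=
  fun _ ⟨t', ht', hx⟩ => ⟨t', ht'.trans_le h, hx⟩

/-- Signs and selections for all the trials, sequentially independent over `S`. -/
theorem exists_trial_coins {G : Type} [Group G] {T : Set (F →ₗ[ℂ] ℂ)} {α : G → (F ≃⋆ₐ[ℂ] F)}
    {K : Subgroup G} (hs : Sys T α) (hc : Coins T α K) (S : Set F) (hS : S.Countable) (J : ℕ)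
    {d : ℝ} (hd : 0 < d) :
    ∃ (ρ : ℕ → ℕ → F) (r : ℕ → (Fin J → Bool) → F),
      (∀ t i, IsSelfAdjoint (ρ t i) ∧ ‖ρ t i‖ ≤ 2 ∧ FixedBy T α K (ρ t i)) ∧
      (∀ t j, IsSelfAdjoint (r t j) ∧ ‖r t j‖ ≤ 1 ∧ FixedBy T α K (r t j)) ∧
      (∀ t, ∀ X ∈ genAlg S, (∀ i, Commute (ρ t i) X) ∧ ∀ j, Commute (r t j) X) ∧
      (∀ t, ∀ x ∈ coinsBefore ρ r t, ∀ t', ∀ y ∈ coinsBefore ρ r t', Commute x y) ∧
      (∀ t, ∑ j, r t j * r t j = 1) ∧
      (∀ t i, ∀ X ∈ genAlg (S ∪ coinsBefore ρ r t ∪ ρ t '' {m | m < i}), ∀ τ ∈ T,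
        τ (X * ρ t i) = 0 ∧ τ (X * (ρ t i * ρ t i)) = 2 * τ X) ∧
      (∀ t, ∀ τ ∈ T, (∀ X ∈ genAlg (S ∪ coinsBefore ρ r t ∪ Set.range (ρ t)), ∀ j,
          τ (r t j * r t j * X) = ((2 : ℂ) ^ J)⁻¹ * τ X) ∧
        ∑ j, ∑ i ∈ Finset.univ.filter (· ≠ j), (τ (r t j * r t j * (r t i * r t i))).re ≤ d) := by
  classical
  choose σ hσ using fun R : {R : Set F // R.Countable} => exists_signs hs hc R.1 R.2
  choose q hq using fun R : {R : Set F // R.Countable} =>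
    exists_selection hs hc (R.1 ∪ Set.range (σ R)) (R.2.union (Set.countable_range _)) J hd
  let R : ℕ → {R : Set F // R.Countable} := fun t => Nat.rec ⟨S, hS⟩
    (fun _ R => ⟨R.1 ∪ Set.range (σ R) ∪ Set.range (q R),
      (R.2.union (Set.countable_range _)).union (Set.countable_range _)⟩) t
  let ρ : ℕ → ℕ → F := fun t => σ (R t)
  let r : ℕ → (Fin J → Bool) → F := fun t => q (R t)
  have hR : ∀ t, (R t).1 = S ∪ coinsBefore ρ r t := fun t => by
    induction t with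
    | zero =>
      have h0 : coinsBefore ρ r 0 = ∅ :=
        Set.eq_empty_iff_forall_notMem.2 fun x ⟨t', ht', _⟩ => Nat.not_lt_zero t' ht'
      rw [h0, Set.union_empty]
      rfl
    | succ t ih =>
      have h1 : (R (t + 1)).1 = (R t).1 ∪ Set.range (ρ t) ∪ Set.range (r t) := rfl
      rw [h1, ih]
      ext x
      constructor
      · rintro (((hx | ⟨t', ht', hx⟩) | ⟨i, rfl⟩) | ⟨j, rfl⟩)
        exacts [Or.inl hx, Or.inr ⟨t', ht'.trans (Nat.lt_succ_self t), hx⟩,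
          Or.inr ⟨t, Nat.lt_succ_self t, Or.inl ⟨i, rfl⟩⟩,
          Or.inr ⟨t, Nat.lt_succ_self t, Or.inr ⟨j, rfl⟩⟩]
      · rintro (hx | ⟨t', ht', hx⟩)
        · exact Or.inl (Or.inl (Or.inl hx))
        · rcases Nat.lt_succ_iff_lt_or_eq.1 ht' with ht' | rfl
          · exact Or.inl (Or.inl (Or.inr ⟨t', ht', hx⟩))
          · rcases hx with ⟨i, rfl⟩ | ⟨j, rfl⟩
            exacts [Or.inl (Or.inr ⟨i, rfl⟩), Or.inr ⟨j, rfl⟩]
  have hρgen : ∀ t, ∀ X ∈ genAlg (R t).1, ∀ i, Commute (ρ t i) X := fun t X hX i =>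
    commute_genAlg_of_selfAdjoint ((hσ (R t)).1 i).1 ((hσ (R t)).1 i).2.2.2 X hX
  have hrgen : ∀ t, ∀ X ∈ genAlg ((R t).1 ∪ Set.range (ρ t)), ∀ j, Commute (r t j) X :=
    fun t X hX j => ((hq (R t)).1 j).2.2.2 X hX
  have hmem : ∀ {a b : ℕ}, a < b → (∀ i, ρ a i ∈ (R b).1) ∧ ∀ j, r a j ∈ (R b).1 := by
    intro a b hab
    rw [hR b]
    exact ⟨fun i => Or.inr ⟨a, hab, Or.inl ⟨i, rfl⟩⟩, fun j => Or.inr ⟨a, hab, Or.inr ⟨j, rfl⟩⟩⟩
  refine ⟨ρ, r, fun t i => ⟨((hσ (R t)).1 i).1, ((hσ (R t)).1 i).2.1, ((hσ (R t)).1 i).2.2.1⟩,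
    fun t j => ⟨((hq (R t)).1 j).1, ((hq (R t)).1 j).2.1, ((hq (R t)).1 j).2.2.1⟩,
    fun t X hX => ?_, ?_, fun t => (hq (R t)).2.2.1, fun t i X hX τ hτ => ?_, fun t τ hτ => ?_⟩
  · have hS1 : genAlg S ≤ genAlg (R t).1 :=
      genAlg_le_of_subset (by rw [hR t]; exact Set.subset_union_left)
    have hS2 : genAlg S ≤ genAlg ((R t).1 ∪ Set.range (ρ t)) :=
      hS1.trans (genAlg_le_of_subset Set.subset_union_left)
    exact ⟨hρgen t X (hS1 hX), hrgen t X (hS2 hX)⟩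
  · have hlt : ∀ {a b : ℕ}, a < b → ∀ x, ((∃ i, ρ a i = x) ∨ ∃ j, r a j = x) →
        ∀ y, ((∃ i, ρ b i = y) ∨ ∃ j, r b j = y) → Commute x y := by
      intro a b hab x hx y hy
      have hxR : x ∈ genAlg (R b).1 := by
        rcases hx with ⟨i, rfl⟩ | ⟨j, rfl⟩
        exacts [subset_genAlg _ ((hmem hab).1 i), subset_genAlg _ ((hmem hab).2 j)]
      rcases hy with ⟨i, rfl⟩ | ⟨j, rfl⟩
      · exact (hρgen b x hxR i).symm
      · exact (hrgen b x (genAlg_le_of_subset Set.subset_union_left hxR) j).symm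
    have hρr : ∀ a i j, Commute (r a j) (ρ a i) := fun a i j =>
      hrgen a (ρ a i) (subset_genAlg _ (Or.inr ⟨i, rfl⟩)) j
    rintro t x ⟨a, -, hx⟩ t' y ⟨b, -, hy⟩
    rcases lt_trichotomy a b with hab | rfl | hab
    · exact hlt hab x hx y hy
    · rcases hx with ⟨i, rfl⟩ | ⟨j, rfl⟩ <;> rcases hy with ⟨i', rfl⟩ | ⟨j', rfl⟩
      exacts [(hσ (R a)).2.1 i i', (hρr a i j').symm, hρr a i' j, (hq (R a)).2.1 j j']
    · exact (hlt hab y hy x hx).symm
  · rw [← hR t] at hX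
    exact (hσ (R t)).2.2 i X hX τ hτ
  · obtain ⟨h1, h2⟩ := (hq (R t)).2.2.2 τ hτ
    refine ⟨fun X hX j => ?_, h2⟩
    rw [← hR t] at hX
    exact h1 X hX j

end

end Vale.Agent.P095.Amenable
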