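import Vale.Agent.P095.Amenable.FolnerTrial
import Vale.Agent.P095.Amenable.FolnerShift

/-!
# One trial: weight, overlap and shift

The column of a trial has a weight of trace proportional to the size of the finite set, which is
almost a projection, and which moves little when the set is enlarged a little.
-/

open scoped ComplexOrder

namespace Vale.Agent.P095.Amenable

noncomputable section

variable {F : Type*} [CStarAlgebra F] [PartialOrder F] [StarOrderedRing F] {ι κ : Type*}
  [DecidableEq ι] [Fintype κ] [DecidableEq κ] {k n : ℕ} {τ : F →ₗ[ℂ] ℂ} {X : F}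
  {Cp : StarSubalgebra ℂ F} {U : Finset ι} {P : ℕ → ι → F} {e : κ ≃ Fin k × Fin n} {r : κ → F}
  {δ M : ℝ} {s : Finset ι}

omit [PartialOrder F] [StarOrderedRing F] in
theorem cfc_hramp_mul_self (n : ℕ) (M : ℝ) (i : ℕ) (a : F) :
    cfc (hramp n M i) a * cfc (hramp n M i) a = cfc (ramp n M i) a := by
  rw [← cfc_mul (hramp n M i) (hramp n M i) a (continuous_hramp n M i).continuousOn
    (continuous_hramp n M i).continuousOn]
  exact cfc_congr fun t _ => Real.mul_self_sqrt (ramp_nonneg n M i t)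

omit [PartialOrder F] [StarOrderedRing F] [DecidableEq κ] in
/-- Sums over the pieces of a selection are sums over steps and ramps. -/
theorem sum_pieces (e : κ ≃ Fin k × Fin n) (f : ℕ → ℕ → ℝ) :
    ∑ j, f (e j).1 (e j).2 = ∑ l ∈ Finset.range k, ∑ i ∈ Finset.range n, f l i := by
  rw [e.sum_comp (fun p : Fin k × Fin n => f p.1 p.2), Fintype.sum_prod_type]
  rw [← Fin.sum_univ_eq_sum_range fun l => ∑ i ∈ Finset.range n, f l i]
  exact Finset.sum_congr rfl fun l _ => Fin.sum_univ_eq_sum_range (fun i => f l i) n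

section T55
variable (hτ : IsTrace τ) (h : TrialData τ X Cp U P e r δ) (hs : s.Nonempty) (hsU : s ⊆ U)
  (hM : 0 < M) (hsM : ∀ l < k, ‖stot s (P l)‖ ≤ M)

include h hsU in
theorem trial_stot_mem {l : ℕ} (hl : l < k) : stot s (P l) ∈ Cp :=
  stot_mem fun g hg => h.P_mem l hl g (hsU hg)

include h hsU in
theorem trial_cfc_mem {l : ℕ} (hl : l < k) (φ : ℝ → ℝ) : cfc φ (stot s (P l)) ∈ Cp :=
  cfc_mem (hs := h.closed) φ (trial_stot_mem h hsU hl)

include h hs hsU in
theorem trial_stot_pos {l : ℕ} (hl : l < k) : IsStrictlyPositive (stot s (P l)) :=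
  stot_isStrictlyPositive hs fun g hg => h.P_pos l hl g (hsU hg)

include hτ h in
theorem sel_re {Y : F} (hY : Y ∈ Cp) (j : κ) :
    (τ (r j * r j * Y)).re = (τ Y).re / ((k : ℝ) * n) := by
  rw [h.sel_weight Y hY j, show ((k : ℂ) * n)⁻¹ = ((((k : ℝ) * n)⁻¹ : ℝ) : ℂ) by push_cast; rfl,
    Complex.re_ofReal_mul]
  ring

include hτ h in
theorem sel_re_X {Y : F} (hY : Y ∈ Cp) (j : κ) :
    (τ (X * (r j * r j * Y))).re = (τ (X * Y)).re / ((k : ℝ) * n) := by
  have hc : Commute (r j) X := h.sel_commute j X h.X_mem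
  rw [← sel_re hτ h (mul_mem h.X_mem hY) j, ← mul_assoc X, ← (hc.mul_left hc).eq, mul_assoc]

include h hsU in
theorem trial_X_stot {l : ℕ} (hl : l < k) :
    (τ (X * stot s (P l))).re = (s.card : ℝ) * (τ X).re := by
  rw [stot, Finset.mul_sum, map_sum,
    Finset.sum_congr rfl fun g hg => h.P_trace l hl g (hsU hg), Finset.sum_const, nsmul_eq_mul]
  simp

include hτ h hs hsU hM hsM

theorem colQ_tcol : ∑ p, star (tcol U s P e M r p) * tcol U s P e M r p =
    ∑ j, r j * r j * cfc (ramp n M (e j).2) (stot s (P (e j).1)) := by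
  rw [Fintype.sum_prod_type]
  refine Finset.sum_congr rfl fun j _ => ?_
  set l : ℕ := ((e j).1 : ℕ)
  have hl : l < k := (e j).1.2
  set i : ℕ := ((e j).2 : ℕ)
  set Y := isq (stot s (P l)) * cfc (hramp n M i) (stot s (P l)) with hY
  have hr : star (r j) = r j := (h.sel_selfAdjoint j).star_eq
  have h1 : ∀ g : U, star (tcol U s P e M r (j, g)) * tcol U s P e M r (j, g) =
      if (g : ι) ∈ s then r j * (star (CFC.sqrt (P l g) * Y) * (CFC.sqrt (P l g) * Y)) * r j
      else 0 := fun g => by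
    unfold tcol
    split_ifs with hg
    · simp only [star_mul, hr, mul_assoc, hY]
      rfl
    · simp
  rw [Finset.sum_congr rfl fun g _ => h1 g,
    Finset.sum_coe_sort U fun g => if g ∈ s then
      r j * (star (CFC.sqrt (P l g) * Y) * (CFC.sqrt (P l g) * Y)) * r j else 0,
    ← Finset.sum_filter, Finset.filter_mem_eq_inter, Finset.inter_eq_right.2 hsU,
    ← Finset.sum_mul, ← Finset.mul_sum, quad_sum (fun g hg => (h.P_pos l hl g (hsU hg)).nonneg)]
  have hY2 : star Y * stot s (P l) * Y = cfc (ramp n M i) (stot s (P l)) := by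
    rw [hY, star_mul, (cfc_predicate (hramp n M i) (stot s (P l))).star_eq,
      (isq_selfAdjoint _).star_eq, ← cfc_hramp_mul_self n M i]
    calc _ = cfc (hramp n M i) (stot s (P l)) *
          (isq (stot s (P l)) * stot s (P l) * isq (stot s (P l))) *
          cfc (hramp n M i) (stot s (P l)) := by simp only [mul_assoc]
      _ = _ := by rw [isq_mul_self_mul_isq (trial_stot_pos h hs hsU hl), mul_one]
  rw [hY2, mul_assoc, ← (h.sel_commute j _ (trial_cfc_mem h hsU hl _)).eq, ← mul_assoc]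

theorem colQ_tcol_le_one : ∑ p, star (tcol U s P e M r p) * tcol U s P e M r p ≤ 1 := by
  rw [colQ_tcol hτ h hs hsU hM hsM, ← h.sel_sum]
  refine Finset.sum_le_sum fun j _ => ?_
  have hle : cfc (ramp n M ((e j).2 : ℕ)) (stot s (P ((e j).1 : ℕ))) ≤ 1 :=
    cfc_le_one _ _ fun t _ => ramp_le_one _ _ _ _
  have hc := h.sel_commute j _ (trial_cfc_mem h hsU (e j).1.2 (ramp n M ((e j).2 : ℕ)))
  have := (h.sel_selfAdjoint j).conjugate_le_conjugate hle
  rwa [mul_one, mul_assoc, ← hc.eq, ← mul_assoc] at this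

theorem trial_weight : (τ (X * ∑ p, star (tcol U s P e M r p) * tcol U s P e M r p)).re =
    (s.card : ℝ) / M * (τ X).re := by
  rw [colQ_tcol hτ h hs hsU hM hsM, Finset.mul_sum, map_sum, Complex.re_sum,
    Finset.sum_congr rfl fun (j : κ) _ =>
      sel_re_X hτ h (trial_cfc_mem h hsU (e j).1.2 (ramp n M ((e j).2 : ℕ))) j,
    sum_pieces e fun l i => (τ (X * cfc (ramp n M i) (stot s (P l)))).re / ((k : ℝ) * n)]
  have h1 : ∀ l ∈ Finset.range k,
      ∑ i ∈ Finset.range n, (τ (X * cfc (ramp n M i) (stot s (P l)))).re / ((k : ℝ) * n) =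
        ((n : ℝ) / M * ((s.card : ℝ) * (τ X).re)) / ((k : ℝ) * n) := fun l hl => by
    have hl := Finset.mem_range.1 hl
    rw [← Finset.sum_div, ← Complex.re_sum, ← map_sum, ← Finset.mul_sum,
      sum_ramp hM n (trial_stot_pos h hs hsU hl) (hsM l hl), ← Complex.coe_smul, mul_smul_comm,
      map_smul, smul_eq_mul, Complex.re_ofReal_mul, trial_X_stot h hsU hl]
  rw [Finset.sum_congr rfl h1, Finset.sum_const, Finset.card_range, nsmul_eq_mul]
  have hk : (0 : ℝ) < k := by exact_mod_cast h.pos_k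
  have hn : (0 : ℝ) < n := by exact_mod_cast h.pos_n
  field_simp

theorem trial_overlap :
    (τ ((∑ p, star (tcol U s P e M r p) * tcol U s P e M r p) *
      (1 - ∑ p, star (tcol U s P e M r p) * tcol U s P e M r p))).re ≤ 1 / n + δ := by
  rw [colQ_tcol hτ h hs hsU hM hsM]
  set ψ : κ → F := fun j => cfc (ramp n M ((e j).2 : ℕ)) (stot s (P ((e j).1 : ℕ))) with hψ
  have hmem : ∀ j, ψ j ∈ Cp := fun j => trial_cfc_mem h hsU (e j).1.2 _
  have h0 : ∀ j, 0 ≤ ψ j := fun j => cfc_nonneg fun t _ => ramp_nonneg _ _ _ _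
  have h1 : ∀ j, ψ j ≤ 1 := fun j => cfc_le_one _ _ fun t _ => ramp_le_one _ _ _ _
  have hrc : ∀ (j : κ) {Y : F}, Y ∈ Cp → Commute (r j * r j) Y := fun j Y hY =>
    (h.sel_commute j Y hY).mul_left (h.sel_commute j Y hY)
  have hmem' : ∀ i j, ψ j * (1 - ψ i) ∈ Cp := fun i j =>
    mul_mem (hmem j) (sub_mem (one_mem _) (hmem i))
  have e1 : (1 : F) - ∑ j, r j * r j * ψ j = ∑ i, r i * r i * (1 - ψ i) := by
    nth_rewrite 1 [← h.sel_sum]
    rw [← Finset.sum_sub_distrib]
    exact Finset.sum_congr rfl fun i _ => by rw [mul_sub, mul_one]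
  change (τ ((∑ j, r j * r j * ψ j) * (1 - ∑ j, r j * r j * ψ j))).re ≤ _
  rw [e1, Finset.sum_mul_sum, map_sum, Complex.re_sum]
  have hterm : ∀ i j, r j * r j * ψ j * (r i * r i * (1 - ψ i)) =
      r j * r j * (r i * r i) * (ψ j * (1 - ψ i)) := fun i j => by
    rw [mul_assoc (r j * r j) (ψ j), ← mul_assoc (ψ j), ← (hrc i (hmem j)).eq]
    simp only [mul_assoc]
  have hsplit : ∀ j, (τ (∑ i, r j * r j * ψ j * (r i * r i * (1 - ψ i)))).re ≤
      (τ (ψ j * (1 - ψ j))).re / ((k : ℝ) * n)
        + ∑ i ∈ Finset.univ.filter (· ≠ j), (τ (r j * r j * (r i * r i))).re := fun j => by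
    rw [map_sum, Complex.re_sum, Finset.sum_congr rfl fun i _ => by rw [hterm i j],
      ← Finset.sum_filter_add_sum_filter_not Finset.univ (· = j), Finset.filter_eq']
    simp only [Finset.mem_univ, if_true, Finset.sum_singleton]
    refine add_le_add ?_ (Finset.sum_le_sum fun i _ => ?_)
    · have hc : Commute (ψ j) (1 - ψ j) := (Commute.one_right _).sub_right (Commute.refl _)
      have hY : 0 ≤ ψ j * (1 - ψ j) := hc.mul_nonneg (h0 j) (sub_nonneg.2 (h1 j))
      have hr2 : 0 ≤ r j * r j := by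
        have := star_mul_self_nonneg (r j)
        rwa [(h.sel_selfAdjoint j).star_eq] at this
      have hr1 : r j * r j ≤ 1 := by
        rw [← h.sel_sum]
        refine Finset.single_le_sum (f := fun i => r i * r i) (fun i _ => ?_) (Finset.mem_univ j)
        have := star_mul_self_nonneg (r i)
        rwa [(h.sel_selfAdjoint i).star_eq] at this
      have hpos : 0 ≤ r j * r j * (ψ j * (1 - ψ j)) := (hrc j (hmem' j j)).mul_nonneg hr2 hY
      rw [← sel_re hτ h (hmem' j j) j, mul_assoc (r j * r j) (r j * r j),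
        (hrc j (hmem' j j)).eq, ← mul_assoc]
      refine (hτ.mul_le_mul_left hpos hr1).trans_eq ?_
      rw [mul_one]
      exact congrArg Complex.re (hτ.comm _ _)
    · set q := r i * r j with hq
      have hP : r j * r j * (r i * r i) = star q * q := by
        rw [hq, star_mul, (h.sel_selfAdjoint i).star_eq, (h.sel_selfAdjoint j).star_eq, mul_assoc,
          mul_assoc, ← mul_assoc (r i), ((h.sel_comm j i).mul_right (h.sel_comm j i)).eq]
      rw [hP, mul_assoc]
      have hY : ‖ψ j * (1 - ψ i)‖ ≤ 1 := by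
        refine (norm_mul_le _ _).trans (mul_le_one₀ ?_ (norm_nonneg _) ?_)
        · exact (CStarAlgebra.norm_le_one_iff_of_nonneg _ (h0 j)).2 (h1 j)
        · exact (CStarAlgebra.norm_le_one_iff_of_nonneg _ (sub_nonneg.2 (h1 i))).2
            (sub_le_self 1 (h0 i))
      calc (τ (star q * (q * (ψ j * (1 - ψ i))))).re
          ≤ tn τ q * tn τ (q * (ψ j * (1 - ψ i))) := hτ.re_le _ _
        _ ≤ tn τ q * (tn τ q * ‖ψ j * (1 - ψ i)‖) :=
            mul_le_mul_of_nonneg_left (hτ.tn_mul_le_right _ _) (hτ.tn_nonneg _)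
        _ ≤ tn τ q * (tn τ q * 1) := by
            gcongr <;> exact hτ.tn_nonneg _
        _ = (τ (star q * q)).re := by rw [← hτ.tn_sq]; ring
  refine (Finset.sum_le_sum fun j _ => hsplit j).trans ?_
  rw [Finset.sum_add_distrib]
  refine add_le_add ?_ h.sel_overlap
  rw [hψ, sum_pieces e fun l i =>
    (τ (cfc (ramp n M i) (stot s (P l)) * (1 - cfc (ramp n M i) (stot s (P l))))).re / ((k : ℝ) * n)]
  have hk : (0 : ℝ) < k := by exact_mod_cast h.pos_k
  have hn : (0 : ℝ) < n := by exact_mod_cast h.pos_n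
  refine (Finset.sum_le_sum (g := fun _ => 1 / ((k : ℝ) * n)) fun l hl => ?_).trans_eq ?_
  · rw [← Finset.sum_div, ← Complex.re_sum, ← map_sum]
    gcongr
    refine (hτ.mono (sum_ramp_overlap hM n (trial_stot_pos h hs hsU (Finset.mem_range.1 hl))
      (hsM l (Finset.mem_range.1 hl)))).trans_eq ?_
    simp [hτ.map_one]
  · rw [Finset.sum_const, Finset.card_range, nsmul_eq_mul]
    field_simp

theorem trial_shift {t : Finset ι} (hst : s ⊆ t) (htU : t ⊆ U)
    (htM : ∀ l < k, ‖stot t (P l)‖ ≤ M) {γ : ℝ} (hγ : 0 < γ) :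
    (τ (X * ∑ p, star (tcol U s P e M r p - tcol U t P e M r p) *
        (tcol U s P e M r p - tcol U t P e M r p))).re ≤
      (τ X).re / M * (3 / γ * ((t.card : ℝ) - s.card) + 6 * γ * t.card) := by
  have ht : t.Nonempty := hs.mono hst
  set Z : ℕ → ℕ → F := fun l i => cfc (hramp n M i) (stot s (P l)) * CFC.sqrt (stot s (P l)) *
    isq (stot t (P l)) * cfc (hramp n M i) (stot t (P l)) with hZ
  set D : ℕ → ℕ → F := fun l i => cfc (ramp n M i) (stot t (P l)) +
    cfc (ramp n M i) (stot s (P l)) - (Z l i + star (Z l i)) with hD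
  have hZmem : ∀ l < k, ∀ i, Z l i ∈ Cp := fun l hl i => by
    refine mul_mem (mul_mem (mul_mem (trial_cfc_mem h hsU hl _) ?_)
      (isq_mem h.closed (trial_stot_mem h htU hl))) (trial_cfc_mem h htU hl _)
    rw [CFC.sqrt_eq_real_sqrt _ (trial_stot_pos h hs hsU hl).nonneg, cfcₙ_eq_cfc]
    exact trial_cfc_mem h hsU hl _
  have hDmem : ∀ l < k, ∀ i, D l i ∈ Cp := fun l hl i =>
    sub_mem (add_mem (trial_cfc_mem h htU hl _) (trial_cfc_mem h hsU hl _))
      (add_mem (hZmem l hl i) (star_mem (hZmem l hl i)))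
  have hsq : ∑ p, star (tcol U s P e M r p - tcol U t P e M r p) *
      (tcol U s P e M r p - tcol U t P e M r p) = ∑ j, r j * r j * D (e j).1 (e j).2 := by
    rw [Fintype.sum_prod_type]
    refine Finset.sum_congr rfl fun j _ => ?_
    set l : ℕ := ((e j).1 : ℕ)
    have hl : l < k := (e j).1.2
    set i : ℕ := ((e j).2 : ℕ)
    have hr : star (r j) = r j := (h.sel_selfAdjoint j).star_eq
    set d : ι → F := fun g =>
      CFC.sqrt (P l g) * (isq (stot t (P l)) * cfc (hramp n M i) (stot t (P l))) -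
        if g ∈ s then CFC.sqrt (P l g) * (isq (stot s (P l)) * cfc (hramp n M i) (stot s (P l)))
        else 0 with hd
    have hterm : ∀ g : U, star (tcol U s P e M r (j, g) - tcol U t P e M r (j, g)) *
        (tcol U s P e M r (j, g) - tcol U t P e M r (j, g)) =
        if (g : ι) ∈ t then r j * (star (d g) * d g) * r j else 0 := fun g => by
      unfold tcol
      by_cases hgt : (g : ι) ∈ t
      · rw [if_pos hgt, if_pos hgt, ← neg_sub, star_neg, neg_mul_neg]
        by_cases hgs : (g : ι) ∈ s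
        · rw [if_pos hgs, ← sub_mul, star_mul, hr]
          simp only [hd, if_pos hgs, mul_assoc]
          rfl
        · simp only [hd, if_neg hgs, sub_zero, star_mul, hr, mul_assoc]
          rfl
      · rw [if_neg hgt, if_neg (fun hg => hgt (hst hg)), if_neg hgt]
        simp
    rw [Finset.sum_congr rfl fun g _ => hterm g,
      Finset.sum_coe_sort U fun g => if g ∈ t then r j * (star (d g) * d g) * r j else 0,
      ← Finset.sum_filter, Finset.filter_mem_eq_inter, Finset.inter_eq_right.2 htU,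
      ← Finset.sum_mul, ← Finset.mul_sum, hd,
      column_diff hs hst (fun g hg => h.P_pos l hl g (htU hg)) (hramp n M i) (hramp n M i),
      cfc_hramp_mul_self, cfc_hramp_mul_self, mul_assoc]
    change r j * (D l i * r j) = _
    rw [← (h.sel_commute j _ (hDmem l hl i)).eq, ← mul_assoc]
  rw [hsq, Finset.mul_sum, map_sum, Complex.re_sum,
    Finset.sum_congr rfl fun (j : κ) _ => sel_re_X hτ h (hDmem ((e j).1 : ℕ) (e j).1.2 (e j).2) j,
    sum_pieces e fun l i => (τ (X * D l i)).re / ((k : ℝ) * n)]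
  have hk : (0 : ℝ) < k := by exact_mod_cast h.pos_k
  have hn : (0 : ℝ) < n := by exact_mod_cast h.pos_n
  have hX0 : 0 ≤ (τ X).re := (Complex.nonneg_iff.1 (hτ.map_nonneg h.X_nonneg)).1
  refine (Finset.sum_le_sum (g := fun _ => (n : ℝ) / M *
    ((τ X).re * (3 / γ * ((t.card : ℝ) - s.card) + 6 * γ * t.card)) / ((k : ℝ) * n))
    fun l hl => ?_).trans_eq ?_
  · have hl := Finset.mem_range.1 hl
    rw [← Finset.sum_div]
    gcongr
    have hZs : ∀ i, (τ (X * star (Z l i))).re = (τ (X * Z l i)).re := fun i => by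
      have hXs : star X = X := h.X_nonneg.isSelfAdjoint.star_eq
      have e3 : ∀ W : F, star (W * X) = X * star W := fun W => by rw [star_mul, hXs]
      rw [← e3 (Z l i), hτ.map_star, hτ.comm (Z l i) X]
      simp
    have hrs := ramp_shift hτ hM n (trial_stot_pos h hs hsU hl) (hsM l hl)
      (trial_stot_pos h ht htU hl) (htM l hl) h.X_nonneg
      (commute_stot fun g hg => h.P_comm l hl g (hsU hg))
      (commute_stot fun g hg => h.P_comm l hl g (htU hg)) hγ
    have e2 : ∀ i ∈ Finset.range n, (τ (X * D l i)).re =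
        (τ (X * cfc (ramp n M i) (stot s (P l)))).re + (τ (X * cfc (ramp n M i) (stot t (P l)))).re
          - 2 * (τ (X * Z l i)).re := fun i _ => by
      simp only [hD, mul_sub, mul_add, map_sub, map_add, Complex.sub_re, Complex.add_re, hZs]
      ring
    rw [Finset.sum_congr rfl e2]
    refine hrs.trans (mul_le_mul_of_nonneg_left ?_ (by positivity))
    have h3 := sqrt_stot_sub_sq_le hτ hs hst (fun g hg => h.P_pos l hl g (htU hg)) h.X_nonneg
      (fun g hg => h.P_comm l hl g (htU hg)) (fun g hg => h.P_trace l hl g (htU hg))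
    rw [trial_X_stot h hsU hl, trial_X_stot h htU hl]
    have hcard : (s.card : ℝ) ≤ t.card := Nat.cast_le.2 (Finset.card_le_card hst)
    have h4 := mul_le_mul_of_nonneg_left h3 (show 0 ≤ 3 / γ by positivity)
    nlinarith [mul_le_mul_of_nonneg_right hcard hX0]
  · rw [Finset.sum_const, Finset.card_range, nsmul_eq_mul]
    field_simp

end T55

end

end Vale.Agent.P095.Amenable
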