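import Vale.Agent.P095.Amenable.SiteSteps
import Vale.Agent.P095.Amenable.Entropy
import Vale.Agent.P095.Amenable.FolnerOrbit

/-!
# Signed orbit increments of a trial

Independent signs combine finitely many centred elements into one centred increment whose gap
between second moments and averages is twice the sum of their gaps.
-/

set_option linter.unusedSectionVars false

open scoped ComplexOrder
open Vale.Agent.P101 (genAlg isClosed_genAlg subset_genAlg genAlg_le)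

namespace Vale.Agent.P095.Amenable

noncomputable section

variable {G : Type} [Group G] {F : Type*} [CStarAlgebra F] {α : G → (F ≃⋆ₐ[ℂ] F)}
  {D : StarSubalgebra ℂ F} (hinv : ∀ g, ∀ d ∈ D, α g d ∈ D)

/-- The signed sum of the translates of the copies of the `y i` at step `l`. -/
def ostep (θ : ℕ → (D →⋆ₐ[ℂ] F)) (ρ : ℕ → F) {r : ℕ} (y : Fin r → D) (l : ℕ) (g : G) : F :=
  ∑ i : Fin r, ρ (l * r + i) * orbit α hinv (θ l) (y i) g

/-- The projection of the whole group. -/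
def topHom : (⊤ : Subgroup G) →* G := Subgroup.topEquiv.toMonoidHom

theorem topHom_surjective : Function.Surjective (topHom (G := G)) :=
  Subgroup.topEquiv.surjective

theorem site_top (θ : D →⋆ₐ[ℂ] F) (d : D) (g : G) :
    site α topHom topHom_surjective hinv θ d g = orbit α hinv θ d g := by
  have h : sect topHom topHom_surjective g = g := map_sect topHom topHom_surjective g
  simp only [site, orbit, h]

theorem ostep_eq_stepFun (θ : ℕ → (D →⋆ₐ[ℂ] F)) (ρ : ℕ → F) {r : ℕ} (y : Fin r → D) :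
    ostep hinv θ ρ y = stepFun α topHom topHom_surjective hinv θ ρ y := by
  funext l g
  simp only [ostep, stepFun, site_top]

variable [PartialOrder F] [StarOrderedRing F] (hD : IsClosed (D : Set F))
  {θ : ℕ → (D →⋆ₐ[ℂ] F)} (hθθ : ∀ i j, i ≠ j → ∀ d e, Commute (θ i d) (θ j e)) {ρ : ℕ → F}
  (hρ : ∀ j, IsSelfAdjoint (ρ j) ∧ ‖ρ j‖ ≤ 2) (hρρ : ∀ i j, Commute (ρ i) (ρ j))
  (hρθ : ∀ j i d, Commute (ρ j) (θ i d))
include hD hθθ hρ hρρ hρθ

theorem steps_ostep {τ : F →ₗ[ℂ] ℂ} {X : F} (hXθ : ∀ i d, Commute X (θ i d))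
    (hXρ : ∀ j, Commute X (ρ j)) {r : ℕ} (y : Fin r → D) (hy : ∀ i, IsSelfAdjoint (y i : F))
    (hcent : ∀ i g (φ : D →⋆ₐ[ℂ] F) (Y : F), (∀ d, Commute Y (φ d)) →
      τ (Y * φ ⟨α g (y i : F), hinv g _ (y i).2⟩) = 0)
    (s : Finset G) (k : ℕ) :
    Steps (τ.comp (LinearMap.mulLeft ℂ X)) s (ostep hinv θ ρ y) (past θ ρ r)
      (1 + 2 * ∑ i, ‖(y i : F)‖) k := by
  rw [ostep_eq_stepFun]
  have h := steps_stepFun (τ := (0 : F →ₗ[ℂ] ℂ)) (α := α) topHom topHom_surjective hinv hD hθθ hρ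
    hρρ hρθ y hy (fun _ _ _ _ _ => rfl) (s := s) k
  refine ⟨h.closed, h.mono, h.selfAdjoint, h.norm_le, h.mem, h.commute, fun l hl Y hY g _ => ?_⟩
  simp only [LinearMap.comp_apply, LinearMap.mulLeft_apply, stepFun, site_top, Finset.mul_sum,
    map_sum]
  refine Finset.sum_eq_zero fun i _ => ?_
  rw [← mul_assoc Y, ← mul_assoc]
  refine hcent i _ (θ l) _ fun d => Commute.mul_left (hXθ l d) (Commute.mul_left ?_ (hρθ _ l d))
  refine commute_genAlg (Y := Set.range (θ l)) (fun z hz => ?_) ?_ hY (subset_genAlg _ ⟨d, rfl⟩)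
  · obtain ⟨z', rfl⟩ := hz
    exact ⟨star z', map_star _ _⟩
  · rintro x (⟨i', hi', d', rfl⟩ | ⟨j, -, rfl⟩) z ⟨z', rfl⟩
    · exact hθθ _ _ hi'.ne _ _
    · exact hρθ _ _ _

/-- Elements commuting with the copies and the signs commute with the past. -/
theorem commute_past {X : F} (hX : IsSelfAdjoint X) (hXθ : ∀ i d, Commute X (θ i d))
    (hXρ : ∀ j, Commute X (ρ j)) {r l : ℕ} {Y : F} (hY : Y ∈ past θ ρ r l) : Commute X Y := by
  refine commute_genAlg (X := {X}) (Y := {x | ∃ i, i < l ∧ ∃ d, θ i d = x} ∪ ρ '' {j | j < l * r})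
    ?_ ?_ (subset_genAlg _ rfl) hY
  · rintro x (⟨i, hi, d, rfl⟩ | ⟨j, hj, rfl⟩)
    · exact Or.inl ⟨i, hi, star d, map_star _ _⟩
    · exact Or.inr ⟨j, hj, (hρ j).1.star_eq.symm⟩
  · rintro x rfl z (⟨i, -, d, rfl⟩ | ⟨j, -, rfl⟩)
    exacts [hXθ i d, hXρ j]

/-- The gap of the signed increments is twice the sum of the gaps of its terms. -/
theorem gap_ostep {τ : F →ₗ[ℂ] ℂ} (X : F) {r : ℕ} (y : Fin r → D) (s : Finset G) (ε : ℝ) (l : ℕ)
    (hsig : ∀ j, ∀ Y ∈ genAlg ({x | ∃ i d, θ i d = x} ∪ ρ '' {m | m < j}),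
      τ (X * (Y * ρ j)) = 0 ∧ τ (X * (Y * (ρ j * ρ j))) = 2 * τ (X * Y)) :
    (∑ g ∈ s, (τ (X * (pr ε (ostep hinv θ ρ y) l g *
        (ostep hinv θ ρ y l g * ostep hinv θ ρ y l g)))).re) -
      (τ (X * (xq s (pr ε (ostep hinv θ ρ y) l) (ostep hinv θ ρ y l) *
        xq s (pr ε (ostep hinv θ ρ y) l) (ostep hinv θ ρ y l)))).re =
    2 * ∑ i, ((∑ g ∈ s, (τ (X * (pr ε (ostep hinv θ ρ y) l g *
        (orbit α hinv (θ l) (y i) g * orbit α hinv (θ l) (y i) g)))).re) -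
      (τ (X * (xq s (pr ε (ostep hinv θ ρ y) l) (orbit α hinv (θ l) (y i)) *
        xq s (pr ε (ostep hinv θ ρ y) l) (orbit α hinv (θ l) (y i))))).re) := by
  set P := pr ε (ostep hinv θ ρ y) l with hP
  set x : Fin r → G → F := fun i => orbit α hinv (θ l) (y i) with hx
  set ρl : Fin r → F := fun i => ρ (l * r + i) with hρl
  set Ψ : ℕ → StarSubalgebra ℂ F := fun j => genAlg ({x | ∃ i d, θ i d = x} ∪ ρ '' {m | m < j})
  have hclosed : ∀ j, IsClosed (Ψ j : Set F) := fun j => isClosed_genAlg _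
  have hθΨ : ∀ i d j, θ i d ∈ Ψ j := fun i d j => subset_genAlg _ (Or.inl ⟨i, d, rfl⟩)
  have hρΨ : ∀ {m j}, m < j → ρ m ∈ Ψ j := fun {m j} h => subset_genAlg _ (Or.inr ⟨m, h, rfl⟩)
  have hprΨ : ∀ m, m ≤ l → ∀ g, ∀ j, l * r ≤ j → pr ε (ostep hinv θ ρ y) m g ∈ Ψ j := by
    intro m
    induction m with
    | zero => intro _ g j _; exact one_mem _
    | succ m ih =>
      intro hm g j hj
      rw [pr_succ, ← Complex.coe_smul]
      refine mul_mem (ih (Nat.le_of_succ_le hm) g j hj)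
        (add_mem (one_mem _) (SMulMemClass.smul_mem _ (sum_mem fun i _ => mul_mem
          (hρΨ (lt_of_lt_of_le (index_lt hm i) hj)) (hθΨ _ _ _))))
  have hρc : ∀ i, ∀ z ∈ ({x | ∃ i d, θ i d = x} ∪ Set.range ρ), Commute (ρl i) z := by
    rintro i z (⟨i', d, rfl⟩ | ⟨j, rfl⟩)
    exacts [hρθ _ _ _, hρρ _ _]
  have hρP : ∀ i g, ∀ j, l * r ≤ j → Commute (ρl i) (P g) := fun i g j hj => by
    refine commute_genAlg (X := {ρl i}) ?_ (fun a ha z hz => ?_) (subset_genAlg _ rfl)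
      (hprΨ l le_rfl g j hj)
    · rintro z (⟨i', d, rfl⟩ | ⟨m, hm, rfl⟩)
      · exact Or.inl ⟨i', star d, map_star _ _⟩
      · exact Or.inr ⟨m, hm, (hρ m).1.star_eq.symm⟩
    · rw [Set.mem_singleton_iff] at ha
      subst ha
      exact hρc i z (hz.imp id fun ⟨m, _, e⟩ => ⟨m, e⟩)
  have hxΨ : ∀ i g j, x i g ∈ Ψ j := fun i g j => hθΨ _ _ _
  have hPΨ : ∀ g, ∀ j, l * r ≤ j → P g ∈ Ψ j := fun g j hj => hprΨ l le_rfl g j hj
  set q := iq (stot s P) with hq
  have hqΨ : ∀ j, l * r ≤ j → q ∈ Ψ j := fun j hj =>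
    iq_mem (hclosed j) (stot_mem fun g _ => hPΨ g j hj)
  have hρq : ∀ i, Commute (ρl i) q := fun i =>
    commute_cfc_stot (fun g _ => hρP i g (l * r) le_rfl) _
  have hxqΨ : ∀ i j, l * r ≤ j → xq s P (x i) ∈ Ψ j := fun i j hj =>
    mul_mem (mul_mem (hqΨ j hj) (sum_mem fun g _ => mul_mem (hPΨ g j hj) (hxΨ i g j))) (hqΨ j hj)
  -- evaluation of pairs of signs
  have pair : ∀ Z : Fin r → Fin r → F, (∀ i i' j, l * r ≤ j → Z i i' ∈ Ψ j) →
      τ (X * ∑ i, ∑ i', Z i i' * (ρl i * ρl i')) = 2 * ∑ i, τ (X * Z i i) := by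
    intro Z hZ
    rw [Finset.mul_sum, map_sum, Finset.mul_sum]
    refine Finset.sum_congr rfl fun i _ => ?_
    rw [Finset.mul_sum, map_sum, Finset.sum_eq_single i (fun i' _ hne => ?_)
      fun h => absurd (Finset.mem_univ i) h]
    · exact (hsig (l * r + i) _ (hZ i i _ (Nat.le_add_right _ _))).2
    · rcases lt_or_gt_of_ne (fun e => hne (Fin.ext e) : (i' : ℕ) ≠ i) with h | h
      · show τ (X * (Z i i' * (ρ (l * r + i) * ρ (l * r + i')))) = 0
        rw [(hρρ (l * r + i) (l * r + i')).eq, ← mul_assoc (Z i i')]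
        exact (hsig (l * r + i) _ (mul_mem (hZ i i' _ (Nat.le_add_right _ _))
          (hρΨ (show l * r + (i' : ℕ) < l * r + i by omega)))).1
      · rw [← mul_assoc (Z i i')]
        exact (hsig (l * r + i') _ (mul_mem (hZ i i' _ (Nat.le_add_right _ _))
          (hρΨ (show l * r + (i : ℕ) < l * r + i' by omega)))).1
  have hρx : ∀ i i' g, Commute (ρl i) (x i' g) := fun i i' g => hρθ _ _ _
  have e1 : ∀ g, P g * (ostep hinv θ ρ y l g * ostep hinv θ ρ y l g) =
      ∑ i, ∑ i', P g * (x i g * x i' g) * (ρl i * ρl i') := fun g => by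
    rw [ostep, Finset.sum_mul_sum, Finset.mul_sum]
    refine Finset.sum_congr rfl fun i _ => ?_
    rw [Finset.mul_sum]
    refine Finset.sum_congr rfl fun i' _ => ?_
    show P g * (ρl i * x i g * (ρl i' * x i' g)) = _
    rw [(hρx i i g).eq, (hρx i' i' g).eq, mul_assoc (x i g), ← mul_assoc (ρl i),
      (hρx i i' g).eq]
    simp only [mul_assoc]
  have e2 : xq s P (ostep hinv θ ρ y l) = ∑ i, ρl i * xq s P (x i) := by
    have : ∑ g ∈ s, P g * ostep hinv θ ρ y l g = ∑ i, ρl i * ∑ g ∈ s, P g * x i g := by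
      simp only [ostep, Finset.mul_sum]
      rw [Finset.sum_comm]
      refine Finset.sum_congr rfl fun i _ => Finset.sum_congr rfl fun g _ => ?_
      show P g * (ρl i * x i g) = _
      rw [← mul_assoc, ← mul_assoc, (hρP i g _ le_rfl).eq]
    rw [xq, this, Finset.mul_sum, Finset.sum_mul]
    refine Finset.sum_congr rfl fun i _ => ?_
    show q * (ρl i * _) * q = ρl i * (q * _ * q)
    rw [← mul_assoc q, ← (hρq i).eq]
    simp only [mul_assoc]
  have hρxq : ∀ i i', Commute (ρl i) (xq s P (x i')) := fun i i' =>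
    ((hρq i).mul_right (Commute.sum_right _ _ _ fun g _ =>
      (hρP i g _ le_rfl).mul_right (hρx i i' g))).mul_right (hρq i)
  have e3 : xq s P (ostep hinv θ ρ y l) * xq s P (ostep hinv θ ρ y l) =
      ∑ i, ∑ i', xq s P (x i) * xq s P (x i') * (ρl i * ρl i') := by
    rw [e2, Finset.sum_mul_sum]
    refine Finset.sum_congr rfl fun i _ => Finset.sum_congr rfl fun i' _ => ?_
    rw [(hρxq i i).eq, (hρxq i' i').eq, mul_assoc (xq s P (x i)), ← mul_assoc (ρl i),
      (hρxq i i').eq]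
    simp only [mul_assoc]
  have t1 : ∀ g, (τ (X * (P g * (ostep hinv θ ρ y l g * ostep hinv θ ρ y l g)))).re =
      2 * ∑ i, (τ (X * (P g * (x i g * x i g)))).re := fun g => by
    rw [e1, pair _ fun i i' j hj => mul_mem (hPΨ g j hj) (mul_mem (hxΨ i g j) (hxΨ i' g j))]
    simp [Complex.mul_re]
  rw [e3, pair _ fun i i' j hj => mul_mem (hxqΨ i j hj) (hxqΨ i' j hj),
    Finset.sum_congr rfl fun g _ => t1 g]
  simp only [Complex.mul_re, Complex.re_ofNat, Complex.im_ofNat, zero_mul, sub_zero, Complex.re_sum,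
    ← Finset.mul_sum]
  rw [Finset.sum_comm, Finset.sum_sub_distrib, mul_sub]

end

end Vale.Agent.P095.Amenable
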